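import Crest.Agent.N222.A.Defs
import Crest.Agent.N222.B.Defs2

/-!
# Row 222, part A, geometric half (helper72): FROZEN definitions and statements

`Base n` : a space `Z` with local trivialisations `T × V → Z` (no group).  `GSt B` : a family, indexed
by the scale `s`, of delta-calculi on `Z`: immersed manifolds for `s ≠ 0`, the fibres for `s = 0`.
`AStmt` : the output of part A.
-/

set_option autoImplicit false
set_option linter.dupNamespace false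
open Filter Set Topology Function
open scoped ContDiff

noncomputable section

namespace Crest.Agent.N222

namespace Pre

variable {R : Type} [CommRing R] {ι : Type} [Fintype ι] (S : Pre R ι)

/-- the one-form `b` as a tangential field of the graph -/
def lift (u v : R) (b : ι → R) (c : Option ι) : R :=
  c.elim 0 b + S.nu u v c * ∑ a, S.X u v a * b a

/-- the new drift `b - d log W + m du` (`w = W = 1 / v`) -/
def newb (u v w m : R) (b : ι → R) (c : Option ι) : R :=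
  S.lift u v b c + w * (S.graph u v).D c v + m * (S.graph u v).D c u

/-- `div X + b(X)` -/
def hb (b : ι → R) (u v : R) : R := S.dv (S.X u v) + ∑ a, S.X u v a * b a

end Pre

namespace A

section Step

variable {X ι : Type} [Fintype ι] (S : Pre (X → ℝ) ι) (b : ι → X → ℝ) (Q σ a v : X → ℝ) (u0 : ℝ)

/-- `W = √(1 + |∇v|²)` -/
def ww (p : X) : ℝ := √(1 + S.gam v v p)

/-- `1 / W` -/
def vv (p : X) : ℝ := (√(1 + S.gam v v p))⁻¹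

/-- the defect of the step equation -/
def dfc (p : X) : ℝ := ww S v p * (S.hb b v (vv S v) p + (1 - vv S v p ^ 2) / (u0 + v p)
  - beta Q σ v u0 p * (u0 + v p) / 2)

/-- the free function `n` -/
def nn (p : X) : ℝ := (1 - vv S v p) / (u0 + v p) - beta Q σ v u0 p * (u0 + v p) / 2
  + a p * vv S v p * (u0 + v p) / 2

/-- `m = W (h + n)` -/
def mm (p : X) : ℝ := ww S v p * (S.hb b v (vv S v) p + nn S Q σ a v u0 p)

/-- the new calculus -/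
def stepS : Pre (X → ℝ) (Option ι) := S.graph v (vv S v)

/-- the new drift -/
def stepb : Option ι → X → ℝ := S.newb v (vv S v) (ww S v) (mm S b Q σ a v u0) b

end Step

/-- jointly smooth families of functions -/
def SmJ {d : ℕ} {X Λ F : Type} [TopologicalSpace X] [NormedAddCommGroup Λ] [NormedSpace ℝ Λ]
    [NormedAddCommGroup F] [NormedSpace ℝ F] (ch : X → OpenPartialHomeomorph X (E (Fin d)))
    (V : Set Λ) (f : Λ → X → F) : Prop :=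
  ∀ p, ContDiffOn ℝ ∞ (fun q : E (Fin d) × Λ => f q.2 ((ch p).symm q.1)) ((ch p).target ×ˢ V)

/-- **the algebraic step identity** -/
def IdStmt : Prop := ∀ (R : Type) [CommRing R] [Algebra ℝ R] (ι : Type) [Fintype ι] [DecidableEq ι]
  (S : Pre R ι), S.IsDS → ∀ (u v w m : R) (b : ι → R), v ^ 2 * (1 + S.gam u u) = 1 → w * v = 1 →
  S.Tan b → (S.graph u v).Tan (S.newb u v w m b) ∧
    (S.graph u v).Eb (S.newb u v w m b) = S.Eb b + S.a2 u v + w ^ 2 * (S.graph u v).gam v v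
      + (v * m - S.hb b u v) ^ 2 - m ^ 2 - 2 * S.dir (S.X u v) (v * m - S.hb b u v) ∧
    ∑ a, ∑ c, S.A u v a c * ((S.graph u v).D a u * (S.graph u v).D c u) = -v * S.dir (S.X u v) v

/-- **GEN** on an immersed manifold -/
def GenStmt : Prop := ∀ (d : ℕ) (ι : Type) [Fintype ι] [DecidableEq ι] (X : Type)
  [TopologicalSpace X] (M : Imm d ι X) (b : ι → X → ℝ) (Q σ a v : X → ℝ) (u0 : ℝ),
  (∀ c, M.Sm (b c)) → M.pre.Tan b → M.Sm Q → M.Sm σ → M.Sm a → M.Sm v → (∀ p, 0 ≤ v p) → 0 < u0 →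
  (stepS M.pre v).Tan (stepb M.pre b Q σ a v u0) ∧ ∀ p,
    M.pre.Eb b p + gen (u0 + v p) (√(1 + M.pre.gam v v p)) (beta Q σ v u0 p)
        (M.pre.gam v (beta Q σ v u0) p / √(1 + M.pre.gam v v p)) (a p)
        (M.pre.gam v a p / √(1 + M.pre.gam v v p))
      - ((2 / u0 + |a p| * (u0 + v p)) * |dfc M.pre b Q σ v u0 p| + dfc M.pre b Q σ v u0 p ^ 2)
      ≤ (stepS M.pre v).Eb (stepb M.pre b Q σ a v u0) p

/-- **FAM**: approximate solutions of the step equation on a compact manifold, smooth in a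
parameter. -/
def FamStmt : Prop := ∀ (d : ℕ) (ι κ : Type) [Fintype ι] [DecidableEq ι] [Fintype κ] (Y : Type)
  [TopologicalSpace Y] [T2Space Y] [SecondCountableTopology Y] [MeasurableSpace Y] [BorelSpace Y]
  [CompactSpace Y] (ch : Y → OpenPartialHomeomorph Y (E (Fin d))) (N : (κ → ℝ) → Imm d ι Y)
  (b : (κ → ℝ) → ι → Y → ℝ) (Q σ : (κ → ℝ) → Y → ℝ) (abar u0 ε : ℝ) (K V : Set (κ → ℝ)),
  (∀ ξ, (N ξ).ch = ch) → SmJ ch univ (fun ξ => (N ξ).x) → (∀ c, SmJ ch univ fun ξ => b ξ c) →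
  SmJ ch univ Q → SmJ ch univ σ → (∀ ξ p, 0 < Q ξ p) → (∀ ξ p, 0 ≤ σ ξ p ∧ σ ξ p ≤ abar) →
  0 < u0 → 0 < ε → IsCompact K → IsOpen V → K ⊆ V → (∀ ξ p, σ ξ p ≠ 0 → ξ ∈ K) →
  ∃ (v : (κ → ℝ) → Y → ℝ) (K' : Set (κ → ℝ)), SmJ ch univ v ∧ IsCompact K' ∧ K' ⊆ V ∧
    (∀ ξ p, v ξ p ≠ 0 → ξ ∈ K') ∧ (∀ ξ p, 0 ≤ v ξ p ∧ (u0 + v ξ p) ^ 2 ≤ u0 ^ 2 + 4 * abar) ∧
    ∀ ξ p, |dfc (N ξ).pre (b ξ) (Q ξ) (σ ξ) (v ξ) u0 p| ≤ ε

/-- A space with local trivialisations. -/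
structure Base (n : ℕ) where
  d : ℕ
  Z : Type
  [tZ : TopologicalSpace Z]
  [t2Z : T2Space Z]
  ch : Z → OpenPartialHomeomorph Z (E (Fin d))
  mem : ∀ z, z ∈ (ch z).source
  T : Type
  [tT : TopologicalSpace T]
  [t2T : T2Space T]
  [scT : SecondCountableTopology T]
  ιT : Type
  [fT : Fintype ιT]
  [dT : DecidableEq ιT]
  N : Imm n ιT T
  κ : Type
  [fκ : Fintype κ]
  G : Type
  [fG : Fintype G]
  [dG : DecidableEq G]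
  t : G → T → (κ → ℝ) → Z
  V : G → Set (κ → ℝ)
  V_open : ∀ g, IsOpen (V g)
  closed : ∀ g K, IsCompact K → K ⊆ V g → IsClosed {z | ∃ x, ∃ ξ ∈ K, t g x ξ = z}
  sm_res : ∀ g (f : Z → ℝ), SmA ch f → SmJ N.ch (V g) fun ξ x => f (t g x ξ)
  sm_ext : ∀ g (F : (κ → ℝ) → T → ℝ) (K : Set (κ → ℝ)), SmJ N.ch univ F → IsCompact K → K ⊆ V g →
    (∀ ξ x, F ξ x ≠ 0 → ξ ∈ K) → ∃ f : Z → ℝ, SmA ch f ∧ (∀ x, ∀ ξ ∈ V g, f (t g x ξ) = F ξ x) ∧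
      ∀ z, (∃ x, ∃ ξ ∈ V g, t g x ξ = z) ∨ f z = 0
  inj : ∀ g x x', ∀ ξ ∈ V g, ∀ ξ' ∈ V g, t g x ξ = t g x' ξ' → ξ = ξ'
  Ω : Set Z
  Ω_cpt : IsCompact Ω
  Ω_cover : ∀ z ∈ Ω, ∃ g x, ∃ ξ ∈ V g, t g x ξ = z
  Ω_loc : ∀ g, ∃ D : Set T, IsCompact D ∧ ∀ x, ∀ ξ ∈ V g, t g x ξ ∈ Ω → x ∈ D

attribute [instance] Base.tZ Base.t2Z Base.tT Base.t2T Base.scT Base.fT Base.dT Base.fκ Base.fG
  Base.dG

/-- the domain of a trivialisation -/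
def Base.O {n : ℕ} (B : Base n) (g : B.G) : Set B.Z := {z | ∃ x, ∃ ξ ∈ B.V g, B.t g x ξ = z}

/-- supported over a compact part of the chart -/
def Base.Su {n : ℕ} (B : Base n) (g : B.G) (f : B.Z → ℝ) : Prop :=
  ∃ K, IsCompact K ∧ K ⊆ B.V g ∧ ∀ z, f z ≠ 0 → ∃ x, ∃ ξ ∈ K, B.t g x ξ = z

/-- geometric states -/
structure GSt {n : ℕ} (B : Base n) where
  ι : Type
  [fin : Fintype ι]
  [dec : DecidableEq ι]
  S : ℝ → Pre (B.Z → ℝ) ι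
  b : ℝ → ι → B.Z → ℝ
  vs : List (B.Z → ℝ)
  smD : ∀ c (f : ℝ → B.Z → ℝ), SmJ B.ch univ f → SmJ B.ch univ fun s => (S s).D c (f s)
  smb : ∀ c, SmJ B.ch univ fun s => b s c
  imm : ∀ s ≠ 0, ∃ M : Imm B.d ι B.Z, M.ch = B.ch ∧ M.pre = S s ∧ (S s).Tan (b s)
  smx : ∀ c, SmA B.ch ((S 0).x c)
  j : B.ιT → ι
  j_inj : Injective j
  x_j : ∀ g a x, ∀ ξ ∈ B.V g, (S 0).x (j a) (B.t g x ξ) = B.N.x x a
  fib : ∀ g, ∀ ξ ∈ B.V g, ∃ N' : Imm n ι B.T, N'.ch = B.N.ch ∧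
    (∀ c x, N'.x x c = (S 0).x c (B.t g x ξ)) ∧ ∀ f, SmA B.ch f → ∀ c x,
      (S 0).D c f (B.t g x ξ) = N'.pre.D c (fun y => f (B.t g y ξ)) x
  vs_sm : ∀ v ∈ vs, SmA B.ch v
  vs_le : ∀ φ : (B.Z → ℝ) → ℝ, (∀ f, 0 ≤ φ f) → (vs.map φ).sum ≤ ∑ c, φ ((S 0).x c)

attribute [instance] GSt.fin GSt.dec

/-- Fisher information at a point -/
def GSt.Fi {n : ℕ} {B : Base n} (st : GSt B) (s : ℝ) (z : B.Z) (M : B.G → B.Z → ℝ) (I : ℝ) : Prop :=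
  ∃ j : B.G → ℝ, (∀ g, 0 ≤ j g ∧ (st.S s).gam (M g) (M g) z ≤ j g * M g z) ∧ ∑ g, j g ≤ I

/-- **the fibrewise solution on `Z`** -/
def SolStmt : Prop := ∀ (n : ℕ) (B : Base n) (st : GSt B) (g : B.G) (Q σ : B.Z → ℝ)
  (abar u0 ε : ℝ), SmA B.ch Q → SmA B.ch σ → (∀ z, 0 < Q z) → (∀ z, 0 ≤ σ z ∧ σ z ≤ abar) →
  B.Su g σ → 0 < u0 → 0 < ε → ∃ v : B.Z → ℝ, SmA B.ch v ∧ B.Su g v ∧
    (∀ z, 0 ≤ v z ∧ (u0 + v z) ^ 2 ≤ u0 ^ 2 + 4 * abar) ∧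
    ∀ z ∈ B.Ω, z ∈ B.O g → |dfc (st.S 0) (st.b 0) Q σ v u0 z| ≤ ε

/-- **the next state** -/
def NextStmt : Prop := ∀ (n : ℕ) (B : Base n) (st : GSt B) (Q σ a v : B.Z → ℝ) (u0 : ℝ),
  SmA B.ch Q → SmA B.ch σ → SmA B.ch a → SmA B.ch v → (∀ z, 0 ≤ v z) → 0 < u0 →
  ∃ (st' : GSt B) (_ : st'.vs = v :: st.vs), ∀ s z,
    (∀ f h, (st'.S s).gam f h z = (stepS (st.S s) v).gam f h z) ∧
    (st'.S s).Eb (st'.b s) z = (stepS (st.S s) v).Eb (stepb (st.S s) (st.b s) Q σ a v u0) z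

/-- **PART A** -/
def AStmt : Prop := ∀ (n : ℕ) (s0 K0 : ℝ), 0 < s0 → 1 ≤ K0 → ∃ ρ I1 : ℝ,
  ∀ (B : Base n) (st0 : GSt B) (χ d : B.G → B.Z → ℝ) (δ : B.G → B.G → B.Z → ℝ),
    (∀ g, SmA B.ch (χ g) ∧ SmA B.ch (d g) ∧ (∀ g', SmA B.ch (δ g g')) ∧ B.Su g (χ g) ∧
      ∀ z, 0 ≤ χ g z ∧ χ g z ≤ 1) →
    (∀ᶠ s in 𝓝[≠] (0 : ℝ), ∀ z ∈ B.Ω, s0 ≤ (st0.S s).Eb (st0.b s) z ∧ ∑ g, χ g z = 1 ∧
      st0.Fi s z χ K0 ∧
      (∀ g, z ∈ B.O g → (st0.S s).gam (d g) (d g) z ≤ K0 ∧ (0 < χ g z → d g z ≤ 1)) ∧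
      ∀ g g', z ∈ B.O g → z ∈ B.O g' → (st0.S s).gam (δ g g') (δ g g') z = 0 ∧
        d g z - d g' z ≤ δ g g' z ∧ δ g g' z ≤ d g z + d g' z) →
    ∀ Λ : ℝ, 0 ≤ Λ → ∃ (st : GSt B) (P : B.G → B.Z → ℝ),
      (∀ g, SmA B.ch (P g) ∧ B.Su g (P g) ∧ ∀ z, 0 ≤ P g z) ∧
      (∀ s ≠ 0, ∀ f, SmA B.ch f → ∀ z, (st.S s).gam f f z ≤ (st0.S s).gam f f z) ∧
      ∀ᶠ s in 𝓝[≠] (0 : ℝ), ∀ z ∈ B.Ω, ∑ g, P g z = 1 ∧ (∀ g, 0 < P g z → d g z ≤ ρ) ∧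
        ∃ I, st.Fi s z P I ∧ I ≤ I1 ∧ s0 / 4 + Λ * I ≤ (st.S s).Eb (st.b s) z

end A

end Crest.Agent.N222

end
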