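import Crest.Agent.N222.A.Fam0
import Crest.Agent.N222.J.Imm
import Crest.Agent.N222.J.CJ

/-! # Row 222, part A: exact solutions of the step equation in a family (helper72) -/

set_option autoImplicit false
set_option linter.dupNamespace false
open Filter Set Topology Function
open scoped ContDiff

noncomputable section

namespace Crest.Agent.N222.A

/-- the right hand side of the step equation -/
def PhiS (u0 : ℝ) (q : (ℝ × ℝ) × ℝ × ℝ) : ℝ :=
  -((1 - q.2.2 ^ 2) * (u0 + q.2.1)⁻¹) + q.1.1 / 2 * (u0 + q.2.1)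
    - q.1.1 / 2 * (4 * q.1.2 + u0 ^ 2) * (u0 + q.2.1)⁻¹

theorem good_PhiS {u0 : ℝ} : J.Good (PhiS u0) (Ioi (-u0)) {c | 0 < c.1 ∧ 0 ≤ c.2} := by
  refine ⟨isOpen_Ioi, ordConnected_Ioi, ?_, fun c hc t ht v hv => ?_⟩
  · have h : ContDiffOn ℝ ∞ (fun q : (ℝ × ℝ) × ℝ × ℝ => (u0 + q.2.1)⁻¹)
        (univ ×ˢ Ioi (-u0) ×ˢ univ) :=
      ContDiffOn.inv (by fun_prop) fun q hq => by
        have : -u0 < q.2.1 := hq.2.1
        linarith
    exact ((ContDiffOn.mul (by fun_prop) h).neg.add (by fun_prop)).sub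
      (ContDiffOn.mul (by fun_prop) h)
  · have h0 : 0 < u0 + t := by have : -u0 < t := ht; linarith
    have h1 := (hasDerivAt_id' t).const_add u0
    have h2 := h1.inv h0.ne'
    have h := ((h2.const_mul (1 - v ^ 2)).neg.add (h1.const_mul (c.1 / 2))).sub
      (h2.const_mul (c.1 / 2 * (4 * c.2 + u0 ^ 2)))
    rw [show deriv (fun s => PhiS u0 (c, s, v)) t = _ from h.deriv]
    have h3 : 0 ≤ 1 - v ^ 2 := by nlinarith [hv.1, hv.2]
    have h4 : 0 ≤ (1 - v ^ 2) * (1 / (u0 + t) ^ 2) := by positivity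
    have h5 : 0 ≤ c.1 / 2 * (4 * c.2 + u0 ^ 2) * (1 / (u0 + t) ^ 2) := by
      have := hc.1; have := hc.2; positivity
    have := hc.1
    simp only [neg_div, mul_neg]
    linarith

theorem SmJ.cj {d : ℕ} {Λ F : Type} [NormedAddCommGroup Λ] [NormedSpace ℝ Λ]
    [NormedAddCommGroup F] [NormedSpace ℝ F] {U : Set (E (Fin d))} (hU : IsOpen U)
    {f : Λ → E (Fin d) → F}
    (hf : ContDiffOn ℝ ∞ (fun q : E (Fin d) × Λ => f q.2 q.1) (U ×ˢ univ)) : J.CJ U f :=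
  J.CJ.of_smooth_open (Φ := fun q : Λ × E (Fin d) => f q.1 q.2) hU (isOpen_univ.prod hU)
    (hf.comp (f := fun q : Λ × E (Fin d) => (q.2, q.1)) (by fun_prop) fun _ hq => ⟨hq.2, hq.1⟩)
    continuous_id fun _ _ hx => ⟨mem_univ _, hx⟩

theorem f5 (hP : J.PerronStmt) (hC : J.ContStmt) : F5Stmt := by
  intro d ι κ _ _ _ Y _ _ _ ch N b Q σ abar u0 hN hx hb hQ hσ Q0 σ0 hu a0
  have sm : ∀ ξ {F : Type} [NormedAddCommGroup F] [NormedSpace ℝ F] {f : (κ → ℝ) → Y → F},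
      SmJ ch univ f → (N ξ).Sm (f ξ) := fun ξ F _ _ f hf => by
    rw [Imm.Sm, hN]; exact hf.slice (mem_univ ξ)
  have hs : u0 ≤ √(u0 ^ 2 + 4 * abar) := Real.le_sqrt_of_sq_le (by linarith)
  have hI : (0 : ℝ) ∈ Ioi (-u0) := neg_lt_zero.2 hu
  have h0 : ∀ c : ℝ × ℝ, PhiS u0 (c, 0, 1) = -(2 * c.1 * c.2 / u0) := fun c => by
    simp only [PhiS]; field_simp; ring
  have ex := fun ξ => (N ξ).exists_sol hP (fun a => sm ξ (hb a)) (good_PhiS (u0 := u0))
    (sm ξ (hQ.prodMk hσ)) (fun p => ⟨Q0 ξ p, (σ0 ξ p).1⟩) (t := √(u0 ^ 2 + 4 * abar) - u0) hI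
    (by rw [mem_Ioi]; linarith) (by linarith)
    (fun p => by
      rw [h0, neg_nonpos]
      have := Q0 ξ p; have := (σ0 ξ p).1; positivity)
    (fun p => by
      have h1 : 0 < √(u0 ^ 2 + 4 * abar) := hu.trans_le hs
      have h2 : √(u0 ^ 2 + 4 * abar) ^ 2 = u0 ^ 2 + 4 * abar := Real.sq_sqrt (by positivity)
      have e : PhiS u0 ((Q ξ p, σ ξ p), √(u0 ^ 2 + 4 * abar) - u0, 1) =
          Q ξ p / 2 * (√(u0 ^ 2 + 4 * abar) ^ 2 - (4 * σ ξ p + u0 ^ 2)) / √(u0 ^ 2 + 4 * abar) := by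
        simp only [PhiS, add_sub_cancel]; field_simp; ring
      rw [e, h2]
      have := Q0 ξ p
      have : 0 ≤ u0 ^ 2 + 4 * abar - (4 * σ ξ p + u0 ^ 2) := by linarith [(σ0 ξ p).2]
      positivity)
  choose u su he hbd using ex
  set A := (N 0).atl
  have hA : ∀ ξ, A.ch = (N ξ).ch := fun ξ => (hN 0).trans (hN ξ).symm
  have tg : ∀ p, A.tg p univ = (ch p).target := fun p => by rw [A.tg_univ, hA 0, hN]
  have hJ := fun ξ => (N ξ).jop_on (fun a => sm ξ (hb a)) A (hA ξ)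
  have uI : ∀ ξ p, u ξ p ∈ Ioi (-u0) := fun ξ p => (neg_lt_zero.2 hu).trans_le (hbd ξ p).1
  have hfd : ∀ p i, J.CJ (ch p).target fun ξ z => fderiv ℝ ((N ξ).x ∘ (ch p).symm) z (ee i) :=
    fun p i => SmJ.cj (ch p).open_target ((hx.fderiv_fst isOpen_univ p).clm_apply contDiffOn_const)
  refine ⟨u, fun p => ?_, hbd, fun ξ hz p => le_antisymm ?_ (hbd ξ p).1, fun ξ p => ?_⟩
  · have h := hC d Y A (ℝ × ℝ) (κ → ℝ) (fun ξ => (N ξ).jop (b ξ)) (PhiS u0) _ _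
      (fun ξ p => (Q ξ p, σ ξ p)) univ u isOpen_univ hJ good_PhiS
      (fun ξ p _ => ⟨Q0 ξ p, (σ0 ξ p).1⟩) (fun p i j => ?_) (fun p => ?_) (fun p => ?_)
      (fun ξ => ⟨((N ξ).smOn_univ (hA ξ)).2 (su ξ), fun p _ => he ξ p⟩) (fun ξ p _ => uI ξ p)
      (fun _ _ _ => ⟨univ, subset_rfl, isCompact_univ,
        Eventually.of_forall fun _ p hp => (hp.2 hp.1).elim⟩) p
    · rwa [tg, hA 0, hN] at h
    · rw [tg]
      simp only [Imm.jop, hN, gram, Matrix.of_apply]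
      exact ((hfd p i).prodMk (ch p).open_target (hfd p j)).comp_smooth (ch p).open_target
        (Φ := fun q : E ι × E ι => inner ℝ q.1 q.2) (contDiff_fst.inner ℝ contDiff_snd)
    · rw [tg]
      simp only [Imm.jop, hN]
      exact J.CJ.pi (ch p).open_target fun i => J.CJ.sum (ch p).open_target fun a =>
        (SmJ.cj (f := fun ξ z => b ξ a ((ch p).symm z)) (ch p).open_target (hb a p)).mul
          (ch p).open_target ((hfd p i).clm (ch p).open_target (EuclideanSpace.proj a))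
    · rw [tg, hA 0, hN]
      exact SmJ.cj (ch p).open_target (hQ.prodMk hσ p)
  · refine (J.comp d Y A (ℝ × ℝ) _ (PhiS u0) _ (fun p => (Q ξ p, σ ξ p)) univ (fun _ => 0) (u ξ)
      isOpen_univ (hJ ξ) (good_PhiS.mono ?_) continuousOn_const
      (((N ξ).smOn_univ (hA ξ)).2 (su ξ)) fun p _ => ⟨hI, uI ξ p⟩).2 (fun p hp => ?_)
      (fun p _ => (he ξ p).ge) (fun _ _ => ⟨univ, subset_rfl, isCompact_univ,
        fun p hp => (hp.2 hp.1).elim⟩) p (mem_univ p)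
    · rintro _ ⟨p, -, rfl⟩; exact ⟨Q0 ξ p, (σ0 ξ p).1⟩
    · refine J.vsup_of_sm isOpen_univ (hJ ξ) hp (A.smN_const 0 p) ?_
      rw [((hJ ξ).const hp 0).1, ((hJ ξ).const hp 0).2, inv_one, h0, hz]
      simp
  · have h1 : 0 < u0 + u ξ p := by linarith [(hbd ξ p).1]
    have e : (N ξ).pre.hb (b ξ) (u ξ) (vv (N ξ).pre (u ξ)) p =
      PhiS u0 ((Q ξ p, σ ξ p), u ξ p, vv (N ξ).pre (u ξ) p) := he ξ p
    rw [dfc, e, PhiS, beta]
    refine mul_eq_zero_of_right _ ?_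
    field_simp
    ring

end Crest.Agent.N222.A

end
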