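import Crest.Agent.N222.A.Fam0

/-! # Row 222, part A: patching exact solutions in the parameter (helper72) -/

set_option autoImplicit false
set_option linter.dupNamespace false
set_option linter.unusedSectionVars false
open Filter Set Topology Function Metric
open scoped ContDiff Manifold

noncomputable section

namespace Crest.Agent.N222.A

variable {d : ℕ} {ι Y : Type} [Fintype ι] [DecidableEq ι] [TopologicalSpace Y]

/-- second order jets -/
abbrev Jet (ι : Type) : Type := ℝ × (ι → ℝ) × (ι → ι → ℝ)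

/-- the jet of a function -/
def jet (M : Imm d ι Y) (w : Y → ℝ) (p : Y) : Jet ι :=
  (w p, fun a => M.pre.D a w p, fun a c => M.pre.D a (M.pre.D c w) p)

/-- `W` on jets -/
def jw (j : Jet ι) : ℝ := √(1 + ∑ a, j.2.1 a * j.2.1 a)

/-- the defect on jets -/
def Psi' (u0 : ℝ) (c : (ι → ℝ) × ℝ × ℝ) (j : Jet ι) : ℝ :=
  jw j * (∑ a, ((jw j)⁻¹ * j.2.2 a a - (jw j)⁻¹ ^ 3 * (∑ e, j.2.1 e * j.2.2 a e) * j.2.1 a)
    + ∑ a, (jw j)⁻¹ * j.2.1 a * c.1 a + (1 - (jw j)⁻¹ ^ 2) / (u0 + |j.1|)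
    - c.2.1 * (1 - (c.2.2 + u0 ^ 2 / 4) / ((u0 + |j.1|) ^ 2 / 4)) * (u0 + |j.1|) / 2)

theorem jw_pos (j : Jet ι) : 0 < jw j :=
  Real.sqrt_pos.2 (add_pos_of_pos_of_nonneg one_pos
    (Finset.sum_nonneg fun _ _ => mul_self_nonneg _))

theorem continuous_jw : Continuous (jw : Jet ι → ℝ) := by unfold jw; fun_prop

theorem continuous_Psi {u0 : ℝ} (hu : 0 < u0) :
    Continuous fun q : ((ι → ℝ) × ℝ × ℝ) × Jet ι => Psi' u0 q.1 q.2 := by
  have h1 : Continuous fun q : ((ι → ℝ) × ℝ × ℝ) × Jet ι => jw q.2 :=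
    continuous_jw.comp continuous_snd
  have h2 : Continuous fun q : ((ι → ℝ) × ℝ × ℝ) × Jet ι => (jw q.2)⁻¹ :=
    h1.inv₀ fun q => (jw_pos _).ne'
  have h3 : Continuous fun q : ((ι → ℝ) × ℝ × ℝ) × Jet ι => u0 + |q.2.1| := by fun_prop
  unfold Psi'
  refine h1.mul ((((continuous_finsetSum _ fun a _ => (h2.mul (by fun_prop)).sub
    (((h2.pow 3).mul (by fun_prop)).mul (by fun_prop))).add
    (continuous_finsetSum _ fun a _ => (h2.mul (by fun_prop)).mul (by fun_prop))).add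
    ((continuous_const.sub (h2.pow 2)).div h3 fun q => by positivity)).sub
    ((((by fun_prop : Continuous fun q : ((ι → ℝ) × ℝ × ℝ) × Jet ι => q.1.2.1).mul
      (continuous_const.sub ((by fun_prop : Continuous fun q : ((ι → ℝ) × ℝ × ℝ) × Jet ι =>
        q.1.2.2 + u0 ^ 2 / 4).div ((h3.pow 2).div_const 4) fun q =>
          (div_pos (pow_pos (add_pos_of_pos_of_nonneg hu (abs_nonneg _)) 2) four_pos).ne'))).mul
      h3).div_const 2))

theorem dfc_eq (M : Imm d ι Y) (b : ι → Y → ℝ) (Q σ : Y → ℝ) {w : Y → ℝ} (hw : M.Sm w) (u0 : ℝ)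
    {p : Y} (h0 : 0 ≤ w p) :
    dfc M.pre b Q σ w u0 p = Psi' u0 (fun a => b a p, Q p, σ p) (jet M w p) := by
  have hg : M.pre.gam w w = fun q => ∑ e, M.pre.D e w q * M.pre.D e w q :=
    funext fun q => Imm.gam_apply _ _ _
  have sg : M.Sm (M.pre.gam w w) := by
    rw [hg]; exact Imm.sm_sum _ fun e _ => (hw.D e).mul (hw.D e)
  have e1 : ww M.pre w p = jw (jet M w p) := by simp [ww, jw, jet, hg]
  have e2 : vv M.pre w p = (jw (jet M w p))⁻¹ := by rw [← e1]; rfl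
  have hp := one_add_gam_pos M.pre w p
  have hs : √(1 + M.pre.gam w w p) ≠ 0 := (Real.sqrt_pos.2 hp).ne'
  have hd : HasDerivAt (fun t => (√(1 + t))⁻¹) (-(vv M.pre w p ^ 3) / 2) (M.pre.gam w w p) := by
    refine ((((hasDerivAt_id _).const_add 1).sqrt hp.ne').inv hs).congr_deriv ?_
    simp only [vv, id]
    field_simp
  have e3 : ∀ a, M.pre.D a (vv M.pre w) p =
      -(vv M.pre w p ^ 3) * ∑ e, M.pre.D e w p * M.pre.D a (M.pre.D e w) p := fun a => by
    have h1 := Imm.D_comp (sg.diffAt p) hd a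
    have h2 : M.pre.D a (M.pre.gam w w) p =
        2 * ∑ e, M.pre.D e w p * M.pre.D a (M.pre.D e w) p := by
      rw [hg, Imm.D_sum _ fun e _ => ((hw.D e).mul (hw.D e)).diffAt p, Finset.mul_sum]
      refine Finset.sum_congr rfl fun e _ => ?_
      rw [Imm.D_mul ((hw.D e).diffAt p) ((hw.D e).diffAt p)]; ring
    rw [h2] at h1
    exact h1.trans (by ring)
  have e4 : ∀ a, M.pre.D a (M.pre.X w (vv M.pre w) a) p = vv M.pre w p * M.pre.D a (M.pre.D a w) p
      + M.pre.D a (vv M.pre w) p * M.pre.D a w p := fun a =>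
    Imm.D_mul (hw.vv.diffAt p) ((hw.D a).diffAt p) a
  simp only [dfc, Psi', Pre.hb, Pre.dv, Pi.add_apply, Finset.sum_apply, e4, e3]
  simp only [e1, e2, beta, Pre.X, Pi.mul_apply]
  simp only [jet, abs_of_nonneg h0, sub_eq_add_neg, neg_mul]

theorem jet_sum (M : Imm d ι Y) {J : Type} (s : Finset J) (l : J → ℝ) {u : J → Y → ℝ}
    (hu : ∀ j, M.Sm (u j)) (p : Y) :
    jet M (fun q => ∑ j ∈ s, l j * u j q) p = ∑ j ∈ s, l j • jet M (u j) p := by
  have key : ∀ {u : J → Y → ℝ}, (∀ j, M.Sm (u j)) → ∀ a,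
      M.pre.D a (fun q => ∑ j ∈ s, l j * u j q) = fun q => ∑ j ∈ s, l j * M.pre.D a (u j) q :=
    fun hu a => funext fun q => by
      rw [Imm.D_sum _ fun j _ => ((Imm.sm_const _).mul (hu j)).diffAt q]
      exact Finset.sum_congr rfl fun j _ => Imm.D_const_mul _ ((hu j).diffAt q) a
  refine Prod.ext ?_ (Prod.ext (funext fun a => ?_) (funext fun a => funext fun c => ?_))
  · simp [jet, Prod.fst_sum]
  · simp [jet, Prod.fst_sum, Prod.snd_sum, key hu]
  · simp [jet, Prod.snd_sum, key hu, key fun j => (hu j).D c]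

theorem jet_zero (M : Imm d ι Y) {w : Y → ℝ} (h : ∀ p, w p = 0) (p : Y) : jet M w p = 0 := by
  have e : w = fun _ => 0 := funext h
  have e2 : ∀ c, M.pre.D c (fun _ => (0 : ℝ)) = fun _ => 0 := fun c =>
    funext fun q => Imm.D_const 0 c q
  simp only [jet, e, e2]; rfl

section Cont

variable {Λ F : Type} [NormedAddCommGroup Λ] [NormedSpace ℝ Λ] [NormedAddCommGroup F]
  [NormedSpace ℝ F]

theorem contDiffAt_fderiv_fst {f : E (Fin d) × Λ → F} {q : E (Fin d) × Λ}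
    (hf : ContDiffAt ℝ ∞ f q) :
    ContDiffAt ℝ ∞ (fun r : E (Fin d) × Λ => fderiv ℝ (fun z => f (z, r.2)) r.1) q := by
  have h2 : ContDiffAt ℝ ∞ (uncurry fun (r : E (Fin d) × Λ) (z : E (Fin d)) => f (z, r.2))
      (q, q.1) :=
    ContDiffAt.comp (f := fun r : (E (Fin d) × Λ) × E (Fin d) => (r.2, r.1.2)) (q, q.1) hf
      (contDiffAt_snd.prodMk contDiffAt_fst.snd)
  exact ContDiffAt.fderiv h2 contDiffAt_fst (by simp)

theorem continuous_jet {ch : Y → OpenPartialHomeomorph Y (E (Fin d))} {N : Λ → Imm d ι Y}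
    (hN : ∀ ξ, (N ξ).ch = ch) (hx : SmJ ch univ fun ξ => (N ξ).x) {u : Λ → Y → ℝ}
    (hu : ∀ p, J.CJ (ch p).target fun ξ => u ξ ∘ (ch p).symm) :
    Continuous fun q : (Λ × Λ) × Y => jet (N q.1.1) (u q.1.2) q.2 := by
  refine continuous_iff_continuousAt.2 fun q0 => ?_
  set e := ch q0.2 with he
  have hc : ∀ ξ, IsChart (N ξ).x e := fun ξ => by
    have := (N ξ).isChart q0.2; rwa [hN] at this
  have hm : q0.2 ∈ e.source := by have := (N q0.1.1).mem q0.2; rwa [hN] at this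
  set lam : ι → E (Fin d) × Λ → E (Fin d) := fun a r =>
    ContinuousLinearMap.adjoint (Lam (fderiv ℝ ((N r.2).x ∘ e.symm) r.1)) (ee a) with hlam
  have sl : ∀ a ξ, ∀ z ∈ e.target, ContDiffAt ℝ ∞ (lam a) (z, ξ) := fun a ξ z hz => by
    have h2 := (hx.fderiv_fst isOpen_univ q0.2).contDiffAt (x := (z, ξ))
      ((e.open_target.prod isOpen_univ).mem_nhds ⟨hz, mem_univ _⟩)
    have h3 := ContDiffAt.comp (f := fun q : E (Fin d) × Λ =>
      fderiv ℝ ((N q.2).x ∘ e.symm) q.1) (z, ξ) (contDiffAt_Lam ((hc ξ).inj _ hz)) h2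
    exact (ContDiffAt.comp (z, ξ) (contDiff_adjoint (κ := Fin d) (ι := ι)).contDiffAt h3).clm_apply
      contDiffAt_const
  have hD : ∀ ξ a (f : Y → ℝ), ∀ p ∈ e.source,
      (N ξ).pre.D a f p = fderiv ℝ (f ∘ e.symm) (e p) (lam a (e p, ξ)) := fun ξ a f p hp =>
    congrArg (fun T : E ι →L[ℝ] ℝ => T (ee a)) (Imm.td_chart f (hc ξ) hp)
  have hDD : ∀ ξ ξ' a c, ∀ p ∈ e.source, (N ξ).pre.D a ((N ξ).pre.D c (u ξ')) p =
      iteratedFDeriv ℝ 2 (u ξ' ∘ e.symm) (e p) ![lam a (e p, ξ), lam c (e p, ξ)]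
        + iteratedFDeriv ℝ 1 (u ξ' ∘ e.symm) (e p)
          ![fderiv ℝ (fun z => lam c (z, ξ)) (e p) (lam a (e p, ξ))] := fun ξ ξ' a c p hp => by
    have hz := e.map_source hp
    have h1 : (N ξ).pre.D c (u ξ') ∘ e.symm =ᶠ[𝓝 (e p)]
        fun z => fderiv ℝ (u ξ' ∘ e.symm) z (lam c (z, ξ)) := by
      filter_upwards [e.open_target.mem_nhds hz] with z hz
      rw [comp_apply, hD ξ c _ _ (e.map_target hz), e.right_inv hz]
    have h2 : DifferentiableAt ℝ (fderiv ℝ (u ξ' ∘ e.symm)) (e p) :=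
      ((((hu q0.2).1 ξ').contDiffAt (e.open_target.mem_nhds hz)).fderiv_right (m := 1)
        (by norm_cast)).differentiableAt (by simp)
    have h3 : DifferentiableAt ℝ (fun z => lam c (z, ξ)) (e p) :=
      (ContDiffAt.comp (f := fun z => (z, ξ)) (e p) (sl c ξ _ hz)
        (contDiffAt_id.prodMk contDiffAt_const)).differentiableAt (by simp)
    rw [hD ξ a _ p hp, h1.fderiv_eq, fderiv_clm_apply h2 h3, iteratedFDeriv_two_apply,
      iteratedFDeriv_one_apply]
    simp [add_comm]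
  have ce : ContinuousAt (fun q : (Λ × Λ) × Y => e q.2) q0 :=
    ContinuousAt.comp (f := Prod.snd) (e.continuousAt hm) continuousAt_snd
  have cu : ∀ k, ContinuousAt
      (fun q : (Λ × Λ) × Y => iteratedFDeriv ℝ k (u q.1.2 ∘ e.symm) (e q.2)) q0 := fun k =>
    ContinuousAt.comp (f := fun q : (Λ × Λ) × Y => (q.1.2, e q.2))
      (((hu q0.2).2 k).continuousAt ((isOpen_univ.prod e.open_target).mem_nhds
        ⟨mem_univ _, e.map_source hm⟩)) (continuousAt_fst.snd.prodMk ce)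
  have cl : ∀ a, ContinuousAt (fun q : (Λ × Λ) × Y => lam a (e q.2, q.1.1)) q0 := fun a =>
    ContinuousAt.comp (f := fun q : (Λ × Λ) × Y => (e q.2, q.1.1))
      (sl a _ _ (e.map_source hm)).continuousAt (ce.prodMk continuousAt_fst.fst)
  have cl' : ∀ a, ContinuousAt
      (fun q : (Λ × Λ) × Y => fderiv ℝ (fun z => lam a (z, q.1.1)) (e q.2)) q0 := fun a =>
    ContinuousAt.comp (f := fun q : (Λ × Λ) × Y => (e q.2, q.1.1))
      (contDiffAt_fderiv_fst (sl a _ _ (e.map_source hm))).continuousAt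
      (ce.prodMk continuousAt_fst.fst)
  have ev : ∀ {k : ℕ} {m : (Λ × Λ) × Y → Fin k → E (Fin d)}, ContinuousAt m q0 → ContinuousAt
      (fun q : (Λ × Λ) × Y => iteratedFDeriv ℝ k (u q.1.2 ∘ e.symm) (e q.2) (m q)) q0 :=
    fun hm => ContinuousAt.eval (cu _) hm
  have hs : ∀ᶠ q : (Λ × Λ) × Y in 𝓝 q0, q.2 ∈ e.source :=
    continuousAt_snd.eventually (e.open_source.mem_nhds hm)
  refine ContinuousAt.prodMk ?_ (ContinuousAt.prodMk (continuousAt_pi.2 fun a => ?_)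
    (continuousAt_pi.2 fun a => continuousAt_pi.2 fun c => ?_))
  · refine (ev (k := 0) (m := fun _ => ![]) continuousAt_const).congr ?_
    filter_upwards [hs] with q hq
    simp [e.left_inv hq]
  · refine (ev (k := 1) (m := fun q _ => lam a (e q.2, q.1.1))
      (continuousAt_pi.2 fun _ => cl a)).congr ?_
    filter_upwards [hs] with q hq
    rw [iteratedFDeriv_one_apply, hD _ _ _ _ hq]
  · refine ((ev (k := 2) (m := fun q => ![lam a (e q.2, q.1.1), lam c (e q.2, q.1.1)])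
      (continuousAt_pi.2 fun i => ?_)).add (ev (k := 1) (m := fun q =>
        ![fderiv ℝ (fun z => lam c (z, q.1.1)) (e q.2) (lam a (e q.2, q.1.1))])
        (continuousAt_pi.2 fun i => ?_))).congr ?_
    · fin_cases i
      · exact cl a
      · exact cl c
    · fin_cases i
      exact (cl' c).clm_apply (cl a)
    · filter_upwards [hs] with q hq
      exact (hDD _ _ _ _ _ hq).symm

end Cont

theorem tube {α β : Type} [NormedAddCommGroup α] [TopologicalSpace β] {K : Set β}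
    (hK : IsCompact K) {H : α × β → ℝ} (hH : Continuous H) {ε : ℝ} (h0 : ∀ y ∈ K, H (0, y) < ε) :
    ∃ δ > 0, ∀ x, ‖x‖ ≤ δ → ∀ y ∈ K, H (x, y) < ε := by
  have h1 := hK.eventually_forall_of_forall_eventually (x₀ := (0 : α))
    (P := fun x y => H (x, y) < ε) fun y hy =>
      hH.continuousAt.eventually_lt continuousAt_const (h0 y hy)
  obtain ⟨δ, hδ, h⟩ := nhds_basis_closedBall.eventually_iff.1 h1
  exact ⟨δ, hδ, fun x hx => h (mem_closedBall_zero_iff.2 hx)⟩

theorem fam (h5 : F5Stmt) : FamStmt := by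
  intro d ι κ _ _ _ Y _ _ _ _ _ _ ch N b Q σ abar u0 ε K V hN hx hb hQ hσ Q0 σ0 hu hε hK hV hKV hσK
  rcases isEmpty_or_nonempty Y with hY | ⟨⟨y0⟩⟩
  · exact ⟨fun _ _ => 0, K, SmJ.const 0, hK, hKV, fun _ p => hY.elim p, fun _ p => hY.elim p,
      fun _ p => hY.elim p⟩
  have a0 : 0 ≤ abar := (σ0 0 y0).1.trans (σ0 0 y0).2
  obtain ⟨u, hCJ, hbd, hz, hsol⟩ := h5 d ι κ Y ch N b Q σ abar u0 hN hx hb hQ hσ Q0 σ0 hu a0
  have mem : ∀ p, p ∈ (ch p).source := fun p => by have := (N 0).mem p; rwa [hN] at this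
  have su : ∀ ξ, SmA ch (u ξ) := fun ξ p => (hCJ p).1 ξ
  have sm : ∀ ξ {f : Y → ℝ}, SmA ch f → (N ξ).Sm f := fun ξ f hf => by rw [Imm.Sm, hN]; exact hf
  obtain ⟨r0, r0p, hr0⟩ := hK.exists_cthickening_subset_open hV hKV
  have hK' : IsCompact (cthickening r0 K) := hK.cthickening
  have hKY := hK'.prod (isCompact_univ (X := Y))
  have cJ := continuous_jet hN hx hCJ
  have cc : Continuous fun y : (κ → ℝ) × Y =>
      ((fun a => b y.1 a y.2, Q y.1 y.2, σ y.1 y.2) : (ι → ℝ) × ℝ × ℝ) :=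
    (continuous_pi fun a => (hb a).continuous mem).prodMk
      ((hQ.continuous mem).prodMk (hσ.continuous mem))
  have cJ0 : Continuous fun y : (κ → ℝ) × Y => jet (N y.1) (u y.1) y.2 :=
    cJ.comp (f := fun y : (κ → ℝ) × Y => ((y.1, y.1), y.2)) (by fun_prop)
  obtain ⟨δ, δp, hδ⟩ := tube hKY (ε := ε) (H := fun q : Jet ι × (κ → ℝ) × Y =>
    |Psi' u0 (fun a => b q.2.1 a q.2.2, Q q.2.1 q.2.2, σ q.2.1 q.2.2)
      (jet (N q.2.1) (u q.2.1) q.2.2 + q.1)|)
    (((continuous_Psi hu).comp ((cc.comp continuous_snd).prodMk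
      ((cJ0.comp continuous_snd).add continuous_fst))).abs) fun y _ => by
      rw [add_zero, ← dfc_eq _ _ _ _ (sm _ (su _)) u0 (hbd _ _).1, hsol, abs_zero]; exact hε
  obtain ⟨ρ, ρp, hρ⟩ := tube hKY (ε := δ) (H := fun q : (κ → ℝ) × (κ → ℝ) × Y =>
    ‖jet (N q.2.1) (u (q.2.1 + q.1)) q.2.2 - jet (N q.2.1) (u q.2.1) q.2.2‖)
    (((cJ.comp (f := fun q : (κ → ℝ) × (κ → ℝ) × Y => ((q.2.1, q.2.1 + q.1), q.2.2))
      (by fun_prop)).sub (cJ0.comp continuous_snd)).norm) fun y _ => by simpa using δp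
  obtain ⟨t, htK, htf, hcov⟩ := finite_cover_balls_of_compact hK (lt_min ρp r0p)
  haveI := htf.fintype
  obtain ⟨l, hl⟩ := SmoothPartitionOfUnity.exists_isSubordinate 𝓘(ℝ, κ → ℝ) isClosed_univ
    (fun i : Option t => i.elim Kᶜ fun j => ball (j : κ → ℝ) (min ρ r0))
    (fun i => by cases i <;> [exact hK.isClosed.isOpen_compl; exact isOpen_ball])
    (fun ξ _ => by
      by_cases h : ξ ∈ K
      · obtain ⟨j, hj, h2⟩ := mem_iUnion₂.1 (hcov h)
        exact mem_iUnion.2 ⟨some ⟨j, hj⟩, h2⟩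
      · exact mem_iUnion.2 ⟨none, h⟩)
  have l1 : ∀ ξ, l none ξ + ∑ j : t, l (some j) ξ = 1 := fun ξ => by
    have := l.sum_eq_one (mem_univ ξ)
    rwa [finsum_eq_sum_of_fintype, Fintype.sum_option] at this
  have lb : ∀ (j : t) ξ, l (some j) ξ ≠ 0 → ξ ∈ ball (j : κ → ℝ) (min ρ r0) := fun j ξ h =>
    hl (some j) (subset_tsupport _ h)
  have lK : ∀ (j : t) ξ, l (some j) ξ ≠ 0 → ξ ∈ cthickening r0 K := fun j ξ h =>
    mem_cthickening_of_dist_le ξ j r0 K (htK j.2)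
      ((mem_ball.1 (lb j ξ h)).le.trans (min_le_right _ _))
  have hzK : ∀ ξ, ξ ∉ K → ∀ p, u ξ p = 0 := fun ξ h => hz ξ fun p => by
    by_contra h0; exact h (hσK ξ p h0)
  have sv : SmJ ch univ fun ξ p => ∑ j : t, l (some j) ξ * u j p :=
    SmJ.sum _ fun j _ => (SmJ.param (l (some j)).contMDiff.contDiff.contDiffOn).mul
      (SmJ.of_smA (su j))
  have v0 : ∀ ξ p, 0 ≤ ∑ j : t, l (some j) ξ * u j p := fun ξ p =>
    Finset.sum_nonneg fun j _ => mul_nonneg (l.nonneg _ _) (hbd _ _).1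
  refine ⟨fun ξ p => ∑ j : t, l (some j) ξ * u j p, cthickening r0 K, sv, hK', hr0,
    fun ξ p h => ?_, fun ξ p => ⟨v0 ξ p, ?_⟩, fun ξ p => ?_⟩
  · obtain ⟨j, -, hj⟩ := Finset.exists_ne_zero_of_sum_ne_zero h
    exact lK j ξ (left_ne_zero_of_mul hj)
  · have h1 : ∑ j : t, l (some j) ξ * u j p ≤
        ∑ j : t, l (some j) ξ * (√(u0 ^ 2 + 4 * abar) - u0) :=
      Finset.sum_le_sum fun j _ => mul_le_mul_of_nonneg_left (hbd _ _).2 (l.nonneg _ _)
    rw [← Finset.sum_mul] at h1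
    have h2 : 0 ≤ √(u0 ^ 2 + 4 * abar) - u0 := (hbd 0 p).1.trans (hbd 0 p).2
    have h3 := mul_nonneg (l.nonneg none ξ) h2
    have h4 : u0 + ∑ j : t, l (some j) ξ * u j p ≤ √(u0 ^ 2 + 4 * abar) := by
      have := l1 ξ
      rw [show ∑ j : t, l (some j) ξ = 1 - l none ξ by linarith] at h1
      linarith
    calc _ ≤ √(u0 ^ 2 + 4 * abar) ^ 2 := pow_le_pow_left₀ (by linarith [v0 ξ p]) h4 2
      _ = _ := Real.sq_sqrt (by positivity)
  · by_cases hξ : ξ ∈ cthickening r0 K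
    · rw [dfc_eq _ _ _ _ (sm ξ (sv.slice (mem_univ ξ))) u0 (v0 ξ p),
        jet_sum (N ξ) _ _ fun j : t => sm ξ (su j)]
      have e : ∑ j : t, l (some j) ξ • jet (N ξ) (u j) p = jet (N ξ) (u ξ) p +
          ∑ j : t, l (some j) ξ • (jet (N ξ) (u j) p - jet (N ξ) (u ξ) p) := by
        have h1 : l none ξ • jet (N ξ) (u ξ) p = 0 := by
          by_cases h : l none ξ = 0
          · rw [h, zero_smul]
          · rw [jet_zero _ (hzK ξ (hl none (subset_tsupport _ h))), smul_zero]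
        simp only [smul_sub, Finset.sum_sub_distrib, ← Finset.sum_smul]
        rw [show ∑ j : t, l (some j) ξ = 1 - l none ξ by linarith [l1 ξ], sub_smul, h1, one_smul]
        abel
      rw [e]
      refine (hδ _ ?_ (ξ, p) ⟨hξ, mem_univ _⟩).le
      refine (norm_sum_le _ _).trans ((Finset.sum_le_sum (g := fun j : t => l (some j) ξ * δ)
        fun j _ => ?_).trans ?_)
      · rw [norm_smul, Real.norm_of_nonneg (l.nonneg _ _)]
        by_cases h : l (some j) ξ = 0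
        · simp [h]
        · refine mul_le_mul_of_nonneg_left ?_ (l.nonneg _ _)
          have := hρ (j - ξ) (by
            rw [← dist_eq_norm, dist_comm]
            exact (mem_ball.1 (lb j ξ h)).le.trans (min_le_left _ _)) (ξ, p) ⟨hξ, mem_univ _⟩
          simpa using this.le
      · rw [← Finset.sum_mul]
        nlinarith [l1 ξ, l.nonneg none ξ]
    · have e : (fun p => ∑ j : t, l (some j) ξ * u j p) = u ξ := funext fun q => by
        rw [hzK ξ fun h => hξ (self_subset_cthickening K h)]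
        refine Finset.sum_eq_zero fun j _ => ?_
        by_cases h : l (some j) ξ = 0
        · rw [h, zero_mul]
        · exact absurd (lK j ξ h) hξ
      beta_reduce
      rw [e, hsol, abs_zero]
      exact hε.le

end Crest.Agent.N222.A

end
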