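import Crest.Agent.N222.A.GDefs
import Crest.Agent.N222.F.Basic

/-! # Row 222, part A: jointly smooth families (helper72) -/

set_option autoImplicit false
set_option linter.dupNamespace false
set_option linter.unusedSectionVars false
open Filter Set Topology Function
open scoped ContDiff

noncomputable section

namespace Crest.Agent.N222.A

variable {d : ℕ} {X Λ F G : Type} [TopologicalSpace X] [NormedAddCommGroup Λ] [NormedSpace ℝ Λ]
  [NormedAddCommGroup F] [NormedSpace ℝ F] [NormedAddCommGroup G] [NormedSpace ℝ G]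
  {ch : X → OpenPartialHomeomorph X (E (Fin d))} {V : Set Λ}

namespace SmJ

theorem const (c : F) : SmJ ch V fun _ _ => c := fun _ => contDiffOn_const

theorem of_smA {f : X → F} (hf : SmA ch f) : SmJ ch V fun _ => f := fun p =>
  (hf p).comp contDiffOn_fst fun _ hq => hq.1

theorem param {ρ : Λ → F} (h : ContDiffOn ℝ ∞ ρ V) : SmJ ch V fun ξ _ => ρ ξ := fun _ =>
  h.comp contDiffOn_snd fun _ hq => hq.2

theorem slice {f : Λ → X → F} (hf : SmJ ch V f) {ξ : Λ} (hξ : ξ ∈ V) : SmA ch (f ξ) := fun p =>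
  (hf p).comp (contDiffOn_id.prodMk contDiffOn_const) fun _ hz => ⟨hz, hξ⟩

theorem mono {f : Λ → X → F} (hf : SmJ ch V f) {V' : Set Λ} (h : V' ⊆ V) : SmJ ch V' f := fun p =>
  (hf p).mono (prod_mono_right h)

theorem congr {f g : Λ → X → F} (hf : SmJ ch V f) (h : ∀ ξ ∈ V, ∀ p, g ξ p = f ξ p) :
    SmJ ch V g := fun p => (hf p).congr fun _ hq => h _ hq.2 _

theorem reparam {Λ' : Type} [NormedAddCommGroup Λ'] [NormedSpace ℝ Λ'] {f : Λ → X → F}
    (hf : SmJ ch V f) {V' : Set Λ'} {r : Λ' → Λ} (hr : ContDiffOn ℝ ∞ r V') (h : MapsTo r V' V) :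
    SmJ ch V' fun ξ => f (r ξ) := fun p =>
  (hf p).comp (contDiffOn_fst.prodMk (hr.comp contDiffOn_snd fun _ hq => hq.2))
    fun _ hq => ⟨hq.1, h hq.2⟩

theorem comp {f : Λ → X → F} (hf : SmJ ch V f) {g : F → G} (hg : ContDiff ℝ ∞ g) :
    SmJ ch V fun ξ p => g (f ξ p) := fun p => hg.comp_contDiffOn (hf p)

theorem comp_on {f : Λ → X → F} (hf : SmJ ch V f) {g : F → G} {U : Set F}
    (hg : ContDiffOn ℝ ∞ g U) (hU : ∀ ξ ∈ V, ∀ p, f ξ p ∈ U) : SmJ ch V fun ξ p => g (f ξ p) :=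
  fun p => hg.comp (hf p) fun _ hq => hU _ hq.2 _

theorem prodMk {f : Λ → X → F} {g : Λ → X → G} (hf : SmJ ch V f) (hg : SmJ ch V g) :
    SmJ ch V fun ξ p => (f ξ p, g ξ p) := fun p => (hf p).prodMk (hg p)

theorem add {f g : Λ → X → F} (hf : SmJ ch V f) (hg : SmJ ch V g) :
    SmJ ch V fun ξ p => f ξ p + g ξ p := fun p => (hf p).add (hg p)

theorem sub {f g : Λ → X → F} (hf : SmJ ch V f) (hg : SmJ ch V g) :
    SmJ ch V fun ξ p => f ξ p - g ξ p := fun p => (hf p).sub (hg p)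

theorem neg {f : Λ → X → F} (hf : SmJ ch V f) : SmJ ch V fun ξ p => -f ξ p := fun p => (hf p).neg

theorem mul {f g : Λ → X → ℝ} (hf : SmJ ch V f) (hg : SmJ ch V g) :
    SmJ ch V fun ξ p => f ξ p * g ξ p := fun p => (hf p).mul (hg p)

theorem smul {f : Λ → X → ℝ} {g : Λ → X → F} (hf : SmJ ch V f) (hg : SmJ ch V g) :
    SmJ ch V fun ξ p => f ξ p • g ξ p := fun p => (hf p).smul (hg p)

theorem pow {f : Λ → X → ℝ} (hf : SmJ ch V f) (k : ℕ) : SmJ ch V fun ξ p => f ξ p ^ k :=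
  fun p => (hf p).pow k

theorem inv {f : Λ → X → ℝ} (hf : SmJ ch V f) (h0 : ∀ ξ ∈ V, ∀ p, f ξ p ≠ 0) :
    SmJ ch V fun ξ p => (f ξ p)⁻¹ := fun p => (hf p).inv fun _ hq => h0 _ hq.2 _

theorem div {f g : Λ → X → ℝ} (hf : SmJ ch V f) (hg : SmJ ch V g)
    (h0 : ∀ ξ ∈ V, ∀ p, g ξ p ≠ 0) : SmJ ch V fun ξ p => f ξ p / g ξ p :=
  fun p => (hf p).div (hg p) fun _ hq => h0 _ hq.2 _

theorem div_const {f : Λ → X → ℝ} (hf : SmJ ch V f) (c : ℝ) : SmJ ch V fun ξ p => f ξ p / c :=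
  fun p => (hf p).div_const c

theorem sqrt {f : Λ → X → ℝ} (hf : SmJ ch V f) (h0 : ∀ ξ ∈ V, ∀ p, f ξ p ≠ 0) :
    SmJ ch V fun ξ p => √(f ξ p) := fun p => (hf p).sqrt fun _ hq => h0 _ hq.2 _

theorem sum {κ : Type*} (s : Finset κ) {f : κ → Λ → X → F} (hf : ∀ k ∈ s, SmJ ch V (f k)) :
    SmJ ch V fun ξ p => ∑ k ∈ s, f k ξ p := fun p => ContDiffOn.sum fun k hk => hf k hk p

theorem euclid {κ : Type} [Fintype κ] {f : Λ → X → E κ} :
    SmJ ch V f ↔ ∀ k, SmJ ch V fun ξ p => f ξ p k :=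
  ⟨fun h k p => contDiffOn_euclidean.1 (h p) k, fun h p => contDiffOn_euclidean.2 fun k => h k p⟩

/-- joint continuity -/
theorem continuousAt {f : Λ → X → F} (hf : SmJ ch V f) (mem : ∀ p, p ∈ (ch p).source)
    (hV : IsOpen V) {ξ : Λ} (hξ : ξ ∈ V) (p : X) :
    ContinuousAt (fun q : Λ × X => f q.1 q.2) (ξ, p) := by
  have h1 := ((hf p).contDiffAt (((ch p).open_target.prod hV).mem_nhds
    (mk_mem_prod ((ch p).map_source (mem p)) hξ))).continuousAt
  have h2 : ContinuousAt (fun q : Λ × X => (ch p q.2, q.1)) (ξ, p) :=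
    (ContinuousAt.comp (f := Prod.snd) ((ch p).continuousAt (mem p)) continuousAt_snd).prodMk
      continuousAt_fst
  refine (ContinuousAt.comp (f := fun q : Λ × X => (ch p q.2, q.1)) h1 h2).congr ?_
  filter_upwards [(continuousAt_snd (p := (ξ, p))).eventually
    ((ch p).eventually_left_inverse (mem p))] with q hq
  simp [hq]

theorem continuous {f : Λ → X → F} (hf : SmJ ch univ f) (mem : ∀ p, p ∈ (ch p).source) :
    Continuous fun q : Λ × X => f q.1 q.2 :=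
  continuous_iff_continuousAt.2 fun q => hf.continuousAt mem isOpen_univ (mem_univ q.1) q.2

/-- multiplication by a cut-off in the parameter -/
theorem cutoff {f : Λ → X → ℝ} (hf : SmJ ch V f) (hV : IsOpen V) {ρ : Λ → ℝ}
    (hρ : ContDiff ℝ ∞ ρ) (hs : tsupport ρ ⊆ V) : SmJ ch univ fun ξ p => ρ ξ * f ξ p := by
  intro p q hq
  by_cases h : q.2 ∈ V
  · exact ((hρ.contDiffAt.comp q contDiffAt_snd).mul ((hf p).contDiffAt
      (((ch p).open_target.prod hV).mem_nhds ⟨hq.1, h⟩))).contDiffWithinAt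
  · have h1 : ρ =ᶠ[𝓝 q.2] 0 := notMem_tsupport_iff_eventuallyEq.1 fun h' => h (hs h')
    refine ((contDiffAt_const (c := (0 : ℝ))).congr_of_eventuallyEq ?_).contDiffWithinAt
    filter_upwards [(continuousAt_snd (p := q)).eventually h1] with r hr
    simp [hr]

variable {ι : Type} [Fintype ι]

/-- smoothness in any chart -/
theorem chart {M : Imm d ι X} {f : Λ → X → F} (hf : SmJ M.ch V f) (hV : IsOpen V)
    {e : OpenPartialHomeomorph X (E (Fin d))} (he : IsChart M.x e) :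
    ContDiffOn ℝ ∞ (fun q : E (Fin d) × Λ => f q.2 (e.symm q.1)) (e.target ×ˢ V) := by
  rintro ⟨z, ξ⟩ ⟨hz, hξ⟩
  have hp := e.map_target hz
  have h1 := (M.isChart (e.symm z)).trans_smooth he (M.mem _) hp
  rw [e.right_inv hz] at h1
  have h2 := (hf (e.symm z)).contDiffAt (x := (M.ch (e.symm z) (e.symm z), ξ))
    (((M.ch (e.symm z)).open_target.prod hV).mem_nhds ⟨(M.ch _).map_source (M.mem _), hξ⟩)
  have h3 : ContDiffAt ℝ ∞ (fun q : E (Fin d) × Λ => ((M.ch (e.symm z) ∘ e.symm) q.1, q.2))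
      (z, ξ) := (ContDiffAt.comp (f := Prod.fst) _ h1 contDiffAt_fst).prodMk contDiffAt_snd
  refine ((ContDiffAt.comp (f := fun q : E (Fin d) × Λ => ((M.ch (e.symm z) ∘ e.symm) q.1, q.2))
    _ h2 h3).congr_of_eventuallyEq ?_).contDiffWithinAt
  have h4 : ∀ᶠ y in 𝓝 z, e.symm y ∈ (M.ch (e.symm z)).source :=
    (e.continuousAt_symm hz).eventually ((M.ch _).open_source.mem_nhds (M.mem _))
  filter_upwards [(continuousAt_fst (p := (z, ξ))).eventually h4] with q hq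
  simp [(M.ch _).left_inv hq]

theorem of_charts {M : Imm d ι X} {f : Λ → X → F}
    (h : ∀ p, ∀ ξ ∈ V, ∃ e : OpenPartialHomeomorph X (E (Fin d)), IsChart M.x e ∧ p ∈ e.source ∧
      ContDiffAt ℝ ∞ (fun q : E (Fin d) × Λ => f q.2 (e.symm q.1)) (e p, ξ)) : SmJ M.ch V f := by
  rintro p ⟨z, ξ⟩ ⟨hz, hξ⟩
  obtain ⟨e, he, hp, h2⟩ := h ((M.ch p).symm z) ξ hξ
  have h1 := he.trans_smooth (M.isChart p) hp ((M.ch p).map_target hz)
  rw [(M.ch p).right_inv hz] at h1
  have h3 : ContDiffAt ℝ ∞ (fun q : E (Fin d) × Λ => ((e ∘ (M.ch p).symm) q.1, q.2))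
      (z, ξ) := (ContDiffAt.comp (f := Prod.fst) _ h1 contDiffAt_fst).prodMk contDiffAt_snd
  refine ((ContDiffAt.comp (f := fun q : E (Fin d) × Λ => ((e ∘ (M.ch p).symm) q.1, q.2))
    _ h2 h3).congr_of_eventuallyEq ?_).contDiffWithinAt
  have h4 : ∀ᶠ y in 𝓝 z, (M.ch p).symm y ∈ e.source :=
    ((M.ch p).continuousAt_symm hz).eventually (e.open_source.mem_nhds hp)
  filter_upwards [(continuousAt_fst (p := (z, ξ))).eventually h4] with q hq
  simp [e.left_inv hq]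

/-- local nature of joint smoothness -/
theorem of_local {M : Imm d ι X} {f : Λ → X → F}
    (h : ∀ p, ∀ ξ ∈ V, ∃ (V' : Set Λ) (g : Λ → X → F), IsOpen V' ∧ ξ ∈ V' ∧ SmJ M.ch V' g ∧
      ∀ᶠ q in 𝓝 (p, ξ), f q.2 q.1 = g q.2 q.1) : SmJ M.ch V f := by
  refine of_charts fun p ξ hξ => ⟨M.ch p, M.isChart p, M.mem p, ?_⟩
  obtain ⟨V', g, hV', hξ', hg, hfg⟩ := h p ξ hξ
  refine ((hg p).contDiffAt (((M.ch p).open_target.prod hV').mem_nhds
    ⟨(M.ch p).map_source (M.mem p), hξ'⟩)).congr_of_eventuallyEq ?_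
  have h1 : ContinuousAt (fun q : E (Fin d) × Λ => ((M.ch p).symm q.1, q.2)) (M.ch p p, ξ) :=
    (ContinuousAt.comp (f := Prod.fst) ((M.ch p).continuousAt_symm ((M.ch p).map_source (M.mem p)))
      continuousAt_fst).prodMk continuousAt_snd
  rw [ContinuousAt, (M.ch p).left_inv (M.mem p)] at h1
  exact h1.eventually hfg

/-- partial derivative in the chart variable -/
theorem fderiv_fst {f : Λ → X → F} (hf : SmJ ch V f) (hV : IsOpen V) (p : X) :
    ContDiffOn ℝ ∞ (fun q : E (Fin d) × Λ => fderiv ℝ (f q.2 ∘ (ch p).symm) q.1)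
      ((ch p).target ×ˢ V) := by
  intro q hq
  have h1 := (hf p).contDiffAt (((ch p).open_target.prod hV).mem_nhds hq)
  have h2 : ContDiffAt ℝ ∞ (uncurry fun (r : E (Fin d) × Λ) (z : E (Fin d)) =>
      (f r.2 ∘ (ch p).symm) z) (q, q.1) :=
    ContDiffAt.comp (f := fun r : (E (Fin d) × Λ) × E (Fin d) => (r.2, r.1.2)) (q, q.1) h1
      (contDiffAt_snd.prodMk contDiffAt_fst.snd)
  exact (ContDiffAt.fderiv h2 contDiffAt_fst (by simp)).contDiffWithinAt

/-- the tangential derivative of a family on a family of immersions -/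
theorem td {N : Λ → Imm d ι X} (hN : ∀ ξ, (N ξ).ch = ch) (hx : SmJ ch V fun ξ => (N ξ).x)
    (hV : IsOpen V) {f : Λ → X → F} (hf : SmJ ch V f) : SmJ ch V fun ξ => (N ξ).td (f ξ) := by
  intro p q hq
  have hc : ∀ ξ, IsChart (N ξ).x (ch p) := fun ξ => hN ξ ▸ (N ξ).isChart p
  have n := ((ch p).open_target.prod hV).mem_nhds hq
  have h1 := (hf.fderiv_fst hV p).contDiffAt n
  have h2 := (hx.fderiv_fst hV p).contDiffAt n
  have h3 := ContDiffAt.comp (f := fun q : E (Fin d) × Λ =>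
    fderiv ℝ ((N q.2).x ∘ (ch p).symm) q.1) q (contDiffAt_Lam ((hc q.2).inj _ hq.1)) h2
  have h4 := ContDiffAt.comp q (contDiff_adjoint (κ := Fin d) (ι := ι)).contDiffAt h3
  refine ((h1.clm_comp h4).congr_of_eventuallyEq ?_).contDiffWithinAt
  filter_upwards [n] with r hr
  rw [Imm.td_chart (f r.2) (hc r.2) ((ch p).map_target hr.1), (ch p).right_inv hr.1]
  rfl

theorem D [DecidableEq ι] {N : Λ → Imm d ι X} (hN : ∀ ξ, (N ξ).ch = ch)
    (hx : SmJ ch V fun ξ => (N ξ).x) (hV : IsOpen V) {f : Λ → X → ℝ} (hf : SmJ ch V f) (a : ι) :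
    SmJ ch V fun ξ => (N ξ).pre.D a (f ξ) := fun p =>
  (td hN hx hV hf p).clm_apply contDiffOn_const

/-- the case of a fixed immersion -/
theorem D1 [DecidableEq ι] (M : Imm d ι X) (hV : IsOpen V) {f : Λ → X → ℝ} (hf : SmJ M.ch V f)
    (a : ι) : SmJ M.ch V fun ξ => M.pre.D a (f ξ) :=
  D (N := fun _ => M) (fun _ => rfl) (of_smA M.sm_x) hV hf a

end SmJ

/-! ### families of calculi which preserve joint smoothness -/

section Fam

variable {ι : Type} [Fintype ι] {S : Λ → Pre (X → ℝ) ι}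
  (hD : ∀ c (f : Λ → X → ℝ), SmJ ch V f → SmJ ch V fun s => (S s).D c (f s))
include hD

theorem smJ_gam {f g : Λ → X → ℝ} (hf : SmJ ch V f) (hg : SmJ ch V g) :
    SmJ ch V fun s => (S s).gam (f s) (g s) :=
  (SmJ.sum Finset.univ fun c _ => (hD c f hf).mul (hD c g hg)).congr fun _ _ _ => by simp [Pre.gam]

theorem smJ_dir {Y : Λ → ι → X → ℝ} (hY : ∀ c, SmJ ch V fun s => Y s c) {f : Λ → X → ℝ}
    (hf : SmJ ch V f) : SmJ ch V fun s => (S s).dir (Y s) (f s) :=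
  (SmJ.sum Finset.univ fun c _ => (hY c).mul (hD c f hf)).congr fun _ _ _ => by simp [Pre.dir]

theorem smJ_dv {Y : Λ → ι → X → ℝ} (hY : ∀ c, SmJ ch V fun s => Y s c) :
    SmJ ch V fun s => (S s).dv (Y s) :=
  (SmJ.sum Finset.univ fun c _ => hD c _ (hY c)).congr fun _ _ _ => by simp [Pre.dv]

omit hD in
theorem one_add_gam_pos (S : Pre (X → ℝ) ι) (v : X → ℝ) (p : X) : 0 < 1 + S.gam v v p := by
  have : 0 ≤ S.gam v v p := by
    simp only [Pre.gam, Finset.sum_apply, Pi.mul_apply]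
    exact Finset.sum_nonneg fun _ _ => mul_self_nonneg _
  linarith

variable {v : Λ → X → ℝ} (hv : SmJ ch V v)
include hv

theorem smJ_ww : SmJ ch V fun s => ww (S s) (v s) :=
  ((SmJ.const 1).add (smJ_gam hD hv hv)).sqrt fun _ _ _ => (one_add_gam_pos _ _ _).ne'

theorem smJ_vv : SmJ ch V fun s => vv (S s) (v s) :=
  (smJ_ww hD hv).inv fun _ _ _ => (Real.sqrt_pos.2 (one_add_gam_pos _ _ _)).ne'

theorem smJ_X (c : ι) : SmJ ch V fun s => (S s).X (v s) (vv (S s) (v s)) c :=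
  (smJ_vv hD hv).mul (hD c v hv)

theorem smJ_nu (c : Option ι) : SmJ ch V fun s => (S s).nu (v s) (vv (S s) (v s)) c := by
  cases c with
  | none => exact smJ_vv hD hv
  | some c => exact (smJ_X hD hv c).neg

theorem smJ_stepD (c : Option ι) (f : Λ → X → ℝ) (hf : SmJ ch V f) :
    SmJ ch V fun s => (stepS (S s) (v s)).D c (f s) := by
  have h := (smJ_nu hD hv c).mul (smJ_dir hD (smJ_X hD hv) hf)
  cases c with
  | none => exact ((SmJ.const 0).add h).congr fun _ _ _ => rfl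
  | some c => exact ((hD c f hf).add h).congr fun _ _ _ => rfl

variable {b : Λ → ι → X → ℝ} (hb : ∀ c, SmJ ch V fun s => b s c)
include hb

theorem smJ_hb : SmJ ch V fun s => (S s).hb (b s) (v s) (vv (S s) (v s)) :=
  ((smJ_dv hD (smJ_X hD hv)).add (SmJ.sum Finset.univ fun c _ => (smJ_X hD hv c).mul (hb c))).congr
    fun _ _ _ => by simp [Pre.hb]

variable {Q σ : Λ → X → ℝ} (hQ : SmJ ch V Q) (hσ : SmJ ch V σ) {u0 : ℝ} (hu : 0 < u0)
  (v0 : ∀ s ∈ V, ∀ p, 0 ≤ v s p)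
include hQ hσ hu v0

omit hD hb in
theorem smJ_beta : SmJ ch V fun s => beta (Q s) (σ s) (v s) u0 :=
  hQ.mul ((SmJ.const 1).sub ((hσ.add (SmJ.const _)).div
    ((((SmJ.const u0).add hv).pow 2).div_const 4) fun s hs p => by
      have := v0 s hs p; positivity))

theorem smJ_dfc : SmJ ch V fun s => dfc (S s) (b s) (Q s) (σ s) (v s) u0 :=
  (smJ_ww hD hv).mul (((smJ_hb hD hv hb).add (((SmJ.const 1).sub ((smJ_vv hD hv).pow 2)).div
    ((SmJ.const u0).add hv) fun s hs p => by have := v0 s hs p; positivity)).sub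
    (((smJ_beta hv hQ hσ hu v0).mul ((SmJ.const u0).add hv)).div_const 2))

variable {a : Λ → X → ℝ} (ha : SmJ ch V a)
include ha

omit hb in
theorem smJ_nn : SmJ ch V fun s => nn (S s) (Q s) (σ s) (a s) (v s) u0 :=
  ((((SmJ.const 1).sub (smJ_vv hD hv)).div ((SmJ.const u0).add hv) fun s hs p => by
    have := v0 s hs p; positivity).sub
    (((smJ_beta hv hQ hσ hu v0).mul ((SmJ.const u0).add hv)).div_const 2)).add
    (((ha.mul (smJ_vv hD hv)).mul ((SmJ.const u0).add hv)).div_const 2)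

theorem smJ_mm : SmJ ch V fun s => mm (S s) (b s) (Q s) (σ s) (a s) (v s) u0 :=
  (smJ_ww hD hv).mul ((smJ_hb hD hv hb).add (smJ_nn hD hv hQ hσ hu v0 ha))

theorem smJ_stepb (c : Option ι) :
    SmJ ch V fun s => stepb (S s) (b s) (Q s) (σ s) (a s) (v s) u0 c := by
  have h1 := (smJ_nu hD hv c).mul (SmJ.sum Finset.univ fun c _ => (smJ_X hD hv c).mul (hb c))
  have h2 := (smJ_ww hD hv).mul (smJ_stepD hD hv c _ (smJ_vv hD hv))
  have h3 := (smJ_mm hD hv hb hQ hσ hu v0 ha).mul (smJ_stepD hD hv c _ hv)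
  cases c with
  | none =>
    refine ((((SmJ.const 0).add h1).add h2).add h3).congr fun _ _ _ => ?_
    simp [stepb, stepS, Pre.newb, Pre.lift]
  | some c =>
    refine ((((hb c).add h1).add h2).add h3).congr fun _ _ _ => ?_
    simp [stepb, stepS, Pre.newb, Pre.lift]

end Fam

end Crest.Agent.N222.A

end
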