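import Crest.Agent.N222.A.Fib
import Crest.Agent.N222.A.SmJ

/-!
# Row 222, part A (helper89): `AStmt → AFStmt`
-/

set_option autoImplicit false
set_option linter.dupNamespace false
set_option linter.unusedSectionVars false
open Set Filter Topology Function
open scoped ContDiff InnerProductSpace RealInnerProductSpace

noncomputable section

namespace Crest.Agent.N222.A

/-- the inclusion of the first factor -/
def inlI (ι κ : Type) [Fintype ι] [Fintype κ] : E ι →ₗᵢ[ℝ] E (ι ⊕ κ) where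
  toLinearMap := (comb ∘L ContinuousLinearMap.inr ℝ (κ → ℝ) (E ι)).toLinearMap
  norm_map' v := by
    change ‖(comb (0, v) : E (ι ⊕ κ))‖ = _
    simp [EuclideanSpace.norm_eq, Fintype.sum_sum_type]

theorem adjoint_inlI {ι κ : Type} [Fintype ι] [Fintype κ] (w : E (ι ⊕ κ)) :
    ContinuousLinearMap.adjoint (inlI ι κ).toContinuousLinearMap w = prL w := by
  refine ext_inner_left ℝ fun v => ?_
  rw [ContinuousLinearMap.adjoint_inner_right]
  change ⟪(comb (0, v) : E (ι ⊕ κ)), w⟫ = _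
  simp [inner_comb]

namespace Fib

variable {n : ℕ} {ι κ : Type} [Fintype ι] [Fintype κ] [DecidableEq ι] [DecidableEq κ] {T Z : Type}
  [TopologicalSpace T] [TopologicalSpace Z] (F : Fib n ι κ T Z)
  {V : Type} [NormedAddCommGroup V] [NormedSpace ℝ V]

theorem mem_src (g : F.G) {ξ : κ → ℝ} (hξ : ξ ∈ F.U g) (x : T) :
    (ξ, x) ∈ (F.φ (F.w g)).source := F.U_sub g ⟨hξ, mem_univ _⟩

theorem mem_img {w : F.W} {K : Set (κ → ℝ)} {z : Z} :
    z ∈ F.φ w '' (K ×ˢ univ) ↔ ∃ x, ∃ ξ ∈ K, F.φ w (ξ, x) = z :=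
  ⟨fun ⟨q, hq, h⟩ => ⟨q.2, q.1, hq.1, h⟩, fun ⟨x, ξ, hξ, h⟩ => ⟨(ξ, x), ⟨hξ, mem_univ _⟩, h⟩⟩

/-- restriction of a smooth function to a trivialisation -/
theorem sm_res {w : F.W} {U : Set (κ → ℝ)} (hU : U ×ˢ univ ⊆ (F.φ w).source) {f : Z → V}
    (hf : F.M.Sm f) : SmJ F.MT.ch U fun ξ x => f (F.φ w (ξ, x)) := by
  refine SmJ.of_charts fun p ξ hξ => ⟨F.MT.ch p, F.MT.isChart p, F.MT.mem p, ?_⟩
  have h1 := (F.loc (q := (ξ, p)) (hU ⟨hξ, mem_univ _⟩)).contDiffAt hf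
  have h2 : ContDiff ℝ ∞ fun r : E (Fin n) × (κ → ℝ) => plin κ n (r.2, r.1) :=
    (plin κ n).contDiff.comp (contDiff_snd.prodMk contDiff_fst)
  have h3 := ContDiffAt.comp (F.MT.ch p p, ξ) (g := _) h1 h2.contDiffAt
  refine h3.congr_of_eventuallyEq (Eventually.of_forall fun r => ?_)
  simp [Imm.par_comp, Imm.cf]

/-- extension by zero -/
theorem sm_push {w : F.W} {K : Set (κ → ℝ)} (hK : K ×ˢ univ ⊆ (F.φ w).source)
    (hc : IsClosed (F.φ w '' (K ×ˢ univ))) {H : (κ → ℝ) × T → ℝ} (hH : (F.MT.par κ).Sm H)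
    (h0 : ∀ q, H q ≠ 0 → q.1 ∈ K) : F.M.Sm (push (F.φ w) H) ∧
      ∀ z, push (F.φ w) H z ≠ 0 → z ∈ F.φ w '' (K ×ˢ univ) := by
  have h1 : ∀ z, push (F.φ w) H z ≠ 0 → z ∈ F.φ w '' (K ×ˢ univ) := fun z hz => by
    have ht : z ∈ (F.φ w).target := mem_of_indicator_ne_zero hz
    rw [push, indicator_of_mem ht] at hz
    exact ⟨_, ⟨h0 _ hz, mem_univ _⟩, (F.φ w).right_inv ht⟩
  refine ⟨F.sm_of_loc fun z => ?_, h1⟩
  by_cases hz : z ∈ F.φ w '' (K ×ˢ univ)
  · obtain ⟨q, hq, rfl⟩ := hz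
    refine Or.inr ⟨w, q, hK hq, rfl, H, hH, ?_⟩
    filter_upwards [(F.φ w).open_source.mem_nhds (hK hq)] with r hr using push_apply H hr
  · refine Or.inl ?_
    filter_upwards [hc.isOpen_compl.mem_nhds hz] with y hy
    by_contra h
    exact hy (h1 y h)

variable [T2Space T] [SecondCountableTopology T] [T2Space Z]

/-- the base of the geometric states -/
def base : Base n where
  d := n + Fintype.card κ
  Z := Z
  ch := F.M.ch
  mem := F.M.mem
  T := T
  ιT := ι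
  N := F.MT
  κ := κ
  G := F.G
  t g x ξ := F.φ (F.w g) (ξ, x)
  V := F.U
  V_open := F.U_open
  closed g K hK h := by
    convert F.closed g K hK h using 1
    ext z
    exact F.mem_img.symm
  sm_res g f hf := F.sm_res (F.U_sub g) hf
  sm_ext g H K hH hK h h0 := by
    obtain ⟨h1, h2⟩ := F.sm_push (w := F.w g) (K := K) (H := fun q => H q.1 q.2)
      ((prod_mono h subset_rfl).trans (F.U_sub g)) (F.closed g K hK h) (Imm.par_sm.2 hH)
      fun q hq => h0 _ _ hq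
    refine ⟨_, h1, fun x ξ hξ => push_apply _ (F.mem_src g hξ x), fun z => ?_⟩
    by_cases hz : push (F.φ (F.w g)) (fun q => H q.1 q.2) z = 0
    · exact Or.inr hz
    · obtain ⟨x, ξ, hξ, e⟩ := F.mem_img.1 (h2 z hz)
      exact Or.inl ⟨x, ξ, h hξ, e⟩
  inj g x x' ξ hξ ξ' hξ' h :=
    congrArg Prod.fst ((F.φ (F.w g)).injOn (F.mem_src g hξ x) (F.mem_src g hξ' x') h)
  Ω := F.Om
  Ω_cpt := F.Om_cpt
  Ω_cover z hz := (F.Om_cover z hz).imp fun _ h => F.mem_img.1 h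
  Ω_loc := F.Om_loc

/-- the initial state -/
def st0 : GSt F.base where
  ι := ι ⊕ κ
  S := F.S0
  b _ := F.b0
  vs := []
  smD c f hf := by
    cases c with
    | inl a => exact SmJ.D1 F.M isOpen_univ hf _
    | inr j => exact (SmJ.param contDiffOn_id).mul (SmJ.D1 F.M isOpen_univ hf (Sum.inr j))
  smb c := by
    cases c with
    | inl a => exact SmJ.of_smA (F.sm_b a)
    | inr j => exact SmJ.const 0
  imm s hs := ⟨F.M.scale s hs, rfl, F.scale_pre hs, F.tan_b0 s⟩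
  smx c := by
    cases c with
    | inl a => exact F.M.sm_coord _
    | inr j => exact Imm.Sm.mul (M := F.M) (Imm.sm_const _) (F.M.sm_coord _)
  j := Sum.inl
  j_inj := Sum.inl_injective
  x_j g a x ξ hξ := by
    change F.M.x (F.φ (F.w g) (ξ, x)) (Sum.inl a) = F.MT.x x a
    rw [F.hx _ _ (F.mem_src g hξ x)]
    rfl
  fib g ξ hξ := by
    obtain ⟨N', h1, h2, h3⟩ := F.MT.exists_map (inlI ι κ) 0
    refine ⟨N', h1, fun c x => ?_, fun f hf c x => ?_⟩
    · rw [h2, add_zero]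
      cases c with
      | inl a =>
        change _ = F.M.x (F.φ (F.w g) (ξ, x)) (Sum.inl a)
        rw [F.hx _ _ (F.mem_src g hξ x)]
        rfl
      | inr j =>
        change (0 : ℝ) = 0⁻¹ * _
        simp
    · change _ = N'.td _ _ _
      rw [h3, adjoint_inlI]
      cases c with
      | inl a =>
        have : prL (ee (Sum.inl a) : E (ι ⊕ κ)) = ee a := by
          ext c; simp [EuclideanSpace.single_apply]
        rw [this]
        exact F.D_inl (F.mem_src g hξ x) hf a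
      | inr j =>
        have : prL (ee (Sum.inr j) : E (ι ⊕ κ)) = 0 := by
          ext c; simp
        rw [this, map_zero]
        exact zero_mul _
  vs_sm _ h := absurd h List.not_mem_nil
  vs_le _ h := Finset.sum_nonneg fun _ _ => h _

theorem base_O (g : F.G) {z : Z} (h : z ∈ F.base.O g) : z ∈ F.O g := F.mem_img.2 h

theorem base_Su {g : F.G} {f : Z → ℝ} : F.base.Su g f ↔ F.Su g f :=
  exists_congr fun _ => and_congr_right fun _ => and_congr_right fun _ =>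
    forall_congr' fun _ => imp_congr_right fun _ => F.mem_img.symm

end Fib

/-- **part A in the concrete setting** -/
theorem af_of (hA : AStmt) : AFStmt := by
  intro n s0 K0 hs0 hK
  obtain ⟨ρ, I1, h⟩ := hA n s0 K0 hs0 hK
  refine ⟨ρ, I1, fun ι κ _ _ _ _ T Z _ _ _ _ _ F χ d δ Λ hE hD hΛ => ?_⟩
  obtain ⟨st, P, hP, hg, hO⟩ := h F.base F.st0 χ d δ
    (fun g => ⟨hD.χ_sm g, hD.d_sm g, hD.δ_sm g, F.base_Su.2 (hD.χ_su g), hD.χ_mem g⟩) (by
      filter_upwards [hD.init, self_mem_nhdsWithin] with s h hs z hz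
      obtain ⟨h1, ⟨j, h2, h3⟩, h4, h5⟩ := h z hz
      refine ⟨?_, h1, ⟨j, fun g => ⟨(h2 g).1, ?_⟩, h3⟩, fun g hg => ?_, fun g g' hg hg' => ?_⟩
      · obtain ⟨w, q, hq, rfl⟩ := F.exists_q z
        exact (hE q.2).trans_eq (F.Eb_S0 hs hq).symm
      · exact (F.S0_gam s _ _ z).trans_le (h2 g).2
      · exact ⟨(F.S0_gam s _ _ z).trans_le (h4 g (F.base_O g hg)).1, (h4 g (F.base_O g hg)).2⟩
      · have := h5 g g' (F.base_O g hg) (F.base_O g' hg')
        exact ⟨(F.S0_gam s _ _ z).trans this.1, this.2⟩) Λ hΛ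
  refine ⟨P, fun g => ⟨(hP g).1, F.base_Su.1 (hP g).2.1, (hP g).2.2⟩, ?_⟩
  filter_upwards [hO, self_mem_nhdsWithin] with s h hs
  obtain ⟨M', h1, h2, h3⟩ := st.imm s hs
  refine ⟨st.ι, inferInstance, inferInstance, M', st.b s, h1, fun c => ?_, h2 ▸ h3,
    fun f hf p => ?_, fun p hp => ?_⟩
  · change SmA M'.ch _
    rw [h1]
    exact (st.smb c).slice (mem_univ s)
  · have := (hg s hs f hf p).trans_eq (F.S0_gam s f f p)
    rw [← h2] at this
    exact this
  · obtain ⟨h4, h5, I, ⟨j, h6, h7⟩, h8, h9⟩ := h p hp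
    rw [← h2] at h6 h9
    exact ⟨h4, h5, j, I, h6, h7, h8, h9⟩

end Crest.Agent.N222.A

end
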