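import Crest.Agent.N222.A.GDefs
import Crest.Agent.N222.F.Hess
import Crest.Agent.N222.G.Graph1

/-! # Row 222, part A: the inequality GEN on an immersed manifold (helper11) -/

set_option autoImplicit false
set_option linter.dupNamespace false
set_option linter.unusedSectionVars false
open Filter Set

noncomputable section

namespace Crest.Agent.N222

namespace Pre

variable {R : Type} [CommRing R] {ι : Type} [Fintype ι] {S : Pre R ι}
  {R' : Type} [CommRing R'] {S' : Pre R' ι} {φ : R →+* R'} (h : S.Hom S' φ)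
include h

theorem Hom.lift (u v : R) (b : ι → R) (c : Option ι) :
    φ (S.lift u v b c) = S'.lift (φ u) (φ v) (fun a => φ (b a)) c := by
  cases c <;> simp [Pre.lift, h.nu, h.X]

theorem Hom.newb (u v w m : R) (b : ι → R) (c : Option ι) :
    φ (S.newb u v w m b c) = S'.newb (φ u) (φ v) (φ w) (φ m) (fun a => φ (b a)) c := by
  simp only [Pre.newb, map_add, map_mul, h.lift, (h.graph u v).D]

theorem Hom.hb (b : ι → R) (u v : R) : φ (S.hb b u v) = S'.hb (fun a => φ (b a)) (φ u) (φ v) := by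
  simp only [Pre.hb, map_add, map_sum, map_mul, h.dv, h.X]

theorem Hom.tan {Y : ι → R} (hY : S.Tan Y) : S'.Tan fun a => φ (Y a) := fun a => by
  have := congrArg φ (hY a)
  simpa only [map_sum, map_mul, h.P] using this

end Pre

namespace A

theorem gen_aux {B c τ χ : ℝ} (hB : 0 ≤ B) (h : τ ^ 2 ≤ χ ^ 2 * B) :
    -(c ^ 2 * χ ^ 2) ≤ B + 2 * c * τ := by
  rcases (sq_nonneg χ).eq_or_lt with h0 | h0
  · rw [← h0, zero_mul] at h
    have : τ = 0 := pow_eq_zero_iff (two_ne_zero) |>.1 (le_antisymm h (sq_nonneg _))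
    rw [← h0, this]; linarith
  · refine le_of_mul_le_mul_right ?_ h0
    nlinarith [sq_nonneg (τ + c * χ ^ 2)]

theorem gen_num {W U u0 b a e B τ Gb Ga : ℝ} (hW : 1 ≤ W) (hu : 0 < u0) (hU : u0 ≤ U) (hB : 0 ≤ B)
    (hτ : τ ^ 2 ≤ (1 - W⁻¹ ^ 2) ^ 2 * B) :
    gen U W b (Gb / W) a (Ga / W) - ((2 / u0 + |a| * U) * |e| + e ^ 2) ≤
      B + ((1 - W⁻¹) / U - b * U / 2 + a * W⁻¹ * U / 2) ^ 2
        - (e + (a * U / 2 - (1 - W⁻¹) / U)) ^ 2
        - 2 * (-τ / U - (1 - W⁻¹) * (W - W⁻¹) / U ^ 2 - (W⁻¹ * Gb * U + b * (W - W⁻¹)) / 2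
          + (W⁻¹ * Ga * W⁻¹ * U + a * τ * U + a * W⁻¹ * (W - W⁻¹)) / 2) := by
  have W0 : 0 < W := by linarith
  have U0 : 0 < U := by linarith
  have h1 := gen_aux (c := 1 / U - a * U / 2) hB hτ
  have y0 : 0 ≤ 1 - W⁻¹ := sub_nonneg.2 (inv_le_one_of_one_le₀ hW)
  have y1 : (1 - W⁻¹) / U ≤ 1 / u0 :=
    div_le_div₀ zero_le_one (by linarith [inv_pos.2 W0]) hu hU
  have h2 : |a * U / 2 - (1 - W⁻¹) / U| ≤ |a| * U / 2 + 1 / u0 := by
    refine (abs_sub _ _).trans (add_le_add ?_ ?_)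
    · rw [abs_div, abs_mul, abs_of_pos U0, abs_two]
    · rwa [abs_of_nonneg (div_nonneg y0 U0.le)]
  have h3 : e * (a * U / 2 - (1 - W⁻¹) / U) ≤ |e| * (|a| * U / 2 + 1 / u0) :=
    (le_abs_self _).trans (by rw [abs_mul]; exact mul_le_mul_of_nonneg_left h2 (abs_nonneg _))
  have e1 : gen U W b (Gb / W) a (Ga / W) =
      -((1 / U - a * U / 2) ^ 2 * (1 - W⁻¹ ^ 2) ^ 2) - 2 * (1 / U - a * U / 2) * τ
      + ((1 - W⁻¹) / U - b * U / 2 + a * W⁻¹ * U / 2) ^ 2 - (a * U / 2 - (1 - W⁻¹) / U) ^ 2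
        - 2 * (-τ / U - (1 - W⁻¹) * (W - W⁻¹) / U ^ 2 - (W⁻¹ * Gb * U + b * (W - W⁻¹)) / 2
          + (W⁻¹ * Ga * W⁻¹ * U + a * τ * U + a * W⁻¹ * (W - W⁻¹)) / 2) := by
    unfold gen; field_simp; ring
  have e2 : (2 / u0 + |a| * U) * |e| = 2 * (|e| * (|a| * U / 2 + 1 / u0)) := by ring
  rw [e1, e2, add_sq e]
  linarith

variable {d : ℕ} {ι : Type} [Fintype ι] [DecidableEq ι] {X : Type} [TopologicalSpace X]
  {M : Imm d ι X} {b : ι → X → ℝ} {Q σ a v : X → ℝ} {u0 : ℝ}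

theorem sm_ww (hv : M.Sm v) : M.Sm (ww M.pre v) :=
  Imm.Sm.sqrt ((Imm.sm_const 1).add (hv.gam hv)) fun p => by
    have := Imm.gam_self_nonneg (M := M) v p
    positivity

theorem sm_vv (hv : M.Sm v) : M.Sm (vv M.pre v) := hv.vv

theorem sm_beta (hQ : M.Sm Q) (hσ : M.Sm σ) (hv : M.Sm v) (v0 : ∀ p, 0 ≤ v p) (hu : 0 < u0) :
    M.Sm (beta Q σ v u0) :=
  hQ.mul ((Imm.sm_const 1).sub ((hσ.add (Imm.sm_const _)).div
    ((((Imm.sm_const u0).add hv).pow 2).div (Imm.sm_const 4) fun _ => by norm_num) fun p => by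
      have := v0 p
      positivity))

theorem sm_hb (hb : ∀ c, M.Sm (b c)) (hv : M.Sm v) : M.Sm (M.pre.hb b v (vv M.pre v)) :=
  (M.hom.hb (fun c => ⟨b c, hb c⟩) ⟨v, hv⟩ ⟨_, sm_vv hv⟩ ▸ Imm.sm_val _ :
    M.Sm (M.pre.hb (fun c => M.val ⟨b c, hb c⟩) (M.val ⟨v, hv⟩) (M.val ⟨_, sm_vv hv⟩)))

theorem sm_nn (hQ : M.Sm Q) (hσ : M.Sm σ) (ha : M.Sm a) (hv : M.Sm v) (v0 : ∀ p, 0 ≤ v p)
    (hu : 0 < u0) : M.Sm (nn M.pre Q σ a v u0) := by
  have hU : M.Sm fun p => u0 + v p := (Imm.sm_const u0).add hv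
  exact ((((Imm.sm_const 1).sub (sm_vv hv)).div hU fun p => by have := v0 p; positivity).sub
    (((sm_beta hQ hσ hv v0 hu).mul hU).div (Imm.sm_const 2) fun _ => two_ne_zero)).add
    (((ha.mul (sm_vv hv)).mul hU).div (Imm.sm_const 2) fun _ => two_ne_zero)

theorem sm_mm (hb : ∀ c, M.Sm (b c)) (hQ : M.Sm Q) (hσ : M.Sm σ) (ha : M.Sm a) (hv : M.Sm v)
    (v0 : ∀ p, 0 ≤ v p) (hu : 0 < u0) : M.Sm (mm M.pre b Q σ a v u0) :=
  (sm_ww hv).mul ((sm_hb hb hv).add (sm_nn hQ hσ ha hv v0 hu))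

theorem D_nn (hQ : M.Sm Q) (hσ : M.Sm σ) (ha : M.Sm a) (hv : M.Sm v) (v0 : ∀ p, 0 ≤ v p)
    (hu : 0 < u0) (c : ι) (p : X) : M.pre.D c (nn M.pre Q σ a v u0) p =
      -M.pre.D c (vv M.pre v) p / (u0 + v p) - (1 - vv M.pre v p) * M.pre.D c v p / (u0 + v p) ^ 2
      - (M.pre.D c (beta Q σ v u0) p * (u0 + v p) + beta Q σ v u0 p * M.pre.D c v p) / 2
      + (M.pre.D c a p * vv M.pre v p * (u0 + v p) + a p * M.pre.D c (vv M.pre v) p * (u0 + v p)
        + a p * vv M.pre v p * M.pre.D c v p) / 2 := by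
  have U0 : ∀ q, u0 + v q ≠ 0 := fun q => by have := v0 q; positivity
  have hU : M.Sm fun p => u0 + v p := (Imm.sm_const u0).add hv
  have hβ := sm_beta hQ hσ hv v0 hu
  have hw := sm_vv hv
  have h1 : M.Sm fun q => 1 - vv M.pre v q := (Imm.sm_const 1).sub hw
  have h2 := hU.inv U0
  have e : nn M.pre Q σ a v u0 = fun q => ((1 - vv M.pre v q) * (u0 + v q)⁻¹
      - 1 / 2 * (beta Q σ v u0 q * (u0 + v q))) + 1 / 2 * (a q * vv M.pre v q * (u0 + v q)) := by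
    funext q; unfold nn; ring
  have dU : M.pre.D c (fun q => u0 + v q) p = M.pre.D c v p := by
    rw [Imm.D_add ((Imm.sm_const u0).diffAt p) (hv.diffAt p), Imm.D_const, zero_add]
  rw [e, Imm.D_add (((h1.mul h2).sub ((Imm.sm_const _).mul (hβ.mul hU))).diffAt p)
      (((Imm.sm_const _).mul ((ha.mul hw).mul hU)).diffAt p),
    Imm.D_sub ((h1.mul h2).diffAt p) (((Imm.sm_const _).mul (hβ.mul hU)).diffAt p),
    Imm.D_const_mul _ ((hβ.mul hU).diffAt p), Imm.D_const_mul _ (((ha.mul hw).mul hU).diffAt p),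
    Imm.D_mul (h1.diffAt p) (h2.diffAt p), Imm.D_mul (hβ.diffAt p) (hU.diffAt p),
    Imm.D_mul ((ha.mul hw).diffAt p) (hU.diffAt p), Imm.D_mul (ha.diffAt p) (hw.diffAt p),
    Imm.D_sub ((Imm.sm_const 1).diffAt p) (hw.diffAt p), Imm.D_const,
    Imm.D_comp (g := fun t => t⁻¹) (hU.diffAt p) (hasDerivAt_inv (U0 p)), dU]
  have := U0 p
  field_simp; ring

theorem dirX (v f : X → ℝ) (p : X) :
    M.pre.dir (M.pre.X v (vv M.pre v)) f p = vv M.pre v p * M.pre.gam v f p := by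
  simp only [Imm.dir_apply, Imm.gam_apply, Pre.X, Pi.mul_apply, Finset.mul_sum, mul_assoc]

theorem dir_nn (hQ : M.Sm Q) (hσ : M.Sm σ) (ha : M.Sm a) (hv : M.Sm v) (v0 : ∀ p, 0 ≤ v p)
    (hu : 0 < u0) (Y : ι → X → ℝ) (p : X) : M.pre.dir Y (nn M.pre Q σ a v u0) p =
      -M.pre.dir Y (vv M.pre v) p / (u0 + v p)
      - (1 - vv M.pre v p) * M.pre.dir Y v p / (u0 + v p) ^ 2
      - (M.pre.dir Y (beta Q σ v u0) p * (u0 + v p) + beta Q σ v u0 p * M.pre.dir Y v p) / 2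
      + (M.pre.dir Y a p * vv M.pre v p * (u0 + v p) + a p * M.pre.dir Y (vv M.pre v) p * (u0 + v p)
        + a p * vv M.pre v p * M.pre.dir Y v p) / 2 := by
  simp only [Imm.dir_apply, D_nn hQ hσ ha hv v0 hu, Finset.mul_sum, Finset.sum_mul, neg_div,
    Finset.sum_div, ← Finset.sum_add_distrib, ← Finset.sum_sub_distrib, ← Finset.sum_neg_distrib]
  exact Finset.sum_congr rfl fun c _ => by ring

theorem hvR (hv : M.Sm v) :
    (⟨_, sm_vv hv⟩ : SmR M.ch) ^ 2 * (1 + M.preR.gam ⟨v, hv⟩ ⟨v, hv⟩) = 1 :=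
  Subtype.ext (by
    rw [← Imm.val_apply, map_mul, map_pow, map_add, map_one, M.hom.gam]
    exact funext fun p => M.vv_sq v p)

theorem step_gam (hv : M.Sm v) {f g : X → ℝ} (hf : M.Sm f) (hg : M.Sm g) (p : X) :
    (stepS M.pre v).gam f g p = M.pre.gam f g p
      - vv M.pre v p * M.pre.gam v f p * (vv M.pre v p * M.pre.gam v g p) := by
  have := congrArg M.val (M.isDS.graph_gam (hvR hv) ⟨f, hf⟩ ⟨g, hg⟩)
  simp only [map_sub, map_mul, (M.hom.graph _ _).gam, M.hom.gam, M.hom.dir, M.hom.X] at this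
  rw [← dirX, ← dirX]
  exact congrFun this p

theorem cs_two {κ : Type} [Fintype κ] (T : κ → κ → ℝ) (t : κ → ℝ) :
    (∑ a, ∑ c, T a c * (t a * t c)) ^ 2 ≤ (∑ a, ∑ c, T a c * T a c) * (∑ a, t a * t a) ^ 2 := by
  have h := Finset.sum_mul_sq_le_sq_mul_sq Finset.univ (fun x : κ × κ => T x.1 x.2)
    (fun x => t x.1 * t x.2)
  simp only [Fintype.sum_prod_type] at h
  have e1 : (∑ a, t a * t a) ^ 2 = ∑ a, ∑ c, (t a * t c) ^ 2 := by
    rw [sq, Finset.sum_mul_sum]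
    exact Finset.sum_congr rfl fun a _ => Finset.sum_congr rfl fun c _ => by ring
  rw [e1]
  simpa only [sq (T _ _)] using h

theorem tau_le {om W t τ a2 g gvo : ℝ} (hW : W * om = 1) (ht : om ^ 2 * (1 + t) = 1) (t0 : 0 ≤ t)
    (h1 : (-om * τ) ^ 2 ≤ a2 * (t - om * t * (om * t)) ^ 2) (hτ : τ = om * gvo)
    (h2 : (gvo - om * t * (om * gvo)) ^ 2 ≤ (t - om * t * (om * t)) * g) :
    τ ^ 2 ≤ (1 - om ^ 2) ^ 2 * (a2 + W ^ 2 * g) := by
  have e1 : t - om * t * (om * t) = 1 - om ^ 2 := by linear_combination (1 - t) * ht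
  have e2 : gvo - om * t * (om * gvo) = om * τ := by rw [hτ]; linear_combination (-gvo) * ht
  have c0 : 0 ≤ 1 - om ^ 2 := by nlinarith [mul_nonneg (sq_nonneg om) t0]
  rw [e1] at h1 h2
  rw [e2] at h2
  have h3 := mul_le_mul_of_nonneg_left h2 (mul_nonneg c0 (sq_nonneg W))
  have e3 : (1 - om ^ 2) * W ^ 2 * (om * τ) ^ 2 = (1 - om ^ 2) * τ ^ 2 := by
    linear_combination (1 - om ^ 2) * τ ^ 2 * (W * om + 1) * hW
  rw [e3] at h3
  nlinarith

/-- **GEN** -/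
theorem gen_le (h : IdStmt) : GenStmt := by
  intro d ι _ _ X _ M b Q σ a v u0 hb tb hQ hσ ha hv v0 hu
  have hW : ∀ p, 1 ≤ √(1 + M.pre.gam v v p) := fun p =>
    Real.one_le_sqrt.2 (by linarith [Imm.gam_self_nonneg (M := M) v p])
  have wv : ∀ p, ww M.pre v p * vv M.pre v p = 1 := fun p =>
    mul_inv_cancel₀ (zero_lt_one.trans_le (hW p)).ne'
  have tR : M.preR.Tan fun c => (⟨b c, hb c⟩ : SmR M.ch) := fun c => Subtype.ext (by
    rw [← Imm.val_apply, map_sum]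
    simp only [map_mul, M.hom.P]
    exact tb c)
  obtain ⟨i1, i2, i3⟩ := h (SmR M.ch) ι M.preR M.isDS ⟨v, hv⟩ ⟨_, sm_vv hv⟩ ⟨_, sm_ww hv⟩
    ⟨_, sm_mm hb hQ hσ ha hv v0 hu⟩ (fun c => ⟨b c, hb c⟩) (hvR hv) (Subtype.ext (funext wv)) tR
  have gh := M.hom.graph ⟨v, hv⟩ ⟨_, sm_vv hv⟩
  refine ⟨?_, fun p => ?_⟩
  · have := gh.tan i1
    simp only [M.hom.newb] at this
    exact this
  have j2 := congrArg M.val i2
  have j3 := congrArg M.val i3
  simp only [map_add, map_sub, map_mul, map_pow, map_neg, map_sum, map_ofNat, gh.Eb, gh.gam, gh.D,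
    M.hom.Eb, M.hom.a2, M.hom.hb, M.hom.dir, M.hom.X, M.hom.A, M.hom.newb, Imm.val_apply] at j2 j3
  have en : vv M.pre v * mm M.pre b Q σ a v u0 - M.pre.hb b v (vv M.pre v)
      = nn M.pre Q σ a v u0 := funext fun q => by
    simp only [Pi.sub_apply, Pi.mul_apply, mm]
    linear_combination (M.pre.hb b v (vv M.pre v) q + nn M.pre Q σ a v u0 q) * wv q
  rw [en] at j2
  have k2 := congrFun j2 p
  have k3 := congrFun j3 p
  simp only [Pi.add_apply, Pi.sub_apply, Pi.mul_apply, Pi.pow_apply, Pi.neg_apply,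
    Finset.sum_apply, Pi.ofNat_apply] at k2 k3
  have U0 : 0 < u0 + v p := by linarith [v0 p]
  have em : mm M.pre b Q σ a v u0 p = dfc M.pre b Q σ v u0 p
      + (a p * (u0 + v p) / 2 - (1 - vv M.pre v p) / (u0 + v p)) := by
    simp only [mm, dfc, nn]
    linear_combination (a p * (u0 + v p) / 2 - (1 - vv M.pre v p) / (u0 + v p)) * wv p
  have c1 := cs_two (fun c e => M.pre.A v (vv M.pre v) c e p)
    fun c => (M.pre.graph v (vv M.pre v)).D c v p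
  have c2 := Finset.sum_mul_sq_le_sq_mul_sq Finset.univ
    (fun c => (M.pre.graph v (vv M.pre v)).D c v p)
    fun c => (M.pre.graph v (vv M.pre v)).D c (vv M.pre v) p
  have g1 : ∀ f g : X → ℝ, ∑ c, (M.pre.graph v (vv M.pre v)).D c f p *
      (M.pre.graph v (vv M.pre v)).D c g p = (stepS M.pre v).gam f g p := fun f g => by
    simp [Pre.gam, stepS]
  have g2 : ∑ c, ∑ e, M.pre.A v (vv M.pre v) c e p * M.pre.A v (vv M.pre v) c e p
      = M.pre.a2 v (vv M.pre v) p := by simp [Pre.a2]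
  simp only [sq ((M.pre.graph v (vv M.pre v)).D _ _ p), g1] at c2
  rw [k3, g1, g2, step_gam hv hv hv] at c1
  rw [step_gam hv hv hv, step_gam hv hv (sm_vv hv)] at c2
  have t1 := tau_le (wv p) (M.vv_sq v p) (Imm.gam_self_nonneg v p) c1 (dirX v _ p) c2
  have B0 : 0 ≤ M.pre.a2 v (vv M.pre v) p
      + ww M.pre v p ^ 2 * (stepS M.pre v).gam (vv M.pre v) (vv M.pre v) p := by
    rw [← g1, ← g2]
    exact add_nonneg (Finset.sum_nonneg fun _ _ => Finset.sum_nonneg fun _ _ => mul_self_nonneg _)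
      (mul_nonneg (sq_nonneg _) (Finset.sum_nonneg fun _ _ => mul_self_nonneg _))
  have n1 := gen_num (b := beta Q σ v u0 p) (a := a p) (e := dfc M.pre b Q σ v u0 p)
    (Gb := M.pre.gam v (beta Q σ v u0) p) (Ga := M.pre.gam v a p) (hW p) hu
    (le_add_of_nonneg_right (v0 p)) B0 t1
  have ev : vv M.pre v p * M.pre.gam v v p = ww M.pre v p - vv M.pre v p := by
    have := M.vv_sq v p
    change vv M.pre v p ^ 2 * _ = 1 at this
    linear_combination ww M.pre v p * this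
      - (vv M.pre v p * M.pre.gam v v p + vv M.pre v p) * wv p
  rw [dir_nn hQ hσ ha hv v0 hu, dirX v v, dirX v a, dirX v (beta Q σ v u0), ev, em] at k2
  change (stepS M.pre v).Eb (stepb M.pre b Q σ a v u0) p = _ at k2
  rw [k2]
  simp only [nn, vv, ww, stepS] at n1 ⊢
  linarith

end A

end Crest.Agent.N222

end
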