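import Crest.Agent.N222.A.GDefs
import Crest.Agent.N222.G.Graph

/-! # Row 222, part A: the algebraic step identity (helper11) -/

set_option autoImplicit false
set_option linter.dupNamespace false
set_option linter.unusedSectionVars false

noncomputable section

namespace Crest.Agent.N222

namespace Pre.IsDS

variable {R : Type} [CommRing R] [Algebra ℝ R] {ι : Type} [Fintype ι] [DecidableEq ι]
  {S : Pre R ι}

theorem id_sum4 {κ : Type} [Fintype κ] (F : κ → κ → ι → ι → R) :
    ∑ a, ∑ c, ∑ k, ∑ e, F a c k e = ∑ k, ∑ e, ∑ a, ∑ c, F a c k e := by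
  have := Finset.sum_comm (s := Finset.univ) (t := Finset.univ)
    (f := fun (x : κ × κ) (y : ι × ι) => F x.1 x.2 y.1 y.2)
  simpa only [Fintype.sum_prod_type] using this

variable (h : S.IsDS)
include h

theorem id_dir_add (Y : ι → R) (f g : R) : S.dir Y (f + g) = S.dir Y f + S.dir Y g := by
  simp only [Pre.dir, h.add, mul_add, Finset.sum_add_distrib]

theorem id_dir_sub (Y : ι → R) (f g : R) : S.dir Y (f - g) = S.dir Y f - S.dir Y g := by
  simp only [Pre.dir, h.D_sub, mul_sub, Finset.sum_sub_distrib]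

theorem id_dir_mul (Y : ι → R) (f g : R) : S.dir Y (f * g) = f * S.dir Y g + S.dir Y f * g := by
  simp only [Pre.dir, h.mul, Finset.mul_sum, Finset.sum_mul, ← Finset.sum_add_distrib]
  exact Finset.sum_congr rfl fun a _ => by ring

theorem id_dir_sum {κ : Type} [Fintype κ] (Y : ι → R) (f : κ → R) :
    S.dir Y (∑ k, f k) = ∑ k, S.dir Y (f k) := by
  simp only [Pre.dir, h.D_sum, Finset.mul_sum]
  exact Finset.sum_comm

theorem id_lift_eq (u v : R) {b : ι → R} (hb : S.Tan b) (c : Option ι) :
    S.lift u v b c = ∑ a, (S.graph u v).P c (some a) * b a := by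
  simp only [h.Q_eq, add_mul, Finset.sum_add_distrib, mul_assoc, ← Finset.mul_sum, Pre.lift]
  cases c <;> simp [Pre.Pb, hb _]

variable {u v w : R} (hv : v ^ 2 * (1 + S.gam u u) = 1) (hw : w * v = 1)
include hv

theorem id_nu_D (f : R) : ∑ c, S.nu u v c * (S.graph u v).D c f = 0 := by
  simp only [h.gD u v _ f, Finset.mul_sum, ← mul_assoc]
  rw [Finset.sum_comm]
  simp only [← Finset.sum_mul, h.nu_gP hv, zero_mul, Finset.sum_const_zero]

theorem id_div_nu : ∑ c, (S.graph u v).D c (S.nu u v c) = -S.dv (S.X u v) := by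
  rw [← h.tr_A hv]
  simp only [Pre.A, Finset.sum_neg_distrib, neg_neg]
  rw [Finset.sum_comm]
  refine Finset.sum_congr rfl fun c _ => ?_
  rw [← (h.graph_isDS hv).PD c]
  exact Finset.sum_congr rfl fun e _ => by rw [h.gP_symm hv]

theorem id_dv_lift (b : ι → R) : (S.graph u v).dv (S.lift u v b) = S.dv b
    - ∑ a, S.X u v a * S.dir (S.X u v) (b a) - (∑ a, S.X u v a * b a) * S.dv (S.X u v) := by
  have h' := h.graph_isDS hv
  simp only [Pre.dv, Pre.lift, h'.add, h'.mul, Finset.sum_add_distrib, h.id_nu_D hv,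
    ← Finset.sum_mul, h.id_div_nu hv]
  rw [Fintype.sum_option]
  simp only [Option.elim, h'.D_zero]
  simp only [Pre.graph, Option.elim, Pre.nu, Finset.sum_add_distrib, neg_mul,
    Finset.sum_neg_distrib]
  ring

theorem id_lift_D {b : ι → R} (hb : S.Tan b) (f : R) :
    ∑ c, S.lift u v b c * (S.graph u v).D c f
      = S.dir b f - (∑ a, S.X u v a * b a) * S.dir (S.X u v) f := by
  simp only [h.id_lift_eq u v hb, h.gD u v _ f]
  exact h.lift_lift hv hb _

theorem id_lift_sq {b : ι → R} (hb : S.Tan b) : ∑ c, S.lift u v b c * S.lift u v b c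
    = ∑ a, b a * b a - (∑ a, S.X u v a * b a) * ∑ a, S.X u v a * b a := by
  simp only [h.id_lift_eq u v hb]
  exact h.lift_lift hv hb _

theorem id_jac : -(S.graph u v).lap v = (S.a2 u v
    + ∑ a, ∑ b, S.Ric a b * (S.X u v a * S.X u v b) + S.dir (S.X u v) (S.dv (S.X u v))) * v := by
  have := h.jacobi hv 0
  simpa only [Pre.lapF, Pre.gam, Pre.RicF, Pre.hF, Pre.dvF, Pre.dir, Pre.hess, h.D_zero,
    (h.graph_isDS hv).D_zero, zero_mul, mul_zero, Finset.sum_const_zero, add_zero, sub_zero]
    using this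

include hw

theorem id_X_u : S.dir (S.X u v) u = w - v := by
  rw [h.dir_X_u hv]
  linear_combination w * hv - (v + v * S.gam u u) * hw

theorem id_gam_u (f : R) : (S.graph u v).gam u f = v * S.dir (S.X u v) f := by
  have e : S.dir (S.X u v) f = v * S.gam u f := by
    simp only [Pre.dir, Pre.X, Pre.gam, Finset.mul_sum, mul_assoc]
  rw [h.graph_gam hv, h.id_X_u hv hw, e]
  linear_combination (-S.gam u f) * hw

theorem id_lap_u : (S.graph u v).lap u = v * S.dv (S.X u v) := by
  rw [h.graph_lap hv, h.id_X_u hv hw, h.dv_X hv]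
  linear_combination
    (-(S.lap u - ∑ a, ∑ b, S.X u v a * S.X u v b * S.hess u a b)) * hw

theorem id_D_w (c : Option ι) : (S.graph u v).D c w = -(w ^ 2 * (S.graph u v).D c v) := by
  have h' := h.graph_isDS hv
  have e := congrArg ((S.graph u v).D c) hw
  rw [h'.mul, h'.D_one] at e
  linear_combination w * e - (S.graph u v).D c w * hw

theorem id_b_u (b : ι → R) : S.dir b u = w * ∑ a, S.X u v a * b a := by
  simp only [Pre.dir, Pre.X, Finset.mul_sum]
  exact Finset.sum_congr rfl fun a _ => by linear_combination (-(b a * S.D a u)) * hw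

theorem id_b_XX {b : ι → R} (hb : S.Tan b) : ∑ a, S.dir (S.X u v) (S.X u v a) * b a
    = -(w * (S.dir b v - (∑ a, S.X u v a * b a) * S.dir (S.X u v) v)) := by
  have e1 : ∑ a, S.dir (S.X u v) (S.D a u) * b a
      = ∑ a, b a * ∑ k, S.X u v k * S.hess u a k := by
    simp only [Pre.dir, Finset.sum_mul, Finset.mul_sum]
    rw [Finset.sum_comm]
    conv_rhs => rw [Finset.sum_comm]
    refine Finset.sum_congr rfl fun k _ => ?_
    have := congrArg (S.X u v k * ·) (h.tan_DD hb u k)
    simp only [Finset.mul_sum] at this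
    refine (Finset.sum_congr rfl fun a _ => by ring).trans
      (this.trans (Finset.sum_congr rfl fun a _ => ?_))
    rw [h.hess u k a]; ring
  have e2 : S.dir b v = -(v ^ 2 * ∑ a, b a * ∑ k, S.X u v k * S.hess u a k) := by
    simp only [Pre.dir, h.D_v hv]
    rw [Finset.mul_sum, ← Finset.sum_neg_distrib]
    exact Finset.sum_congr rfl fun a _ => by ring
  have e3 : ∑ a, S.dir (S.X u v) (S.X u v a) * b a
      = v * ∑ a, S.dir (S.X u v) (S.D a u) * b a + S.dir (S.X u v) v * S.dir b u := by
    rw [Pre.dir.eq_1 S b u, Finset.mul_sum, Finset.mul_sum, ← Finset.sum_add_distrib]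
    refine Finset.sum_congr rfl fun a _ => ?_
    rw [show S.X u v a = v * S.D a u from rfl, h.id_dir_mul]
    ring
  rw [e3, e1, e2, h.id_b_u hv hw]
  linear_combination (-(v * ∑ a, b a * ∑ k, S.X u v k * S.hess u a k)) * hw

theorem id_A_tau : ∑ a, ∑ c, S.A u v a c * ((S.graph u v).D a u * (S.graph u v).D c u)
    = -v * S.dir (S.X u v) v := by
  have h' := h.graph_isDS hv
  have e1 : ∀ k, ∑ a, (S.graph u v).P a (some k) * (S.graph u v).D a u = v * S.X u v k := by
    intro k
    simp only [h.gP_symm hv _ (some k), h'.PD]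
    change S.D k u + -S.X u v k * S.dir (S.X u v) u = _
    rw [h.id_X_u hv hw, show S.X u v k = v * S.D k u from rfl]
    linear_combination (-S.D k u) * hw
  have e2 : ∑ a, ∑ c, S.A u v a c * ((S.graph u v).D a u * (S.graph u v).D c u)
      = v * ∑ k, ∑ e, (∑ a, (S.graph u v).P a (some k) * (S.graph u v).D a u) *
        (∑ c, (S.graph u v).P c (some e) * (S.graph u v).D c u) * S.hess u k e := by
    simp only [h.A_eq hv, Finset.sum_mul_sum]
    simp only [Finset.mul_sum, Finset.sum_mul]
    rw [id_sum4]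
    exact Finset.sum_congr rfl fun k _ => Finset.sum_congr rfl fun e _ =>
      Finset.sum_congr rfl fun a _ => Finset.sum_congr rfl fun c _ => by ring
  rw [e2]
  simp only [e1, Pre.dir, h.D_v hv, Finset.mul_sum, mul_neg, neg_mul, neg_neg,
    Finset.sum_neg_distrib]
  exact Finset.sum_congr rfl fun k _ => Finset.sum_congr rfl fun e _ => by ring

end Pre.IsDS

namespace A

/-- **the algebraic step identity** -/
theorem id_step : IdStmt := by
  intro R _ _ ι _ _ S h u v w m b hv hw hb
  have h' := h.graph_isDS hv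
  refine ⟨fun c => ?_, ?_, h.id_A_tau hv hw⟩
  · simp only [Pre.newb, mul_add, Finset.sum_add_distrib, mul_left_comm _ w, mul_left_comm _ m,
      ← Finset.mul_sum, h'.PD, h.id_lift_eq u v hb, h.P_lift hv]
  have d1 : (S.graph u v).dv (S.newb u v w m b) = (S.graph u v).dv (S.lift u v b)
      + (w * (S.graph u v).lap v - w ^ 2 * (S.graph u v).gam v v)
      + (m * (S.graph u v).lap u + (S.graph u v).gam u m) := by
    simp only [Pre.dv, Pre.newb, Pre.lap, Pre.gam, h'.add, h'.mul, h.id_D_w hv hw, Finset.mul_sum,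
      ← Finset.sum_add_distrib, ← Finset.sum_sub_distrib]
    exact Finset.sum_congr rfl fun c _ => by ring
  have d2 : ∑ c, S.newb u v w m b c * S.newb u v w m b c = ∑ c, S.lift u v b c * S.lift u v b c
      + w ^ 2 * (S.graph u v).gam v v + m ^ 2 * (S.graph u v).gam u u
      + 2 * w * ∑ c, S.lift u v b c * (S.graph u v).D c v
      + 2 * m * ∑ c, S.lift u v b c * (S.graph u v).D c u + 2 * w * m * (S.graph u v).gam u v := by
    simp only [Pre.newb, Pre.gam, Finset.mul_sum, ← Finset.sum_add_distrib]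
    exact Finset.sum_congr rfl fun c _ => by ring
  have d3 : S.dir (S.X u v) (∑ a, S.X u v a * b a) = ∑ a, S.X u v a * S.dir (S.X u v) (b a)
      + ∑ a, S.dir (S.X u v) (S.X u v a) * b a := by
    simp only [h.id_dir_sum, h.id_dir_mul, Finset.sum_add_distrib]
  have d4 := h.id_jac hv
  rw [Pre.Eb, Pre.Eb, d1, d2, h.graph_scal hv, h.id_dv_lift hv, h.id_lift_sq hv hb,
    h.id_lift_D hv hb, h.id_lift_D hv hb, h.id_gam_u hv hw, h.id_gam_u hv hw, h.id_gam_u hv hw,
    h.id_lap_u hv hw, h.id_X_u hv hw, h.id_b_u hv hw b, Pre.hb, h.id_dir_sub, h.id_dir_add,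
    h.id_dir_mul, d3, h.id_b_XX hv hw hb]
  linear_combination 2 * w * d4 + (2 * (S.a2 u v
    + ∑ a, ∑ b, S.Ric a b * (S.X u v a * S.X u v b) + S.dir (S.X u v) (S.dv (S.X u v)))
    - m ^ 2 - 2 * m * S.dir (S.X u v) v) * hw

end A

end Crest.Agent.N222

end
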