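import Crest.Agent.N222.A.Book

/-! # Row 222, part A: the intermediate stage and the main stages (helper17) -/

set_option autoImplicit false
set_option linter.dupNamespace false
open Filter Set

noncomputable section

namespace Crest.Agent.N222.A

namespace It

theorem exists_j {n' s0 K0 : ℝ} (W : World n' s0 K0) (st : W.St) {σ : W.G → W.Z → ℝ}
    {I : W.Pi → ℝ} (h : ∀ᶠ π in W.L, (W.pt st π).Fi σ (I π)) : ∃ j : W.Pi → W.G → ℝ,
    ∀ᶠ π in W.L, ∑ g, j π g ≤ I π ∧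
      ∀ g, 0 ≤ j π g ∧ (W.pt st π).Γ (σ g) (σ g) ≤ j π g * σ g (W.ev π) := by
  classical
  refine ⟨fun π => if h : (W.pt st π).Fi σ (I π) then h.choose else 0, h.mono fun π hπ => ?_⟩
  simp only [dif_pos hπ]
  rw [← W.pt_p st π]
  exact ⟨hπ.choose_spec.2, hπ.choose_spec.1⟩

theorem sums {G : Type} [Fintype G] {θ M M' σ : G → ℝ} {T S : ℝ} (h0 : ∀ g, 0 ≤ θ g)
    (h1 : ∀ g, θ g ≤ 1) (h : ∑ g, |M' g - M g - T * σ g| ≤ S) :
    ∑ g, M g + T * ∑ g, σ g - S ≤ ∑ g, M' g ∧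
      ∑ g, θ g * M' g ≤ ∑ g, θ g * M g + T * ∑ g, θ g * σ g + S := by
  constructor
  · have : ∑ g, (M g + T * σ g - M' g) ≤ ∑ g, |M' g - M g - T * σ g| :=
      Finset.sum_le_sum fun g _ => by linarith [neg_abs_le (M' g - M g - T * σ g)]
    rw [Finset.sum_sub_distrib, Finset.sum_add_distrib, ← Finset.mul_sum] at this
    linarith
  · have : ∑ g, (θ g * M' g - θ g * M g - T * (θ g * σ g)) ≤ ∑ g, |M' g - M g - T * σ g| :=
      Finset.sum_le_sum fun g _ => by
        have a1 := mul_le_mul_of_nonneg_left (le_abs_self (M' g - M g - T * σ g)) (h0 g)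
        have a2 := mul_le_mul_of_nonneg_right (h1 g) (abs_nonneg (M' g - M g - T * σ g))
        linarith
    rw [Finset.sum_sub_distrib, Finset.sum_sub_distrib, ← Finset.mul_sum] at this
    linarith

theorem loss_le {η ι a b : ℝ} (hη : 0 ≤ η) (hι : 0 < ι) (ha : a ≤ ι) (hb : b ≤ 1) :
    η * ((a / ι + b) / 2) ≤ η := by
  have : a / ι ≤ 1 := (div_le_one hι).2 ha
  nlinarith

end It

open It

theorem half (h : StageStmt) : HalfStmt := by
  intro n' s0 K0 W st M ρ0 N0 Φ hn hs hK hρ hN hΦ hη ok p0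
  have cc1 := one_le_cc
  set ι : ℝ := 2 * K0 + 16 * cc ^ 2 * n' / N0 with hι
  have ι0 : 0 < ι := by positivity
  have ηH0 : 0 ≤ etaH n' K0 N0 := by unfold etaH eta; positivity
  have sN := ok.toMass.sm_N
  have su : W.A.Sm fun z => 2 - W.N M z / N0 := Alg.const_sub 2 (Alg.div_const sN N0)
  set w : W.Z → ℝ := fun z => cut (2 - W.N M z / N0) with hw
  have sw : W.A.Sm w := Alg.cut su
  have w1 : ∀ z, w z ^ 2 ≤ 1 := fun z => pow_le_one₀ (cut_nonneg _) (cut_le_one _)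
  set σ : W.G → W.Z → ℝ := fun g z => w z ^ 2 * W.χ g z with hσ
  have hG : ∀ π, (W.pt st π).Γ w w =
      (deriv cut (2 - W.N M (W.ev π) / N0) * (-1 / N0)) ^ 2 * (W.pt st π).Γ (W.N M) (W.N M) := by
    intro π
    refine (W.pt st π).chain_self (φ := fun t => cut (2 - t / N0)) sN sw ?_
    rw [W.pt_p]
    have h2 : HasDerivAt (fun t : ℝ => 2 - t / N0) (-1 / N0) (W.N M (W.ev π)) := by
      simpa [neg_div] using ((hasDerivAt_id (W.N M (W.ev π))).div_const N0).const_sub 2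
    exact HasDerivAt.comp (h₂ := cut) (h := fun t : ℝ => 2 - t / N0) _ (hasDerivAt_cut _) h2
  have hF : ∀ᶠ π in W.L, (W.pt st π).Fi σ (if 2 * N0 ≤ W.N M (W.ev π) then 0 else ι) := by
    filter_upwards [W.init, ok.toMass.fi] with π h1 h2
    obtain ⟨-, e1, e2, -⟩ := h1
    have f1 : (W.pt st π).Fi W.χ K0 :=
      e2.of_le (by rw [W.pt_p, W.pt_p]) fun g => ok.le π _ (W.χ_sm g)
    have f2 := f1.mul_sq W.χ_sm (fun g => (W.χ_mem g _).1) (w := fun _ => w) (fun _ => sw)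
      (sq_nonneg _) (fun _ => le_rfl) ((W.pt st π).nonneg sw) fun _ _ => le_rfl
    refine f2.mono ?_
    rw [W.pt_p, e1, hG]
    split_ifs with hc
    · have h3 : 2 - W.N M (W.ev π) / N0 ≤ 0 := by
        rw [sub_nonpos, le_div_iff₀ hN]; exact hc
      simp [hw, cut_zero h3, cut_deriv_zero (Or.inl h3)]
    · have h3 := h2.total ok.sm fun g => ok.nn g _
      rw [W.pt_p] at h3
      have h4 : (W.pt st π).Γ (W.N M) (W.N M) ≤ 2 * N0 * n' :=
        h3.trans (mul_le_mul_of_nonneg_right (not_le.1 hc).le (by linarith))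
      have h5 : (deriv cut (2 - W.N M (W.ev π) / N0) * (-1 / N0)) ^ 2 ≤ cc ^ 2 / N0 ^ 2 := by
        rw [mul_pow, div_pow, neg_one_sq, mul_one_div]
        exact div_le_div_of_nonneg_right (deriv_cut_sq_le _) (sq_nonneg _)
      have h6 := mul_le_mul h5 h4 ((W.pt st π).nonneg sN) (by positivity)
      have h7 : cc ^ 2 / N0 ^ 2 * (2 * N0 * n') = 2 * (cc ^ 2 * n' / N0) := by field_simp
      have h8 := mul_le_mul_of_nonneg_right (w1 (W.ev π)) (zero_le_one.trans hK)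
      have h9 : 16 * cc ^ 2 * n' / N0 = 16 * (cc ^ 2 * n' / N0) := by ring
      rw [hι, h9]
      linarith
  obtain ⟨j, hj⟩ := exists_j W st hF
  have hS : ∀ᶠ π in W.L, ∑ g, σ g (W.ev π) = w (W.ev π) ^ 2 := by
    filter_upwards [W.init] with π h1
    simp only [hσ]
    rw [← Finset.mul_sum, h1.2.1, mul_one]
  have hjι : ∀ᶠ π in W.L, ∑ g, j π g ≤ ι := hj.mono fun π h1 => h1.1.trans (by
    split_ifs
    · exact ι0.le
    · exact le_rfl)
  obtain ⟨st', M', ok', hM, H⟩ := h n' s0 K0 W st M ι (2 * N0) (1 / 400)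
    (Φ + 2 * etaH n' K0 N0 + s0) (s0 / 16) σ j hn ok ι0 (by positivity) (by norm_num)
    (by norm_num) (by
      have e : ι * (2 * N0) = 4 * (K0 * N0) + 32 * (cc ^ 2 * n') := by rw [hι]; field_simp; ring
      have a1 : 1 * n' ≤ cc ^ 2 * n' :=
        mul_le_mul_of_nonneg_right (one_le_pow₀ cc1) (by linarith)
      have a2 : 0 ≤ K0 * N0 := by positivity
      rw [e]; linarith)
    (by change etaH n' K0 N0 ≤ _; linarith) (by positivity)
    (fun g => ⟨W.A.mul (Alg.pow sw 2) (W.χ_sm g),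
      World.su_mono (W.χ_su g) fun z hz => by simp only [hσ, hz, mul_zero],
      fun z => ⟨mul_nonneg (sq_nonneg _) (W.χ_mem g z).1,
        mul_le_one₀ (w1 z) (W.χ_mem g z).1 (W.χ_mem g z).2⟩⟩)
    (by
      filter_upwards [hS, hjι, hj] with π h1 h2 h3
      exact ⟨h1.trans_le (w1 _), h2, h3.2⟩)
  refine ⟨st', M', ok', ?_⟩
  filter_upwards [H, p0, hS, hjι, hj, W.init] with π h1 h2 h3 h4 h5 h6
  change W.E st π - etaH n' K0 N0 * _ - _ ≤ _ ∧ (_ ∨ W.E st π + _ - 2 * etaH n' K0 N0 - _ ≤ _)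
    at h1
  obtain ⟨a1, a2⟩ := h1
  obtain ⟨b1, b2⟩ := h2
  have l1 := loss_le ηH0 ι0 h4 (h3.trans_le (w1 _))
  rcases b2 with b2 | ⟨b2, b3⟩
  · exact ⟨by linarith, Or.inl (by linarith)⟩
  refine ⟨?_, ?_⟩
  · rcases b3 with b3 | b3
    · have c1 : ∑ g, j π g = 0 := le_antisymm (by simpa only [if_pos b3] using h5.1)
        (Finset.sum_nonneg fun g _ => (h5.2 g).1)
      have c2 : w (W.ev π) = 0 := cut_zero (by rw [sub_nonpos, le_div_iff₀ hN]; exact b3)
      rw [c1, h3, c2] at a1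
      norm_num at a1
      linarith
    · linarith
  rcases a2 with a2 | a2
  swap
  · exact Or.inl (by linarith)
  right
  obtain ⟨c1, c2⟩ := sums (θ := fun g => cut (W.d g (W.ev π) - ρ0)) (fun _ => cut_nonneg _)
    (fun _ => cut_le_one _) a2
  have c3 : ∑ g, cut (W.d g (W.ev π) - ρ0) * σ g (W.ev π) = 0 := by
    refine Finset.sum_eq_zero fun g _ => ?_
    rcases (W.χ_mem g (W.ev π)).1.eq_or_lt with e | e
    · simp only [hσ, ← e, mul_zero]
    · have hO : W.ev π ∈ W.O g := by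
        by_contra hO
        exact e.ne' (W.su_out (W.χ_su g) (W.χ_sm g) st π hO).1
      rw [cut_zero (by linarith [(h6.2.2.2.1 g hO).2 e]), zero_mul]
  have c4 : W.N M (W.ev π) ≤ W.N M' (W.ev π) := Finset.sum_le_sum fun g _ => hM g _
  have c5 : N0 ≤ W.N M' (W.ev π) := by
    rcases le_total N0 (W.N M (W.ev π)) with e | e
    · exact e.trans c4
    · have c6 : w (W.ev π) = 1 := cut_one (by linarith [(div_le_one hN).2 e])
      rw [h3, c6] at c1
      have := ok.toMass.N_nonneg (W.ev π)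
      unfold World.N at this ⊢
      linarith
  refine ⟨c5, ?_⟩
  rw [c3] at c2
  unfold World.Mf at b2 ⊢
  linarith

theorem iter (h : StageStmt) (hs : SrcStmt) : IterStmt := by
  intro n' s0 K0 W st M ρ0 nn y Φ hn s0p hnn hy hy' hΦ ok inv
  have cc1 := one_le_cc
  have C0 := C1_pos
  have C8 : 1 ≤ C1 := by unfold C1; nlinarith [sq_nonneg cc]
  set c : ℝ := nn / 100 with hc
  have c0 : 0 < c := by positivity
  set ι : ℝ := 100 * C1 * n' / nn with hι
  have ι0 : 0 < ι := by positivity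
  have η0 : 0 < etaS n' nn y := by unfold etaS eta; positivity
  have hη : etaS n' (4 * nn) (3 / 4 * y) = 4 / 9 * etaS n' nn y := by
    rw [etaS_eq _ _ hnn, etaS_eq _ _ (by positivity)]
    field_simp
    ring
  obtain ⟨S1, S2⟩ := hs n' s0 K0 W st M ρ0 c hn c0 ok
  have Np : ∀ z, 0 < W.N M z + c := fun z => by linarith [ok.toMass.N_nonneg z]
  have sQ : ∀ z, ∑ g, W.Qn c M g z = W.N M z * (W.N M z + c)⁻¹ := fun z => by
    unfold World.Qn; rw [← Finset.sum_mul]; rfl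
  have sQ1 : ∀ z, W.N M z * (W.N M z + c)⁻¹ ≤ 1 := fun z => by
    rw [← div_eq_mul_inv, div_le_one (Np z)]; linarith
  have sS : ∀ z, ∑ g, W.src ρ0 c M g z ≤ 1 := fun z =>
    (Finset.sum_le_sum fun g _ => ((S1 g).2.2 z).2).trans ((sQ z).trans_le (sQ1 z))
  have hF : ∀ᶠ π in W.L, (W.pt st π).Fi (W.src ρ0 c M) ι := by
    filter_upwards [S2] with π h1
    refine h1.1.mono ?_
    have : ι = C1 * n' / c := by rw [hι, hc]; field_simp
    rw [this]
    exact div_le_div_of_nonneg_left (by positivity) c0 (by linarith [ok.toMass.N_nonneg (W.ev π)])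
  obtain ⟨j, hj⟩ := exists_j W st (I := fun _ => ι) hF
  obtain ⟨st', M', ok', hM, H⟩ := h n' s0 K0 W st M ι (4 * nn) y (Φ + 4 * etaS n' nn y)
    (etaS n' nn y / 9) (W.src ρ0 c M) j hn ok ι0 (by positivity) hy (by linarith) (by
      have e : ι * (4 * nn) = 400 * (C1 * n') := by rw [hι]; field_simp; ring
      have a1 : 1 * n' ≤ C1 * n' := mul_le_mul_of_nonneg_right C8 (by linarith)
      rw [e]; linarith)
    (by change etaS n' nn y ≤ _; linarith) (by positivity)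
    (fun g => ⟨(S1 g).1, (S1 g).2.1, fun z => ⟨((S1 g).2.2 z).1,
      (Finset.single_le_sum (fun g _ => ((S1 g).2.2 z).1) (Finset.mem_univ g)).trans (sS z)⟩⟩)
    (hj.mono fun π h1 => ⟨sS _, h1.1, h1.2⟩)
  refine ⟨st', M', ok', ?_⟩
  filter_upwards [H, inv, hj, S2] with π h1 h2 h3 h4
  change W.E st π - etaS n' nn y * _ - _ ≤ _ ∧ (_ ∨ W.E st π + _ - 2 * etaS n' nn y - _ ≤ _)
    at h1
  obtain ⟨a1, a2⟩ := h1
  obtain ⟨b1, b2⟩ := h2
  have l1 := loss_le η0.le ι0 h3.1 (sS (W.ev π))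
  rw [hη]
  refine ⟨by linarith, ?_⟩
  rcases b2 with b2 | ⟨b2, b3⟩
  · exact Or.inl (by linarith)
  rcases a2 with a2 | a2
  swap
  · exact Or.inl (by linarith)
  right
  obtain ⟨c1, c2⟩ := sums (θ := fun g => cut (W.d g (W.ev π) - ρ0)) (fun _ => cut_nonneg _)
    (fun _ => cut_le_one _) a2
  set z := W.ev π with hz
  set N := W.N M z with hN
  set N' := W.N M' z with hN'
  set F := W.Mf ρ0 M z with hF0
  set r := (N + c)⁻¹ with hr
  have r0 : 0 < r := inv_pos.2 (Np z)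
  have N0 : 0 < N := hnn.trans_le b2
  have yN : 0 ≤ y * N := by positivity
  have hnear := (h4.2.2.2 (by linarith)).1
  set α := ∑ g, cut (W.d g z - ρ0) * (W.Qn c M g z - W.src ρ0 c M g z) with hα
  have α0 : 0 ≤ α := Finset.sum_nonneg fun g _ =>
    mul_nonneg (cut_nonneg _) (sub_nonneg.2 ((S1 g).2.2 z).2)
  have e1 : ∑ g, W.src ρ0 c M g z = N * r - α := by
    rw [← sQ z, hα, ← Finset.sum_sub_distrib]
    refine Finset.sum_congr rfl fun g _ => ?_
    rcases lt_or_ge (W.d g z) (ρ0 + 1) with e | e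
    · rw [hnear g e]; ring
    · rw [cut_one (by linarith)]; ring
  have e2 : ∑ g, cut (W.d g z - ρ0) * W.src ρ0 c M g z = F * r - α := by
    rw [hα, hF0, World.Mf, Finset.sum_mul, ← Finset.sum_sub_distrib]
    refine Finset.sum_congr rfl fun g _ => ?_
    unfold World.Qn
    ring
  have e3 : 0 ≤ F * r - α := e2 ▸ Finset.sum_nonneg fun g _ =>
    mul_nonneg (cut_nonneg _) ((S1 g).2.2 z).1
  have e4 : 100 / 101 ≤ N * r := by
    rw [hr, ← div_eq_mul_inv, le_div_iff₀ (Np z)]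
    linarith
  have e5 : F * r ≤ (1 / 20 - 16 * y) * (N * r) := by
    rw [← mul_assoc]; exact mul_le_mul_of_nonneg_right b3 r0.le
  have e6 : 0 ≤ y * (N * r) := by positivity
  have e7 : 94 / 100 ≤ N * r - α := by linarith
  have e8 : F * r - α ≤ (1 / 20 - 16 * y) * (N * r - α) := by
    have := mul_nonneg hy.le α0
    linarith
  rw [e1] at c1
  rw [e2] at c2
  change N + _ - _ ≤ N' at c1
  change W.Mf ρ0 M' z ≤ F + _ + _ at c2
  have ynn : 0 < y * nn := by positivity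
  have e9 : y * nn ≤ 1 / 1000 * nn := mul_le_mul_of_nonneg_right hy' hnn.le
  have f1 := mul_le_mul_of_nonneg_left e7 hnn.le
  have f2 : 4 * nn ≤ N' := by linarith
  refine ⟨f2, ?_⟩
  have f3 := mul_le_mul_of_nonneg_left e8 hnn.le
  have f4 := mul_le_mul_of_nonneg_left c1 (show 0 ≤ 1 / 20 - 16 * y by linarith)
  have f5 := mul_le_mul_of_nonneg_left f2 hy.le
  have f6 : 0 ≤ y * (y * nn) := by positivity
  linarith

end Crest.Agent.N222.A

end
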