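import Crest.Agent.N222.A.SmJ
import Crest.Agent.N222.F.Graph

/-! # Row 222, part A: the next state (helper72) -/

set_option autoImplicit false
set_option linter.dupNamespace false
open Filter Set Topology Function
open scoped ContDiff

noncomputable section

namespace Crest.Agent.N222.A

/-- transport of the step along a map which intertwines the derivations -/
theorem stepS_D_of {X Y ι : Type} [Fintype ι] {S : Pre (X → ℝ) ι} {S' : Pre (Y → ℝ) ι}
    {v f : X → ℝ} {v' f' : Y → ℝ} {x : X} {y : Y} (hv : ∀ c, S.D c v x = S'.D c v' y)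
    (hf : ∀ c, S.D c f x = S'.D c f' y) (c : Option ι) :
    (stepS S v).D c f x = (stepS S' v').D c f' y := by
  have h1 : vv S v x = vv S' v' y := by simp [vv, Pre.gam, hv]
  cases c <;> simp [stepS, Pre.graph, Pre.nu, Pre.dir, Pre.X, hv, hf, h1]

theorem next (hG : GenStmt) : NextStmt := by
  intro n B st Q σ a v u0 hQ hσ ha hv v0 hu
  refine ⟨{
    ι := Option st.ι
    S := fun s => stepS (st.S s) v
    b := fun s => stepb (st.S s) (st.b s) Q σ a v u0
    vs := v :: st.vs
    smD := fun c f hf => smJ_stepD st.smD (SmJ.of_smA hv) c f hf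
    smb := fun c => smJ_stepb st.smD (SmJ.of_smA hv) st.smb (SmJ.of_smA hQ) (SmJ.of_smA hσ) hu
      (fun _ _ p => v0 p) (SmJ.of_smA ha) c
    imm := fun s hs => ?_
    smx := fun c => ?_
    j := fun c => some (st.j c)
    j_inj := (Option.some_injective _).comp st.j_inj
    x_j := fun g c x ξ hξ => st.x_j g c x ξ hξ
    fib := fun g ξ hξ => ?_
    vs_sm := fun w hw => ?_
    vs_le := fun φ hφ => ?_ }, rfl, fun s z => ⟨fun _ _ => rfl, rfl⟩⟩
  · obtain ⟨M, h1, h2, h3⟩ := st.imm s hs
    have sm : ∀ {f : B.Z → ℝ}, SmA B.ch f → M.Sm f := fun hf => by rw [Imm.Sm, h1]; exact hf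
    borelize B.Z
    refine ⟨M.graph v (sm hv), h1, ?_, ?_⟩
    · rw [Imm.graph_pre, ← h2]; rfl
    · have := (hG _ _ _ M (st.b s) Q σ a v u0 (fun c => sm ((st.smb c).slice (mem_univ s)))
        (h2 ▸ h3) (sm hQ) (sm hσ) (sm ha) (sm hv) v0 hu).1
      rwa [h2] at this
  · cases c with
    | none => exact hv
    | some c => exact st.smx c
  · obtain ⟨N', h1, h2, h3⟩ := st.fib g ξ hξ
    have sm : N'.Sm fun y => v (B.t g y ξ) := by
      rw [Imm.Sm, h1]; exact (B.sm_res g v hv).slice hξ
    borelize B.T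
    refine ⟨N'.graph _ sm, h1, fun c x => ?_, fun f hf c x => ?_⟩
    · cases c with
      | none => rfl
      | some c => exact h2 c x
    · rw [Imm.graph_pre]
      exact stepS_D_of (fun c => h3 v hv c x) (fun c => h3 f hf c x) c
  · rcases List.mem_cons.1 hw with rfl | hw
    · exact hv
    · exact st.vs_sm w hw
  · rw [List.map_cons, List.sum_cons, Fintype.sum_option]
    exact add_le_add le_rfl (st.vs_le φ hφ)

end Crest.Agent.N222.A

end
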