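import Crest.Agent.N222.A.Basic

/-! # Row 222, part A: the output (helper90) -/

set_option autoImplicit false
set_option linter.dupNamespace false
open Filter Set

noncomputable section

namespace Crest.Agent.N222.A

namespace Out

variable {Z : Type} {A : Alg Z}

/-- the gradient of a weighted sum of masses -/
theorem wsum {T : Pt A} {G : Type} [Fintype G] {M w : G → Z → ℝ} {I B : ℝ} (hM : T.Fi M I)
    (s : ∀ g, A.Sm (M g)) (n : ∀ g, 0 ≤ M g T.p) (h1 : ∑ g, M g T.p ≤ 1)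
    (sw : ∀ g, A.Sm (w g)) (hw : ∀ g, w g T.p ^ 2 ≤ 1) (B0 : 0 ≤ B)
    (hB : ∀ g, M g T.p ≠ 0 → T.Γ (w g) (w g) ≤ B) :
    T.Γ (fun z => ∑ g, w g z * M g z) (fun z => ∑ g, w g z * M g z) ≤ 2 * I + 2 * B := by
  have hI := hM.nonneg
  obtain ⟨j, hj, hs⟩ := hM
  have hH : A.Sm fun z => ∑ g, w g z * M g z := Alg.sum _ fun g _ => A.mul (sw g) (s g)
  have e : ∀ H : Z → ℝ, A.Sm H → T.Γ (fun z => ∑ g, w g z * M g z) H =
      ∑ g, w g T.p * T.Γ (M g) H + ∑ g, M g T.p * T.Γ (w g) H := fun H hH => by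
    rw [T.sum_left _ (fun g _ => A.mul (sw g) (s g)) hH, ← Finset.sum_add_distrib]
    exact Finset.sum_congr rfl fun g _ => T.mul (sw g) (s g) hH
  have e1 := e _ hH
  generalize (fun z => ∑ g, w g z * M g z) = H at hH e1 ⊢
  have h0 := T.nonneg hH
  have m0 : 0 ≤ ∑ g, M g T.p := Finset.sum_nonneg fun g _ => n g
  have a1 : (∑ g, w g T.p * T.Γ (M g) H) ^ 2 ≤ (∑ g, M g T.p) * ∑ g, j g * T.Γ H H := by
    refine Finset.sum_sq_le_sum_mul_sum_of_sq_le_mul _ (fun g _ => n g)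
      (fun g _ => mul_nonneg (hj g).1 h0) fun g _ => ?_
    have a2 : T.Γ (M g) H ^ 2 ≤ j g * M g T.p * T.Γ H H :=
      (T.cs (s g) hH).trans (mul_le_mul_of_nonneg_right (hj g).2 h0)
    rw [mul_pow]
    exact (mul_le_mul (hw g) a2 (sq_nonneg _) zero_le_one).trans_eq (by ring)
  rw [← Finset.sum_mul] at a1
  have a2 : (∑ g, w g T.p * T.Γ (M g) H) ^ 2 ≤ I * T.Γ H H := by
    have j0 : 0 ≤ ∑ g, j g := Finset.sum_nonneg fun g _ => (hj g).1
    refine a1.trans ?_
    calc (∑ g, M g T.p) * ((∑ g, j g) * T.Γ H H) ≤ 1 * ((∑ g, j g) * T.Γ H H) :=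
          mul_le_mul_of_nonneg_right h1 (mul_nonneg j0 h0)
      _ ≤ I * T.Γ H H := by rw [one_mul]; exact mul_le_mul_of_nonneg_right hs h0
  have a3 : ∑ g, w g T.p * T.Γ (M g) H ≤ I + T.Γ H H / 4 := by
    refine le_of_sq_le_sq ?_ (by linarith)
    nlinarith [sq_nonneg (I - T.Γ H H / 4)]
  have a4 : ∑ g, M g T.p * T.Γ (w g) H ≤ ∑ g, M g T.p * (B + T.Γ H H / 4) := by
    refine Finset.sum_le_sum fun g _ => ?_
    by_cases h : M g T.p = 0
    · simp [h]
    · have := T.quad (sw g) hH 1 (-1 / 2)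
      exact mul_le_mul_of_nonneg_left (by linarith [hB g h]) (n g)
  rw [← Finset.sum_mul] at a4
  have a5 : (∑ g, M g T.p) * (B + T.Γ H H / 4) ≤ 1 * (B + T.Γ H H / 4) :=
    mul_le_mul_of_nonneg_right h1 (by linarith)
  linarith

/-- the gradient of `cut (a f + b)` -/
theorem cut_lin (T : Pt A) {f : Z → ℝ} (hf : A.Sm f) (a b : ℝ) :
    T.Γ (fun z => cut (a * f z + b)) (fun z => cut (a * f z + b)) =
      deriv cut (a * f T.p + b) ^ 2 * a ^ 2 * T.Γ f f := by
  have h1 : HasDerivAt (fun t => cut (a * t + b)) (deriv cut (a * f T.p + b) * a) (f T.p) := by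
    have := (hasDerivAt_cut (a * f T.p + b)).comp (f T.p)
      (((hasDerivAt_id (f T.p)).const_mul a).add_const b)
    simpa [Function.comp_def] using this
  rw [T.chain_self (φ := fun t => cut (a * t + b)) hf (Alg.cut (Alg.add_const (Alg.smul a hf) b))
    h1]
  ring

theorem one_sub (T : Pt A) {f : Z → ℝ} (hf : A.Sm f) :
    T.Γ (fun z => 1 - f z) (fun z => 1 - f z) = T.Γ f f := by
  rw [T.chain_self (φ := fun t => 1 - t) hf (Alg.const_sub 1 hf)
    ((hasDerivAt_id (f T.p)).const_sub 1)]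
  ring

/-- the normalising function -/
theorem norm_pos {t : ℝ} (h : 0 ≤ t) : 0 < t + cut (-4 * t + 1) := by
  rcases h.eq_or_lt with h | h
  · rw [← h, cut_one (by norm_num)]; norm_num
  · linarith [cut_nonneg (-4 * t + 1)]

/-- Normalisation of a family with total mass at least `1/3` at the point. -/
theorem fi_norm {T : Pt A} {G : Type} [Fintype G] {R : G → Z → ℝ} {I : ℝ} (hR : T.Fi R I)
    (s : ∀ g, A.Sm (R g)) (n : ∀ g z, 0 ≤ R g z) (h3 : 1 / 3 ≤ ∑ g, R g T.p) :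
    T.Fi (fun g z => R g z * (∑ g, R g z + cut (-4 * ∑ g, R g z + 1))⁻¹) (12 * I) := by
  have hI := hR.nonneg
  have sT : A.Sm fun z => ∑ g, R g z := Alg.sum _ fun g _ => s g
  have sS : A.Sm fun z => ∑ g, R g z + cut (-4 * ∑ g, R g z + 1) :=
    A.add sT (Alg.cut (Alg.add_const (Alg.smul (-4) sT) 1))
  have c0 : cut (-4 * ∑ g, R g T.p + 1) = 0 := cut_zero (by linarith)
  have hd : HasDerivAt (fun t => t + cut (-4 * t + 1)) 1 (∑ g, R g T.p) := by
    have := (hasDerivAt_cut (-4 * ∑ g, R g T.p + 1)).comp (∑ g, R g T.p)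
      (((hasDerivAt_id (∑ g, R g T.p)).const_mul (-4)).add_const 1)
    rw [cut_deriv_zero (Or.inl (by linarith))] at this
    rw [zero_mul] at this
    have h2 := (hasDerivAt_id' (∑ g, R g T.p)).fun_add this
    rw [add_zero] at h2
    exact h2
  have h1 := hR.norm s (fun g => n g _) sS
    (fun z => norm_pos (Finset.sum_nonneg fun g _ => n g z)) (by rw [c0]; simp)
    (by
      rw [T.chain_self (φ := fun t => t + cut (-4 * t + 1)) sT sS hd, one_pow, one_mul]
      exact hR.total s fun g => n g _)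
  refine h1.mono ?_
  rw [c0, add_zero, div_le_iff₀ (by linarith)]
  nlinarith

end Out

open Out in
theorem out (hs : SrcStmt) : OutStmt := by
  intro n' K0 N0 hn hK hN0
  have C0 : 0 < C1 := by unfold C1; positivity
  refine ⟨12 * (200 * C1 * n' / N0 + 2 * K0 +
    16 * (2 * (400 * cc ^ 2 * (800 * n' / N0 + 2 * (cc ^ 2 * K0))) + 2 * (4 * cc ^ 2 * n' / N0))),
    24 * C1 * n', by positivity, by positivity, ?_⟩
  intro s0 W st M ρ0 nn hρ hnn ok
  have nn0 : 0 < nn := hN0.trans_le hnn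
  obtain ⟨c, hc⟩ : ∃ c : ℝ, c = nn / 100 := ⟨_, rfl⟩
  have c0 : 0 < c := by rw [hc]; positivity
  obtain ⟨hsrc, Hsrc⟩ := hs n' s0 K0 W st M ρ0 c hn c0 ok
  have N0' : ∀ z, 0 ≤ W.N M z := ok.toMass.N_nonneg
  have Nc : ∀ z, 0 < W.N M z + c := fun z => by linarith [N0' z]
  have sN : W.A.Sm (W.N M) := ok.toMass.sm_N
  have sQ : ∀ g, W.A.Sm (W.Qn c M g) := fun g =>
    W.A.mul (ok.sm g) (Alg.inv (Alg.add_const sN c) Nc)
  have Q0 : ∀ g z, 0 ≤ W.Qn c M g z := fun g z => mul_nonneg (ok.nn g z) (inv_pos.2 (Nc z)).le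
  have sumQ : ∀ z, ∑ g, W.Qn c M g z = W.N M z * (W.N M z + c)⁻¹ := fun z => by
    simp only [World.Qn, ← Finset.sum_mul]; rfl
  have sθ : ∀ g, W.A.Sm fun z => cut (1 * W.d g z + -ρ0) := fun g =>
    Alg.cut (Alg.add_const (Alg.smul 1 (W.d_sm g)) _)
  obtain ⟨F, hF⟩ : ∃ F : W.Z → ℝ, F = fun z => ∑ g, cut (1 * W.d g z + -ρ0) * W.Qn c M g z :=
    ⟨_, rfl⟩
  have sF : W.A.Sm F := hF ▸ Alg.sum _ fun g _ => W.A.mul (sθ g) (sQ g)
  have FMf : ∀ z, F z = W.Mf ρ0 M z * (W.N M z + c)⁻¹ := fun z => by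
    simp only [hF, World.Mf, World.Qn, Finset.sum_mul, one_mul, sub_eq_add_neg, mul_assoc]
  have s1 : W.A.Sm fun z => cut (2 / nn * W.N M z + -1) :=
    Alg.cut (Alg.add_const (Alg.smul _ sN) _)
  have s2 : W.A.Sm fun z => cut (-20 * F z + 2) := Alg.cut (Alg.add_const (Alg.smul _ sF) _)
  obtain ⟨w, hw⟩ : ∃ w : W.Z → ℝ, w = fun z => cut (2 / nn * W.N M z + -1) * cut (-20 * F z + 2) :=
    ⟨_, rfl⟩
  have sw : W.A.Sm w := hw ▸ W.A.mul s1 s2
  have w0 : ∀ z, 0 ≤ w z := fun z => hw ▸ mul_nonneg (cut_nonneg _) (cut_nonneg _)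
  have w1 : ∀ z, w z ≤ 1 := fun z => hw ▸ mul_le_one₀ (cut_le_one _) (cut_nonneg _) (cut_le_one _)
  have sw' : W.A.Sm fun z => 1 - w z := Alg.const_sub 1 sw
  obtain ⟨R, hR⟩ : ∃ R : W.G → W.Z → ℝ,
      R = fun g z => w z ^ 2 * W.src ρ0 c M g z + (1 - w z) ^ 2 * W.χ g z := ⟨_, rfl⟩
  have sR1 : ∀ g, W.A.Sm fun z => w z ^ 2 * W.src ρ0 c M g z := fun g =>
    W.A.mul (Alg.pow sw 2) (hsrc g).1
  have sR2 : ∀ g, W.A.Sm fun z => (1 - w z) ^ 2 * W.χ g z := fun g =>
    W.A.mul (Alg.pow sw' 2) (W.χ_sm g)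
  have nR1 : ∀ g z, 0 ≤ w z ^ 2 * W.src ρ0 c M g z := fun g z =>
    mul_nonneg (sq_nonneg _) ((hsrc g).2.2 z).1
  have nR2 : ∀ g z, 0 ≤ (1 - w z) ^ 2 * W.χ g z := fun g z =>
    mul_nonneg (sq_nonneg _) (W.χ_mem g z).1
  have sR : ∀ g, W.A.Sm (R g) := fun g => hR ▸ W.A.add (sR1 g) (sR2 g)
  have nR : ∀ g z, 0 ≤ R g z := fun g z => hR ▸ add_nonneg (nR1 g z) (nR2 g z)
  have sT : W.A.Sm fun z => ∑ g, R g z := Alg.sum _ fun g _ => sR g
  have S0 : ∀ z, 0 < ∑ g, R g z + cut (-4 * ∑ g, R g z + 1) := fun z =>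
    norm_pos (Finset.sum_nonneg fun g _ => nR g z)
  refine ⟨fun g z => R g z * (∑ g, R g z + cut (-4 * ∑ g, R g z + 1))⁻¹, fun g =>
    ⟨W.A.mul (sR g) (Alg.inv (W.A.add sT (Alg.cut (Alg.add_const (Alg.smul (-4) sT) 1))) S0),
      W.su_of (hsrc g).2.1 (W.χ_su g) fun z h1 h2 => by simp [hR, h1, h2],
      fun z => mul_nonneg (nR g z) (inv_pos.2 (S0 z)).le⟩, ?_⟩
  filter_upwards [Hsrc, W.init] with π h1 h2
  obtain ⟨fsrc, fQ, gN, hnear⟩ := h1
  obtain ⟨-, χ1, fχ, hd, -⟩ := h2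
  have hp : (W.pt st π).p = W.ev π := W.pt_p st π
  have fχ' : (W.pt st π).Fi W.χ K0 :=
    fχ.of_le (by rw [hp, W.pt_p]) fun g => ok.le π _ (W.χ_sm g)
  generalize hz : W.ev π = z at *
  have Q1 : ∑ g, W.Qn c M g z ≤ 1 := by
    rw [sumQ, ← div_eq_mul_inv, div_le_one (Nc z)]; linarith
  have src1 : ∑ g, W.src ρ0 c M g z ≤ 1 :=
    (Finset.sum_le_sum fun g _ => ((hsrc g).2.2 z).2).trans Q1
  -- where `w ≠ 0`
  have wne : w z ≠ 0 → nn / 2 < W.N M z ∧ F z < 1 / 10 := fun h => by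
    rw [hw] at h
    obtain ⟨a1, a2⟩ := mul_ne_zero_iff.1 h
    refine ⟨?_, ?_⟩
    · by_contra a3
      refine a1 (cut_zero ?_)
      have : 2 / nn * W.N M z ≤ 2 / nn * (nn / 2) :=
        mul_le_mul_of_nonneg_left (not_lt.1 a3) (by positivity)
      rw [show 2 / nn * (nn / 2) = 1 by field_simp] at this
      linarith
    · by_contra a3
      exact a2 (cut_zero (by linarith [not_lt.1 a3]))
  have wMf : w z ≠ 0 → W.Mf ρ0 M z ≤ (W.N M z + c) / 10 := fun h => by
    have := (wne h).2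
    rw [FMf, ← div_eq_mul_inv, div_lt_iff₀ (Nc z)] at this
    linarith
  have sumR : ∑ g, R g z = w z ^ 2 * ∑ g, W.src ρ0 c M g z + (1 - w z) ^ 2 := by
    simp only [hR, Finset.sum_add_distrib, ← Finset.mul_sum, χ1, mul_one]
  have T3 : 1 / 3 ≤ ∑ g, R g z := by
    rw [sumR]
    by_cases h : w z = 0
    · rw [h]; norm_num
    · have a1 : ∑ g, (W.Qn c M g z - cut (1 * W.d g z + -ρ0) * W.Qn c M g z) ≤
          ∑ g, W.src ρ0 c M g z := by
        refine Finset.sum_le_sum fun g _ => ?_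
        by_cases hg : W.d g z < ρ0 + 1
        · rw [(hnear (wMf h)).1 g hg]
          linarith [mul_nonneg (cut_nonneg (1 * W.d g z + -ρ0)) (Q0 g z)]
        · rw [cut_one (by linarith [not_lt.1 hg])]
          linarith [((hsrc g).2.2 z).1]
      have a2 : F z = ∑ g, cut (1 * W.d g z + -ρ0) * W.Qn c M g z := by rw [hF]
      rw [Finset.sum_sub_distrib, ← a2, sumQ, ← div_eq_mul_inv] at a1
      have a3 : 9 / 10 ≤ W.N M z / (W.N M z + c) := by
        rw [le_div_iff₀ (Nc z)]; linarith [(wne h).1]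
      have a4 : 1 / 2 ≤ ∑ g, W.src ρ0 c M g z := by linarith [(wne h).2]
      nlinarith [mul_le_mul_of_nonneg_left a4 (sq_nonneg (w z)), sq_nonneg (3 * w z - 2)]
  have cT : cut (-4 * ∑ g, R g z + 1) = 0 := cut_zero (by linarith)
  refine ⟨?_, fun g hg => ?_, ?_⟩
  · rw [← Finset.sum_mul, cT, add_zero, mul_inv_cancel₀ (by linarith)]
  · have a1 : 0 < R g z := (mul_pos_iff_of_pos_right (inv_pos.2 (S0 z))).1 hg
    rw [hR] at a1
    by_cases a2 : 0 < w z ^ 2 * W.src ρ0 c M g z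
    · have a3 : w z ≠ 0 := fun h => by simp [h] at a2
      exact (hnear (wMf a3)).2 (by linarith [(wne a3).1]) g
        ((mul_pos_iff_of_pos_left (by positivity)).1 a2)
    · have a3 : 0 < (1 - w z) ^ 2 * W.χ g z := by
        have := nR1 g z
        simp only at a1
        linarith [not_lt.1 a2]
      have a4 : 0 < W.χ g z := by
        refine lt_of_le_of_ne (W.χ_mem g z).1 fun h => ?_
        rw [← h] at a3; simp at a3
      have a5 : z ∈ W.O g := by
        by_contra h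
        have := (W.su_out (W.χ_su g) (W.χ_sm g) st π (hz ▸ h)).1
        rw [hz] at this
        linarith
      linarith [(hd g a5).2 a4]
  · -- Fisher information
    have B0 := (W.pt st π).nonneg sw
    have f1 := fsrc.mul_sq (fun g => (hsrc g).1) (fun g => ((hsrc g).2.2 _).1)
      (w := fun _ => w) (fun _ => sw) (a := w z ^ 2) (sq_nonneg _) (fun _ => by rw [hp]) B0
      fun _ _ => le_rfl
    have f2 := fχ'.mul_sq W.χ_sm (fun g => (W.χ_mem g _).1) (w := fun _ z => 1 - w z)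
      (fun _ => sw') (a := (1 - w z) ^ 2) (sq_nonneg _) (fun _ => by rw [hp]) B0
      fun _ _ => (one_sub _ sw).le
    have f3 : (W.pt st π).Fi R (2 * w z ^ 2 * (C1 * n' / (W.N M z + c)) + 2 * (1 - w z) ^ 2 * K0
        + 16 * (W.pt st π).Γ w w) := by
      rw [hR]
      refine (f1.add f2 sR1 sR2 (fun g => nR1 g _) fun g => nR2 g _).mono ?_
      rw [hp, χ1]
      nlinarith [mul_le_mul_of_nonneg_left src1 B0]
    have gw : (W.pt st π).Γ w w ≤
        2 * (deriv cut (-20 * F z + 2) ^ 2 * (-20) ^ 2 * (W.pt st π).Γ F F) +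
        2 * (deriv cut (2 / nn * W.N M z + -1) ^ 2 * (2 / nn) ^ 2 *
          (W.pt st π).Γ (W.N M) (W.N M)) := by
      have a1 := (W.pt st π).mul_self_le s1 s2
      have b1 := (W.pt st π).nonneg s1
      have b2 := (W.pt st π).nonneg s2
      rw [← hw] at a1
      rw [cut_lin _ sN] at a1 b1
      rw [cut_lin _ sF] at a1 b2
      rw [hp] at a1 b1 b2
      have c1 : cut (2 / nn * W.N M z + -1) ^ 2 ≤ 1 :=
        pow_le_one₀ (cut_nonneg _) (cut_le_one _)
      have c2 : cut (-20 * F z + 2) ^ 2 ≤ 1 := pow_le_one₀ (cut_nonneg _) (cut_le_one _)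
      nlinarith [mul_le_mul_of_nonneg_right c1 b2, mul_le_mul_of_nonneg_right c2 b1]
    refine ⟨_, fi_norm f3 sR nR (by rw [hp]; exact T3), ?_, fun g1 g2 => ?_⟩
    · have hcN : N0 / 100 ≤ W.N M z + c := by linarith [N0' z]
      have d1 : C1 * n' / (W.N M z + c) ≤ 100 * C1 * n' / N0 := by
        rw [div_le_div_iff₀ (Nc z) hN0]
        nlinarith [mul_le_mul_of_nonneg_left hcN (by positivity : 0 ≤ 100 * C1 * n')]
      have d2 : 4 * n' / (W.N M z + c) ≤ 400 * n' / N0 := by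
        rw [div_le_div_iff₀ (Nc z) hN0]
        nlinarith [mul_le_mul_of_nonneg_left hcN (by positivity : 0 ≤ 400 * n')]
      have gF : (W.pt st π).Γ F F ≤ 800 * n' / N0 + 2 * (cc ^ 2 * K0) := by
        have := wsum fQ sQ (fun g => Q0 g _) (by rw [hp]; exact Q1) sθ
          (fun g => pow_le_one₀ (cut_nonneg _) (cut_le_one _))
          (B := cc ^ 2 * K0) (by positivity) fun g hg => by
            have a5 : z ∈ W.O g := by
              by_contra h
              have := (W.su_out (ok.su g) (ok.sm g) st π (hz ▸ h)).1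
              rw [hz] at this
              exact hg (by rw [hp, World.Qn, this, zero_mul])
            rw [cut_lin _ (W.d_sm g), one_pow, mul_one]
            exact mul_le_mul (deriv_cut_sq_le _) ((ok.le π _ (W.d_sm g)).trans (hd g a5).1)
              ((W.pt st π).nonneg (W.d_sm g)) (sq_nonneg _)
        rw [← hF] at this
        have e : 800 * n' / N0 = 2 * (400 * n' / N0) := by ring
        linarith
      have e1 : deriv cut (-20 * F z + 2) ^ 2 * (-20) ^ 2 * (W.pt st π).Γ F F ≤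
          400 * cc ^ 2 * (800 * n' / N0 + 2 * (cc ^ 2 * K0)) :=
        mul_le_mul (by nlinarith [deriv_cut_sq_le (-20 * F z + 2)]) gF ((W.pt st π).nonneg sF)
          (by positivity)
      have e2 : deriv cut (2 / nn * W.N M z + -1) ^ 2 * (2 / nn) ^ 2 *
          (W.pt st π).Γ (W.N M) (W.N M) ≤ 4 * cc ^ 2 * n' / N0 := by
        by_cases h : nn ≤ W.N M z
        · rw [cut_deriv_zero (Or.inr ?_)]
          · simp only [ne_eq, OfNat.ofNat_ne_zero, not_false_eq_true, zero_pow, zero_mul]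
            positivity
          · have : 2 / nn * nn ≤ 2 / nn * W.N M z := mul_le_mul_of_nonneg_left h (by positivity)
            rw [show 2 / nn * nn = 2 by field_simp] at this
            linarith
        · calc _ ≤ cc ^ 2 * (2 / nn) ^ 2 * (n' * nn) :=
                mul_le_mul (mul_le_mul_of_nonneg_right (deriv_cut_sq_le _) (sq_nonneg _))
                  (gN.trans (mul_le_mul_of_nonneg_left (not_le.1 h).le (by linarith)))
                  ((W.pt st π).nonneg sN) (by positivity)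
            _ = 4 * cc ^ 2 * n' / nn := by field_simp; ring
            _ ≤ _ := div_le_div_of_nonneg_left (by positivity) hN0 hnn
      have e3 : w z ^ 2 * (C1 * n' / (W.N M z + c)) ≤ 1 * (100 * C1 * n' / N0) :=
        mul_le_mul (pow_le_one₀ (w0 z) (w1 z)) d1 (by have := Nc z; positivity) zero_le_one
      have e4 : (1 - w z) ^ 2 * K0 ≤ 1 * K0 :=
        mul_le_mul_of_nonneg_right (pow_le_one₀ (by linarith [w1 z]) (by linarith [w0 z]))
          (by linarith)
      have e : 200 * C1 * n' / N0 = 2 * (100 * C1 * n' / N0) := by ring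
      linarith
    · have a1 : 1 ≤ 2 / nn * W.N M z + -1 := by
        have : 2 / nn * nn ≤ 2 / nn * W.N M z := mul_le_mul_of_nonneg_left g1 (by positivity)
        rw [show 2 / nn * nn = 2 by field_simp] at this
        linarith
      have a2 : 1 ≤ -20 * F z + 2 := by
        have : F z ≤ 1 / 20 := by
          rw [FMf, ← div_eq_mul_inv, div_le_iff₀ (Nc z)]; linarith
        linarith
      have a3 : w z = 1 := by rw [hw]; simp only [cut_one a1, cut_one a2, mul_one]
      rw [cut_deriv_zero (Or.inr a1), cut_deriv_zero (Or.inr a2)] at gw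
      have a4 : C1 * n' / (W.N M z + c) ≤ C1 * n' / nn :=
        div_le_div_of_nonneg_left (by positivity) nn0 (by linarith)
      have e : 24 * C1 * n' / nn = 24 * (C1 * n' / nn) := by ring
      rw [a3]
      nlinarith

end Crest.Agent.N222.A

end
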