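import Crest.Agent.N222.A.Ph0a

/-! # Row 222, part A: phase 0 (helper88) -/

set_option autoImplicit false
set_option linter.dupNamespace false
open Filter Set

noncomputable section

namespace Crest.Agent.N222.A

namespace Ph0

/-- the constants of phase 0 -/
structure Cst (n' K0 N0 : ℝ) where
  k0 : ℝ
  c0 : ℝ
  LA : ℝ
  LV : ℝ
  r0 : ℝ
  z0 : ℝ
  V : ℝ
  ab : ℝ
  u0 : ℝ
  ε : ℝ
  P : ℝ
  k0p : 0 < k0
  c0p : 0 < c0
  LAp : 0 < LA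
  LVp : 0 < LV
  z0p : 0 < z0
  zr : z0 ≤ r0
  hr : r0 ^ 2 * k0 = 1
  hz : z0 ^ 2 * V = 1
  hLA : 256 * cc ^ 2 * c0 ^ 2 * K0 ≤ LA ^ 2 * k0 ^ 3
  hLV : 256 * cc ^ 2 * K0 ≤ LV ^ 2 * k0
  ab0 : 0 ≤ ab
  u0p : 0 < u0
  u1 : u0 ≤ 1
  εp : 0 < ε
  hP : u0 ^ 2 / 4 + ab ≤ P
  P1 : 2 * c0 * P ≤ 1
  P2 : 32 * c0 ^ 2 * P ≤ k0
  P3 : 16 * c0 * P ≤ k0 * N0
  P4 : P ≤ N0
  fl : u0 * (c0 * (1 + n' * N0) / N0 + c0 * k0 * (1 + P) + V ^ 2) ≤ ε / 2

variable {n' s0 K0 N0 : ℝ} (C : Cst n' K0 N0)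

/-- `A` as a function of the distance -/
def Cst.A (s : ℝ) : ℝ := C.c0 * cut ((s - 1) / C.LA)

/-- `H` as a function of the distance -/
def Cst.H (s : ℝ) : ℝ := C.z0 + (C.r0 - C.z0) * (1 - cut ((s - 1 - C.LA) / C.LV))

/-- `Q` as a function of the distance -/
def Cst.Q (s : ℝ) : ℝ := (C.H s ^ 2)⁻¹

theorem Cst.H_ge (s : ℝ) : C.z0 ≤ C.H s :=
  le_add_of_nonneg_right (mul_nonneg (sub_nonneg.2 C.zr) (sub_nonneg.2 (cut_le_one _)))

theorem Cst.H_le (s : ℝ) : C.H s ≤ C.r0 := by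
  have := mul_nonneg (sub_nonneg.2 C.zr) (cut_nonneg ((s - 1 - C.LA) / C.LV))
  unfold Cst.H
  linarith

theorem Cst.H_pos (s : ℝ) : 0 < C.H s := C.z0p.trans_le (C.H_ge s)

theorem Cst.Q_pos (s : ℝ) : 0 < C.Q s := inv_pos.2 (pow_pos (C.H_pos s) 2)

theorem Cst.k0_eq : C.k0 = (C.r0 ^ 2)⁻¹ := eq_inv_of_mul_eq_one_right C.hr

theorem Cst.V_eq : C.V = (C.z0 ^ 2)⁻¹ := eq_inv_of_mul_eq_one_right C.hz

theorem Cst.k0_le_Q (s : ℝ) : C.k0 ≤ C.Q s := by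
  rw [C.k0_eq]
  exact inv_anti₀ (pow_pos (C.H_pos s) 2) (pow_le_pow_left₀ (C.H_pos s).le (C.H_le s) 2)

theorem Cst.Q_le_V (s : ℝ) : C.Q s ≤ C.V := by
  rw [C.V_eq]
  exact inv_anti₀ (pow_pos C.z0p 2) (pow_le_pow_left₀ C.z0p.le (C.H_ge s) 2)

theorem Cst.Q_eq_k0 {s : ℝ} (h : s ≤ 1 + C.LA) : C.Q s = C.k0 := by
  rw [C.k0_eq, Cst.Q, Cst.H, cut_zero (div_nonpos_of_nonpos_of_nonneg (by linarith) C.LVp.le)]
  congr 2
  ring

theorem Cst.Q_eq_V {s : ℝ} (h : 1 + C.LA + C.LV ≤ s) : C.Q s = C.V := by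
  rw [C.V_eq, Cst.Q, Cst.H, cut_one ((one_le_div C.LVp).2 (by linarith))]
  congr 2
  ring

theorem Cst.A_nonneg (s : ℝ) : 0 ≤ C.A s := mul_nonneg C.c0p.le (cut_nonneg _)

theorem Cst.A_le (s : ℝ) : C.A s ≤ C.c0 := mul_le_of_le_one_right C.c0p.le (cut_le_one _)

theorem Cst.A_zero {s : ℝ} (h : s ≤ 1) : C.A s = 0 := by
  rw [Cst.A, cut_zero (div_nonpos_of_nonpos_of_nonneg (by linarith) C.LAp.le), mul_zero]

theorem Cst.A_one {s : ℝ} (h : 1 + C.LA ≤ s) : C.A s = C.c0 := by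
  rw [Cst.A, cut_one ((one_le_div C.LAp).2 (by linarith)), mul_one]

theorem Cst.dA (s : ℝ) :
    HasDerivAt C.A (C.c0 * (deriv cut ((s - 1) / C.LA) * (1 / C.LA))) s :=
  ((hasDerivAt_cut _).comp s (((hasDerivAt_id s).sub_const 1).div_const C.LA)).const_mul C.c0

theorem Cst.dH (s : ℝ) :
    HasDerivAt C.H ((C.r0 - C.z0) * -(deriv cut ((s - 1 - C.LA) / C.LV) * (1 / C.LV))) s :=
  ((((hasDerivAt_cut _).comp s ((((hasDerivAt_id s).sub_const 1).sub_const C.LA).div_const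
    C.LV)).const_sub 1).const_mul (C.r0 - C.z0)).const_add C.z0

variable {Z : Type} {A : Alg Z} {d : Z → ℝ}

theorem Cst.smA (hd : A.Sm d) : A.Sm fun z => C.A (d z) :=
  Alg.smul _ (Alg.cut (Alg.div_const (Alg.sub_const hd 1) _))

theorem Cst.smH (hd : A.Sm d) : A.Sm fun z => C.H (d z) :=
  Alg.const_add _ (Alg.smul _ (Alg.const_sub 1
    (Alg.cut (Alg.div_const (Alg.sub_const (Alg.sub_const hd 1) _) _))))

theorem Cst.smQ (hd : A.Sm d) : A.Sm fun z => C.Q (d z) :=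
  Alg.inv (Alg.pow (C.smH hd) 2) fun _ => pow_pos (C.H_pos _) 2

theorem Cst.gamA (T : Pt A) (hd : A.Sm d) (h : T.Γ d d ≤ K0) :
    T.Γ (fun z => C.A (d z)) (fun z => C.A (d z)) ≤ C.k0 ^ 3 / 256 := by
  rw [T.chain_self hd (C.smA hd) (C.dA _)]
  have h0 := T.nonneg hd
  have h1 := deriv_cut_sq_le ((d T.p - 1) / C.LA)
  have hL := C.LAp
  have e : (C.c0 * (deriv cut ((d T.p - 1) / C.LA) * (1 / C.LA))) ^ 2 * T.Γ d d =
      C.c0 ^ 2 * (deriv cut ((d T.p - 1) / C.LA) ^ 2 * T.Γ d d) / C.LA ^ 2 := by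
    field_simp
  rw [e, div_le_div_iff₀ (by positivity) (by norm_num)]
  have h2 := mul_le_mul_of_nonneg_left (mul_le_mul h1 h h0 (sq_nonneg _)) (sq_nonneg C.c0)
  linarith [C.hLA]

theorem Cst.gamQ (T : Pt A) (hd : A.Sm d) (h : T.Γ d d ≤ K0) :
    T.Γ (fun z => C.Q (d z)) (fun z => C.Q (d z)) ≤ C.Q (d T.p) ^ 3 / 64 := by
  have hH := C.H_pos (d T.p)
  have h3 : T.Γ (fun z => C.H (d z)) (fun z => C.H (d z)) ≤ 1 / 256 := by
    rw [T.chain_self hd (C.smH hd) (C.dH _)]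
    have h0 := T.nonneg hd
    have h1 := deriv_cut_sq_le ((d T.p - 1 - C.LA) / C.LV)
    have hL := C.LVp
    have e : ((C.r0 - C.z0) * -(deriv cut ((d T.p - 1 - C.LA) / C.LV) * (1 / C.LV))) ^ 2 *
        T.Γ d d = (C.r0 - C.z0) ^ 2 *
          (deriv cut ((d T.p - 1 - C.LA) / C.LV) ^ 2 * T.Γ d d) / C.LV ^ 2 := by
      field_simp
    rw [e, div_le_div_iff₀ (by positivity) (by norm_num)]
    have h2 : (C.r0 - C.z0) ^ 2 ≤ C.r0 ^ 2 :=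
      pow_le_pow_left₀ (sub_nonneg.2 C.zr) (by linarith [C.z0p]) 2
    have h4 := mul_le_mul h2 (mul_le_mul h1 h h0 (sq_nonneg _)) (mul_nonneg (sq_nonneg _) h0)
      (sq_nonneg _)
    have h5 := mul_le_mul_of_nonneg_left C.hLV (sq_nonneg C.r0)
    have h6 : C.r0 ^ 2 * (C.LV ^ 2 * C.k0) = C.LV ^ 2 := by
      linear_combination C.LV ^ 2 * C.hr
    linarith
  have hd2 : HasDerivAt (fun t : ℝ => (t ^ 2)⁻¹) (-(2 * C.H (d T.p)) / (C.H (d T.p) ^ 2) ^ 2)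
      (C.H (d T.p)) := by
    exact ((hasDerivAt_pow 2 (C.H (d T.p))).inv (pow_pos hH 2).ne').congr_deriv (by simp)
  have h4 := T.chain_self (φ := fun t : ℝ => (t ^ 2)⁻¹) (C.smH hd) (C.smQ hd) hd2
  have e : (-(2 * C.H (d T.p)) / (C.H (d T.p) ^ 2) ^ 2) ^ 2 = 4 * C.Q (d T.p) ^ 3 := by
    unfold Cst.Q
    field_simp
    norm_num
  rw [e] at h4
  have h5 := mul_le_mul_of_nonneg_left h3 (pow_pos (C.Q_pos (d T.p)) 3).le
  have h6 : T.Γ (fun z => C.Q (d z)) (fun z => C.Q (d z)) =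
      4 * C.Q (d T.p) ^ 3 * T.Γ (fun z => C.H (d z)) (fun z => C.H (d z)) := h4
  linarith

theorem sum_update {G : Type} [Fintype G] [DecidableEq G] (t : G → ℕ) (g : G) (f : G → ℝ) :
    ∑ g', (Function.update t g (t g + 1) g' : ℝ) * f g' = ∑ g', (t g' : ℝ) * f g' + f g := by
  have : ∀ g', (Function.update t g (t g + 1) g' : ℝ) * f g' =
      (t g' : ℝ) * f g' + if g' = g then f g else 0 := by
    intro g'
    by_cases h : g' = g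
    · subst h; simp [add_mul]
    · simp [h]
  simp [this, Finset.sum_add_distrib]

/-- the invariant -/
def J (W : World n' s0 K0) (j : W.Pi → W.G → ℝ) (t : W.G → ℕ) (st : W.St) (M : W.G → W.Z → ℝ)
    (π : W.Pi) : Prop :=
  s0 - C.k0 * C.ab * ∑ g, (t g : ℝ) * j π g
      + 2 * C.k0 * (C.c0 * Real.exp (-W.N M (W.ev π) / N0)) *
        (C.ab * ∑ g, (t g : ℝ) * W.χ g (W.ev π))
      + 3 / 4 * C.V ^ 2 * W.Mf (1 + C.LA + C.LV) M (W.ev π) - C.ε * ∑ g, (t g : ℝ) * 1 ≤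
    W.E st π - C.c0 * Real.exp (-W.N M (W.ev π) / N0) / N0 * (W.pt st π).Γ (W.N M) (W.N M)
      + 4 * C.k0 * C.c0 * N0 * (1 - Real.exp (-W.N M (W.ev π) / N0))

theorem one_step (hS : SlowStmt) (hn : 1 ≤ n') (N0p : 0 < N0) (W : World n' s0 K0)
    (j : W.Pi → W.G → ℝ)
    (hj : ∀ᶠ π in W.L, ∀ g, 0 ≤ j π g ∧
      (W.pt W.st0 π).Γ (W.χ g) (W.χ g) ≤ j π g * W.χ g (W.ev π))
    (t : W.G → ℕ) (g : W.G) {st : W.St} {M : W.G → W.Z → ℝ} (ok : W.Ok st M)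
    (hJ : ∀ᶠ π in W.L, J C W j t st M π) :
    ∃ st' M', W.Ok st' M' ∧ ∀ᶠ π in W.L, J C W j (Function.update t g (t g + 1)) st' M' π := by
  have sN := ok.toMass.sm_N
  have sd := W.d_sm g
  have sc : W.A.Sm fun z => C.c0 * Real.exp (-W.N M z / N0) :=
    Alg.smul _ (Alg.exp (Alg.div_const (Alg.neg sN) _))
  have sσ : W.A.Sm fun z => C.ab * W.χ g z := Alg.smul _ (W.χ_sm g)
  obtain ⟨v, st', hv, suv, hb, hvs, hle, -, hΓv, hE⟩ := World.step hS st g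
    (Q := fun z => C.Q (W.d g z)) (σ := fun z => C.ab * W.χ g z)
    (a := fun z => C.c0 * Real.exp (-W.N M z / N0) - C.A (W.d g z)) (abar := C.ab) (u0 := C.u0)
    (ε := C.ε / 2) (C.smQ sd) sσ (Alg.sub sc (C.smA sd)) (fun _ => C.Q_pos _)
    (fun z => ⟨mul_nonneg C.ab0 (W.χ_mem g z).1, mul_le_of_le_one_right C.ab0 (W.χ_mem g z).2⟩)
    (World.su_mono (W.χ_su g) fun z h => by rw [h, mul_zero]) C.u0p (half_pos C.εp)
  refine ⟨st', upd M g v, ⟨ok.toMass.upd hv suv hvs, ok.le.trans hle⟩, ?_⟩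
  have eN : W.N (upd M g v) = fun z => W.N M z + v z ^ 2 / 4 := by
    funext z
    simpa [World.N] using sum_upd (fun _ => 1) M g v z
  have sq : W.A.Sm fun z => v z ^ 2 / 4 := Alg.div_const (Alg.pow hv 2) 4
  filter_upwards [hJ, hE, W.init, hj, ok.toMass.fi] with π h1 h2 h3 h4 h5
  have eM : W.Mf (1 + C.LA + C.LV) (upd M g v) (W.ev π) = W.Mf (1 + C.LA + C.LV) M (W.ev π) +
      cut (W.d g (W.ev π) - (1 + C.LA + C.LV)) * (v (W.ev π) ^ 2 / 4) :=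
    sum_upd (fun g' => cut (W.d g' (W.ev π) - (1 + C.LA + C.LV))) M g v (W.ev π)
  unfold J at h1 ⊢
  rw [sum_update, sum_update, sum_update, eM, eN]
  beta_reduce
  set T := W.pt st π with hT
  set T' := W.pt st' π with hT'
  have hp : T.p = W.ev π := W.pt_p st π
  have hp' : T'.p = W.ev π := W.pt_p st' π
  have t0 : 0 ≤ T.Γ v v := T.nonneg hv
  have N0' : 0 ≤ W.N M (W.ev π) := ok.toMass.N_nonneg _
  have v0 := (hb (W.ev π)).1
  have q0 : 0 ≤ v (W.ev π) ^ 2 / 4 := by positivity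
  have hUP : (C.u0 + v (W.ev π)) ^ 2 / 4 ≤ C.P := by linarith [(hb (W.ev π)).2, C.hP]
  have q1 : v (W.ev π) ^ 2 / 4 ≤ N0 := by
    linarith [C.P4, sq_nonneg C.u0, mul_nonneg C.u0p.le v0]
  have dq : HasDerivAt (fun s : ℝ => s ^ 2 / 4) (v (W.ev π) / 2) (v T'.p) := by
    rw [hp']
    exact ((hasDerivAt_pow 2 (v (W.ev π))).div_const 4).congr_deriv (by simp; ring)
  have sW : √(1 + T.Γ v v) ^ 2 = 1 + T.Γ v v := Real.sq_sqrt (by linarith)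
  have W1 : 1 ≤ √(1 + T.Γ v v) := Real.le_sqrt_of_sq_le (by linarith)
  have evv : T'.Γ v v = 1 - 1 / √(1 + T.Γ v v) ^ 2 := by
    have h : T'.Γ v v = T.Γ v v / (1 + T.Γ v v) := hΓv π v hv
    have : 1 + T.Γ v v ≠ 0 := by linarith
    rw [h, sW]; field_simp; ring
  have vv1 : T'.Γ v v ≤ 1 := by
    rw [evv]; exact sub_le_self _ (by positivity)
  have gN : T'.Γ (W.N M) (W.N M) ≤ T.Γ (W.N M) (W.N M) := hle π _ sN
  have e1 : T'.Γ (fun z => W.N M z + v z ^ 2 / 4) (fun z => W.N M z + v z ^ 2 / 4) ≤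
      T.Γ (W.N M) (W.N M) + (v (W.ev π) * T'.Γ v (W.N M) +
        v (W.ev π) ^ 2 / 4 * (1 - 1 / √(1 + T.Γ v v) ^ 2)) := by
    rw [T'.add_self sN sq, T'.chain_self (φ := fun s : ℝ => s ^ 2 / 4) hv sq dq,
      T'.chain_right (φ := fun s : ℝ => s ^ 2 / 4) hv sq sN dq, T'.symm sN hv, evv]
    linarith
  have e0 := T'.nonneg (W.A.add sN sq)
  have cle : C.c0 * Real.exp (-(W.N M (W.ev π) + v (W.ev π) ^ 2 / 4) / N0) ≤
      C.c0 * Real.exp (-W.N M (W.ev π) / N0) :=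
    mul_le_mul_of_nonneg_left (Real.exp_le_exp.2 (div_le_div_of_nonneg_right (by linarith) N0p.le))
      C.c0p.le
  have cp : 0 < C.c0 * Real.exp (-W.N M (W.ev π) / N0) := mul_pos C.c0p (Real.exp_pos _)
  have cc0 : C.c0 * Real.exp (-W.N M (W.ev π) / N0) ≤ C.c0 :=
    mul_le_of_le_one_right C.c0p.le (Real.exp_le_one_iff.2 (by
      rw [neg_div]; exact neg_nonpos.2 (by positivity)))
  have e2 := mul_le_mul (div_le_div_of_nonneg_right cle N0p.le) e1 e0 (by positivity)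
  have e3 := mul_le_mul_of_nonneg_right cle (show 0 ≤ 2 * C.k0 * (C.ab *
      (∑ g, (t g : ℝ) * W.χ g (W.ev π) + W.χ g (W.ev π))) from
    mul_nonneg (by linarith [C.k0p]) (mul_nonneg C.ab0 (add_nonneg
      (Finset.sum_nonneg fun g _ => mul_nonneg (Nat.cast_nonneg _) (W.χ_mem g _).1)
      (W.χ_mem g _).1)))
  have e4 := exp_gain (N := W.N M (W.ev π)) C.k0p C.c0p N0p q0 q1
  have j0 : 0 ≤ C.ab * j π g := mul_nonneg C.ab0 (h4 g).1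
  by_cases hO : W.ev π ∈ W.O g
  · have gd : T.Γ (W.d g) (W.d g) ≤ K0 := (ok.le π _ sd).trans (h3.2.2.2.1 g hO).1
    have gQ := C.gamQ T sd gd
    rw [hp] at gQ
    have gχ : T.Γ (W.χ g) (W.χ g) ≤ j π g * W.χ g (W.ev π) :=
      (ok.le π _ (W.χ_sm g)).trans (h4 g).2
    have gσ : T.Γ (fun z => C.ab * W.χ g z) (fun z => C.ab * W.χ g z) ≤
        C.ab * j π g * (C.ab * W.χ g (W.ev π)) := by
      rw [T.smul_left _ (W.χ_sm g) sσ, T.smul_right _ (W.χ_sm g) (W.χ_sm g)]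
      linarith [mul_le_mul_of_nonneg_left gχ (mul_nonneg C.ab0 C.ab0)]
    have hw2 : T'.Γ v (W.N M) ^ 2 ≤ W.N M (W.ev π) * n' := by
      have b1 := T'.cs hv sN
      have b2 := mul_le_mul vv1 gN (T'.nonneg sN) zero_le_one
      have b3 := h5.total ok.toMass.sm fun g => ok.toMass.nn g _
      rw [hp] at b3
      exact b1.trans (b2.trans (by rw [one_mul]; exact b3))
    have hw := w_bound C.c0p N0p N0' (by linarith) hw2
    have dc : HasDerivAt (fun s : ℝ => C.c0 * Real.exp (-s / N0))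
        (C.c0 * (Real.exp (-W.N M (W.ev π) / N0) * (-1 / N0))) (W.N M T.p) := by
      rw [hp]
      exact (((hasDerivAt_id _).neg.div_const N0).exp).const_mul C.c0
    have hGa : T.Γ v (fun z => C.c0 * Real.exp (-W.N M z / N0) - C.A (W.d g z)) =
        -(C.c0 * Real.exp (-W.N M (W.ev π) / N0) / N0) *
          (√(1 + T.Γ v v) ^ 2 * T'.Γ v (W.N M)) - T.Γ v (fun z => C.A (W.d g z)) := by
      have h : T'.Γ v (W.N M) = T.Γ v (W.N M) / (1 + T.Γ v v) := hΓv π _ sN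
      rw [T.sub_right sc (C.smA sd) hv,
        T.chain_right (φ := fun s : ℝ => C.c0 * Real.exp (-s / N0)) sN sc hv dc, h, sW]
      have : 1 + T.Γ v v ≠ 0 := by linarith
      field_simp
    have hGA : T.Γ v (fun z => C.A (W.d g z)) ^ 2 ≤ T.Γ v v * (C.k0 ^ 3 / 256) :=
      (T.cs hv (C.smA sd)).trans (mul_le_mul_of_nonneg_left (C.gamA T sd gd) t0)
    by_cases hd : W.d g (W.ev π) ≤ 1
    · have f1 := h2.2 hO _ j0 gQ gσ
      have f2 := core (θ := cut (W.d g (W.ev π) - (1 + C.LA + C.LV))) (jj := C.ab * j π g)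
        (σ := C.ab * W.χ g (W.ev π)) (j := C.ab * j π g) W1 sW rfl C.u0p C.u1 v0 hUP C.k0p
        (C.k0_le_Q (W.d g (W.ev π))) (C.Q_le_V _) cp cc0 (C.A_nonneg (W.d g (W.ev π))) (C.A_le _)
        rfl N0p hGa hw hGA C.P1 C.P2 C.P3 (Or.inl ⟨C.A_zero hd, by
          rw [T.chain_right sd (C.smA sd) hv (C.dA _), hp, cut_deriv_zero (Or.inl
            (div_nonpos_of_nonpos_of_nonneg (by linarith) C.LAp.le))]
          simp, C.Q_eq_k0 (by linarith [C.LAp]), cut_zero (by linarith [C.LAp, C.LVp]),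
          mul_nonneg C.ab0 (W.χ_mem g _).1, rfl⟩)
      linarith [C.fl]
    · have χ0 : W.χ g (W.ev π) = 0 := by
        by_contra h
        exact hd ((h3.2.2.2.1 g hO).2 (lt_of_le_of_ne (W.χ_mem g _).1 (Ne.symm h)))
      have f1 := h2.2 hO 0 le_rfl gQ (by rw [χ0] at gσ ⊢; simpa using gσ)
      have f2 := core (θ := cut (W.d g (W.ev π) - (1 + C.LA + C.LV))) (jj := C.ab * j π g)
        (σ := C.ab * W.χ g (W.ev π)) (j := 0) W1 sW rfl C.u0p C.u1 v0 hUP C.k0p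
        (C.k0_le_Q (W.d g (W.ev π))) (C.Q_le_V _) cp cc0 (C.A_nonneg (W.d g (W.ev π))) (C.A_le _)
        rfl N0p hGa hw hGA C.P1 C.P2 C.P3 (Or.inr ⟨by rw [χ0, mul_zero], rfl, j0,
          (le_total (W.d g (W.ev π)) (1 + C.LA)).imp C.Q_eq_k0 C.A_one, by
          rcases le_total (W.d g (W.ev π)) (1 + C.LA + C.LV) with h | h
          · rw [cut_zero (by linarith), zero_mul]; positivity
          · rw [C.Q_eq_V h]; exact mul_le_of_le_one_left (sq_nonneg _) (cut_le_one _)⟩)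
      linarith [C.fl]
  · obtain ⟨a1, a2⟩ := W.su_out suv hv st π hO
    have a3 := (W.su_out (W.χ_su g) (W.χ_sm g) st π hO).1
    have a4 := h2.1 hO
    have a5 := mul_nonneg C.k0p.le j0
    have a6 := C.εp
    rw [a1] at e2 e3 e4 ⊢
    rw [a3] at e3 ⊢
    linarith

theorem exists_cst {R0 : ℝ} (hn : 1 ≤ n') (hs : 0 < s0) (hK : 1 ≤ K0) (N0p : 0 < N0)
    (hR : 0 < R0) : ∃ LA LV : ℝ, 0 < LA ∧ 0 < LV ∧ ∀ (Φ : ℝ) (m : ℕ), ∃ (C : Cst n' K0 N0) (R : ℕ),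
      C.LA = LA ∧ C.LV = LV ∧ C.k0 * (C.ab * R) * K0 = s0 / 16 ∧ 4 * C.k0 * C.c0 * N0 = s0 / 16 ∧
      2 * C.k0 * C.c0 * (C.ab * R) = 9 * R0 ∧ C.ε * (R * m) ≤ s0 / 8 ∧
      Φ ≤ 3 / 4 * C.V ^ 2 * (N0 / 100) := by
  have K0p : 0 < K0 := by linarith
  obtain ⟨T0, hT0⟩ : ∃ T0, T0 = 288 * R0 * N0 / s0 := ⟨_, rfl⟩
  have T0p : 0 < T0 := by rw [hT0]; positivity
  obtain ⟨k0, hk0⟩ : ∃ k0, k0 = s0 / (16 * K0 * T0) := ⟨_, rfl⟩
  have k0p : 0 < k0 := by rw [hk0]; positivity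
  obtain ⟨c0, hc0⟩ : ∃ c0, c0 = s0 / (64 * N0 * k0) := ⟨_, rfl⟩
  have c0p : 0 < c0 := by rw [hc0]; positivity
  have big : ∀ x y : ℝ, 0 ≤ x → 0 < y → x ≤ (1 + x / y) ^ 2 * y := by
    intro x y hx hy
    have h1 : 0 ≤ x / y := by positivity
    have h2 : x / y ≤ (1 + x / y) ^ 2 := by nlinarith
    rwa [div_le_iff₀ hy] at h2
  refine ⟨1 + 256 * cc ^ 2 * c0 ^ 2 * K0 / k0 ^ 3, 1 + 256 * cc ^ 2 * K0 / k0, by positivity,
    by positivity, fun Φ m => ?_⟩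
  obtain ⟨B, B1, hB⟩ : ∃ B : ℝ, 1 ≤ B ∧ Φ ≤ 3 / 4 * B * (N0 / 100) := by
    refine ⟨max 1 (400 * Φ / (3 * N0)), le_max_left _ _, ?_⟩
    have h1 := le_max_right 1 (400 * Φ / (3 * N0))
    rw [div_le_iff₀ (by positivity)] at h1
    linarith
  have r0p : 0 < √k0⁻¹ := Real.sqrt_pos.2 (inv_pos.2 k0p)
  obtain ⟨z0, z0p, zr, zB⟩ : ∃ z0 : ℝ, 0 < z0 ∧ z0 ≤ √k0⁻¹ ∧ z0 ≤ B⁻¹ :=
    ⟨min _ _, lt_min r0p (inv_pos.2 (by linarith)), min_le_left _ _, min_le_right _ _⟩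
  have hV : B ≤ ((z0 ^ 2)⁻¹) ^ 2 := by
    have h1 : B ≤ z0⁻¹ := (le_inv_comm₀ z0p (by linarith)).1 zB
    have h2 : (z0 ^ 2)⁻¹ = z0⁻¹ ^ 2 := (inv_pow _ _).symm
    have h3 : B ^ 2 ≤ z0⁻¹ ^ 2 := pow_le_pow_left₀ (by linarith) h1 2
    have h4 : (B ^ 2) ^ 2 ≤ (z0⁻¹ ^ 2) ^ 2 := pow_le_pow_left₀ (by positivity) h3 2
    have h5 : B ≤ B ^ 2 := by nlinarith
    have h6 : B ^ 2 ≤ (B ^ 2) ^ 2 := by nlinarith
    rw [h2]; linarith
  obtain ⟨P, Pp, P1, P2, P3, P4⟩ : ∃ P : ℝ, 0 < P ∧ P ≤ 1 / (2 * c0) ∧ P ≤ k0 / (32 * c0 ^ 2) ∧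
      P ≤ k0 * N0 / (16 * c0) ∧ P ≤ N0 :=
    ⟨min (min _ _) (min _ _), lt_min (lt_min (by positivity) (by positivity))
      (lt_min (by positivity) N0p), (min_le_left _ _).trans (min_le_left _ _),
      (min_le_left _ _).trans (min_le_right _ _), (min_le_right _ _).trans (min_le_left _ _),
      (min_le_right _ _).trans (min_le_right _ _)⟩
  rw [le_div_iff₀ (by positivity)] at P1 P2 P3
  obtain ⟨R, hR'⟩ := exists_nat_gt (2 * T0 / P)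
  have Rp : (0 : ℝ) < R := lt_trans (by positivity) hR'
  rw [div_lt_iff₀ Pp] at hR'
  have hab : T0 / R ≤ P / 2 := by rw [div_le_iff₀ Rp]; linarith
  obtain ⟨ε, εp, hε⟩ : ∃ ε : ℝ, 0 < ε ∧ ε * (R * m) ≤ s0 / 8 := by
    refine ⟨s0 / 8 / (R * m + 1), by positivity, ?_⟩
    rw [div_mul_eq_mul_div, div_le_iff₀ (by positivity)]
    nlinarith
  obtain ⟨F, hF⟩ : ∃ F, F = c0 * (1 + n' * N0) / N0 + c0 * k0 * (1 + P) + ((z0 ^ 2)⁻¹) ^ 2 :=
    ⟨_, rfl⟩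
  have Fp : 0 < F := by rw [hF]; positivity
  obtain ⟨u0, u0p, u1, u2, u3⟩ : ∃ u0 : ℝ, 0 < u0 ∧ u0 ≤ 1 ∧ u0 ≤ P ∧ u0 ≤ ε / 2 / F :=
    ⟨min 1 (min _ _), lt_min one_pos (lt_min Pp (by positivity)), min_le_left _ _,
      (min_le_right _ _).trans (min_le_left _ _), (min_le_right _ _).trans (min_le_right _ _)⟩
  rw [le_div_iff₀ Fp, hF] at u3
  have eT : T0 / R * R = T0 := div_mul_cancel₀ _ Rp.ne'
  refine ⟨⟨k0, c0, _, _, √k0⁻¹, z0, (z0 ^ 2)⁻¹, T0 / R, u0, ε, P, k0p, c0p, by positivity,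
    by positivity, z0p, zr, ?_, mul_inv_cancel₀ (by positivity), big _ _ (by positivity)
    (by positivity), big _ _ (by positivity) k0p, by positivity, u0p, u1, εp, ?_, by linarith,
    by linarith, by linarith, P4, u3⟩, R, rfl, rfl, ?_, ?_, ?_, hε, ?_⟩
  · rw [Real.sq_sqrt (inv_pos.2 k0p).le, inv_mul_cancel₀ k0p.ne']
  · nlinarith
  · simp only [eT]
    rw [hk0]; field_simp
  · simp only
    rw [hc0]; field_simp; norm_num
  · simp only [eT]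
    rw [hc0, hT0]; field_simp; norm_num
  · simp only
    nlinarith

end Ph0

open Ph0 in
theorem phase0 (hS : SlowStmt) : Phase0Stmt := by
  intro n' s0 K0 N0 R0 hn hs hK N0p hR
  obtain ⟨LA, LV, LAp, LVp, H⟩ := exists_cst hn hs hK N0p hR
  refine ⟨1 + LA + LV, by linarith, fun W Φ => ?_⟩
  obtain ⟨C, R, rfl, rfl, e1, e2, e3, e4, e5⟩ := H Φ (Fintype.card W.G)
  have : ∀ π, ∃ j : W.G → ℝ, (W.pt W.st0 π).Fi W.χ K0 → (∀ g, 0 ≤ j g ∧
      (W.pt W.st0 π).Γ (W.χ g) (W.χ g) ≤ j g * W.χ g (W.ev π)) ∧ ∑ g, j g ≤ K0 := by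
    intro π
    by_cases h : (W.pt W.st0 π).Fi W.χ K0
    · obtain ⟨j, hj⟩ := h
      rw [W.pt_p] at hj
      exact ⟨j, fun _ => hj⟩
    · exact ⟨fun _ => 0, fun h' => absurd h' h⟩
  choose j hj using this
  have hj1 := W.init.mono fun π h => (hj π h.2.2.1).1
  obtain ⟨⟨st, M⟩, ok, hJ⟩ := rounds (α := W.St × (W.G → W.Z → ℝ)) R
    (fun t a => W.Ok a.1 a.2 ∧ ∀ᶠ π in W.L, J C W j t a.1 a.2 π)
    (fun t a g _ h => by
      obtain ⟨st', M', h'⟩ := one_step C hS hn N0p W j hj1 t g h.1 h.2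
      exact ⟨(st', M'), h'⟩)
    (a0 := (W.st0, fun _ _ => 0)) ⟨World.ok_zero, W.init.mono fun π h => by
      have e : W.N (fun _ _ => 0) = fun _ => 0 := by funext z; simp [World.N]
      unfold J
      simp only [e, (W.pt W.st0 π).const_left 0 (W.A.const 0)]
      simpa [World.Mf] using h.1⟩
  refine ⟨st, M, ok, ?_⟩
  filter_upwards [hJ, W.init] with π h1 h2
  unfold J at h1
  simp only [← Finset.mul_sum, h2.2.1, Finset.sum_const, Finset.card_univ, nsmul_eq_mul,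
    mul_one] at h1
  have a1 : C.k0 * C.ab * (R * ∑ g, j π g) ≤ s0 / 16 := by
    have := mul_le_mul_of_nonneg_left (hj π h2.2.2.1).2
      (mul_nonneg C.k0p.le (mul_nonneg C.ab0 (Nat.cast_nonneg R)))
    linarith
  have x0 := Real.exp_pos (-W.N M (W.ev π) / N0)
  have a2 : 2 * C.k0 * (C.c0 * Real.exp (-W.N M (W.ev π) / N0)) * (C.ab * R) =
      9 * R0 * Real.exp (-W.N M (W.ev π) / N0) := by rw [← e3]; ring
  have a3 : 0 ≤ C.c0 * Real.exp (-W.N M (W.ev π) / N0) / N0 * (W.pt st π).Γ (W.N M) (W.N M) :=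
    mul_nonneg (div_nonneg (mul_pos C.c0p x0).le N0p.le) ((W.pt st π).nonneg ok.toMass.sm_N)
  have a4 : 4 * C.k0 * C.c0 * N0 * (1 - Real.exp (-W.N M (W.ev π) / N0)) ≤ s0 / 16 := by
    rw [e2]; nlinarith
  have a5 : 0 ≤ W.Mf (1 + C.LA + C.LV) M (W.ev π) :=
    Finset.sum_nonneg fun g _ => mul_nonneg (cut_nonneg _) (ok.toMass.nn g _)
  have a6 : 0 ≤ 3 / 4 * C.V ^ 2 * W.Mf (1 + C.LA + C.LV) M (W.ev π) := by positivity
  have a7 : 0 ≤ 9 * R0 * Real.exp (-W.N M (W.ev π) / N0) := by positivity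
  have key : 3 / 4 * s0 + 9 * R0 * Real.exp (-W.N M (W.ev π) / N0) +
      3 / 4 * C.V ^ 2 * W.Mf (1 + C.LA + C.LV) M (W.ev π) ≤ W.E st π := by linarith
  refine ⟨by linarith, ?_⟩
  rcases le_total (W.Mf (1 + C.LA + C.LV) M (W.ev π)) (N0 / 100) with h | h
  · refine Or.inr ⟨h, ?_⟩
    rcases le_total (2 * N0) (W.N M (W.ev π)) with h' | h'
    · exact Or.inl h'
    · have b1 : Real.exp (-2) ≤ Real.exp (-W.N M (W.ev π) / N0) :=
        Real.exp_le_exp.2 (by rw [le_div_iff₀ N0p]; linarith)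
      have b2 := mul_le_mul_of_nonneg_left (exp_two.trans b1) (show 0 ≤ 9 * R0 by positivity)
      exact Or.inr (by linarith)
  · have := mul_le_mul_of_nonneg_left h (show 0 ≤ 3 / 4 * C.V ^ 2 by positivity)
    exact Or.inl (by linarith)

end Crest.Agent.N222.A

end
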