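import Crest.Agent.N222.A.Basic

/-! # Row 222, part A: the gain of one step at a slow point (helper38) -/

set_option autoImplicit false
set_option linter.dupNamespace false

noncomputable section

namespace Crest.Agent.N222.A

theorem le_add_of_sq_le {x a b : ℝ} (ha : 0 ≤ a) (hb : 0 ≤ b) (h : x ^ 2 ≤ 4 * a * b) :
    |x| ≤ a + b :=
  abs_le_of_sq_le_sq (by nlinarith [sq_nonneg (a - b)]) (add_nonneg ha hb)

theorem slow_real {U W Q σ p0 j a Ga GQ Gσ : ℝ} (hU : 0 < U) (hW : 1 ≤ W) (hQ : 0 < Q)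
    (hσ : 0 ≤ σ) (hp0 : 0 ≤ p0) (hj : 0 ≤ j) (h1 : GQ ^ 2 ≤ (W ^ 2 - 1) * (Q ^ 3 / 64))
    (h2 : Gσ ^ 2 ≤ (W ^ 2 - 1) * (j * σ)) :
    slow U W Q σ (U ^ 2 / 4 - p0 - σ) j a Ga ≤
      gen U W (Q * (1 - (σ + p0) / (U ^ 2 / 4)))
        ((Q * -((σ + p0) * (-((U ^ 2 / 4) ^ 2)⁻¹ * (U / 2) * (W ^ 2 - 1)) +
          (U ^ 2 / 4)⁻¹ * Gσ) + (1 - (σ + p0) / (U ^ 2 / 4)) * GQ) / W) a (Ga / W) := by
  have hW0 : 0 < W := by linarith
  have hp : 0 < U ^ 2 / 4 := by positivity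
  have hχ : 0 ≤ 1 - 1 / W ^ 2 := sub_nonneg.2 (div_le_one_of_le₀ (one_le_pow₀ hW) (by positivity))
  have hy : 0 ≤ 1 - 1 / W := sub_nonneg.2 (div_le_one_of_le₀ hW hW0.le)
  set r := U ^ 2 / 4 - p0 - σ with hr
  have hA : |U * Gσ / (U ^ 2 / 4 * W)| ≤ σ / (U ^ 2 / 4) * ((1 - 1 / W ^ 2) * W) + j := by
    refine le_add_of_sq_le (by positivity) hj ?_
    calc _ = 16 / (U ^ 2 * W ^ 2) * Gσ ^ 2 := by field_simp; ring
      _ ≤ 16 / (U ^ 2 * W ^ 2) * ((W ^ 2 - 1) * (j * σ)) := by gcongr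
      _ = 4 * (σ / (U ^ 2 / 4) * ((1 - 1 / W ^ 2) * 1)) * j := by field_simp; ring
      _ ≤ _ := by gcongr
  have hB : |r / (U ^ 2 / 4) * U * GQ / W| ≤
      Q * (1 - 1 / W ^ 2) / 8 + Q ^ 2 * r ^ 2 / (U ^ 2 / 4) / 8 := by
    refine le_add_of_sq_le (by positivity) (by positivity) ?_
    calc _ = 16 * r ^ 2 / (U ^ 2 * W ^ 2) * GQ ^ 2 := by field_simp; ring
      _ ≤ 16 * r ^ 2 / (U ^ 2 * W ^ 2) * ((W ^ 2 - 1) * (Q ^ 3 / 64)) := by gcongr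
      _ = _ := by field_simp; ring
  have hC : (1 - 1 / W ^ 2) / 2 ≤ W - 1 := by
    rw [one_sub_div (by positivity), div_div, div_le_iff₀ (by positivity)]
    nlinarith [mul_nonneg (sub_nonneg.2 hW) (sub_nonneg.2 hW), sq_nonneg (W ^ 2 - W)]
  have e : gen U W (Q * (1 - (σ + p0) / (U ^ 2 / 4)))
        ((Q * -((σ + p0) * (-((U ^ 2 / 4) ^ 2)⁻¹ * (U / 2) * (W ^ 2 - 1)) +
          (U ^ 2 / 4)⁻¹ * Gσ) + (1 - (σ + p0) / (U ^ 2 / 4)) * GQ) / W) a (Ga / W) -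
      slow U W Q σ r j a Ga =
      Q * (W - 1 - (1 - 1 / W ^ 2) / 2) +
      (Q * (1 - 1 / W ^ 2) / 8 + Q ^ 2 * r ^ 2 / (U ^ 2 / 4) / 8 + r / (U ^ 2 / 4) * U * GQ / W) +
      Q * (σ / (U ^ 2 / 4) * ((1 - 1 / W ^ 2) * W) + j - U * Gσ / (U ^ 2 / 4 * W)) +
      Q * (p0 / (U ^ 2 / 4) * ((1 - 1 / W ^ 2) * W + (1 - 1 / W))) +
      (a + |a|) * (1 - 1 / W ^ 2) ^ 2 + a ^ 2 * (U ^ 2 / 4) * (1 - 1 / W ^ 2) * (1 / W ^ 2) := by
    rw [gen, slow, hr]; field_simp; ring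
  rw [← sub_nonneg, e]
  refine add_nonneg (add_nonneg (add_nonneg (add_nonneg (add_nonneg
    (mul_nonneg hQ.le (sub_nonneg.2 hC)) (by linarith [(abs_le.1 hB).1]))
    (mul_nonneg hQ.le (sub_nonneg.2 (abs_le.1 hA).2))) (by positivity))
    (mul_nonneg (by linarith [neg_le_abs a]) (sq_nonneg _))) (by positivity)

theorem slow_le : SlowStmt := by
  intro Z A T Q σ a v u0 j hQ hσ _ hv Q0 σ0 v0 hu hj h1 h2
  have hU : ∀ z, 0 < u0 + v z := fun z => by linarith [v0 z]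
  have ht := T.nonneg hv
  have hW : T.Γ v v = √(1 + T.Γ v v) ^ 2 - 1 := by rw [Real.sq_sqrt (by linarith)]; ring
  have sP := Alg.inv (Alg.div_const (Alg.pow (Alg.const_add u0 hv) 2) 4) fun z => by
    have := hU z; positivity
  have sS := Alg.add_const hσ (u0 ^ 2 / 4)
  have hd : HasDerivAt (fun t : ℝ => ((u0 + t) ^ 2 / 4)⁻¹)
      (-(((u0 + v T.p) ^ 2 / 4) ^ 2)⁻¹ * ((u0 + v T.p) / 2)) (v T.p) := by
    have := hU T.p
    refine ((((hasDerivAt_id' (v T.p)).const_add u0).fun_pow 2 |>.div_const 4).fun_inv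
      (by positivity)).congr_deriv ?_
    simp only [Nat.cast_ofNat]
    field_simp; ring
  have e : T.Γ v (beta Q σ v u0) = Q T.p * -((σ T.p + u0 ^ 2 / 4) *
      (-(((u0 + v T.p) ^ 2 / 4) ^ 2)⁻¹ * ((u0 + v T.p) / 2) * T.Γ v v) +
        ((u0 + v T.p) ^ 2 / 4)⁻¹ * T.Γ v σ) +
      (1 - (σ T.p + u0 ^ 2 / 4) / ((u0 + v T.p) ^ 2 / 4)) * T.Γ v Q := by
    have e1 : beta Q σ v u0 = fun z => Q z * (1 - (σ z + u0 ^ 2 / 4) * ((u0 + v z) ^ 2 / 4)⁻¹) := rfl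
    rw [e1, T.mul_right hQ (Alg.const_sub 1 (A.mul sS sP)) hv,
      T.sub_right (A.const 1) (A.mul sS sP) hv, T.const_right 1 hv, T.mul_right sS sP hv,
      T.chain_right hv sP hv hd, T.add_right hσ (A.const _) hv, T.const_right _ hv, zero_sub,
      add_zero, div_eq_mul_inv (σ T.p + u0 ^ 2 / 4)]
  have := slow_real (a := a T.p) (Ga := T.Γ v a) (p0 := u0 ^ 2 / 4) (hU T.p)
    (Real.one_le_sqrt.2 (by linarith : 1 ≤ 1 + T.Γ v v)) (Q0 T.p) (σ0 T.p) (by positivity) hj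
    (GQ := T.Γ v Q) (Gσ := T.Γ v σ)
    (by rw [← hW]; exact (T.cs hv hQ).trans (mul_le_mul_of_nonneg_left h1 ht))
    (by rw [← hW]; exact (T.cs hv hσ).trans (mul_le_mul_of_nonneg_left h2 ht))
  rwa [← hW, ← e] at this

end Crest.Agent.N222.A

end
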