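import Crest.Agent.N222.A.SmJ
import Crest.Agent.N222.F.Res
import Crest.Agent.N222.F.Bump

/-! # Row 222, part A: the fibrewise solution on `Z` (helper90) -/

set_option autoImplicit false
set_option linter.dupNamespace false
set_option linter.unusedSectionVars false
open Filter Set Topology Function
open scoped ContDiff Manifold

noncomputable section

namespace Crest.Agent.N222.A

namespace Sol

variable {d : ℕ} {ι X Y Λ : Type} [Fintype ι] [TopologicalSpace X] [TopologicalSpace Y]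
  [NormedAddCommGroup Λ] [NormedSpace ℝ Λ]

/-- extension by zero of a family -/
theorem smJ_push [T2Space Y] {M : Imm d ι X} {N : Imm d ι Y} {e : OpenPartialHomeomorph X Y}
    (hx : ∀ p ∈ e.source, N.x (e p) = M.x p) {G : Λ → X → ℝ} (hG : SmJ M.ch univ G) {C : Set X}
    (hC : IsCompact C) (hCe : C ⊆ e.source) (h0 : ∀ ξ p, G ξ p ≠ 0 → p ∈ C) :
    SmJ N.ch univ fun ξ => push e (G ξ) := by
  refine SmJ.of_charts fun y ξ _ => ?_
  by_cases hy : y ∈ e.target
  · have hc := IsChart.symm_trans hx (M.isChart (e.symm y))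
    have hs : y ∈ (e.symm.trans (M.ch (e.symm y))).source := ⟨hy, M.mem _⟩
    refine ⟨_, hc, hs, ?_⟩
    have ht := (e.symm.trans (M.ch (e.symm y))).map_source hs
    refine ((hG (e.symm y)).contDiffAt (((M.ch _).open_target.prod isOpen_univ).mem_nhds
      ⟨ht.1, mem_univ _⟩)).congr_of_eventuallyEq ?_
    filter_upwards [(continuousAt_fst (p := (e.symm.trans (M.ch (e.symm y)) y, ξ))).eventually
      ((e.symm.trans (M.ch (e.symm y))).open_target.mem_nhds ht)] with q hq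
    exact push_apply (G q.2) hq.2
  · have hcl : IsClosed (e '' C) := (hC.image_of_continuousOn (e.continuousOn.mono hCe)).isClosed
    have hy' : y ∉ e '' C := fun ⟨p, hp, h⟩ => hy (h ▸ e.map_source (hCe hp))
    refine ⟨N.ch y, N.isChart y, N.mem y,
      (contDiffAt_const (c := (0 : ℝ))).congr_of_eventuallyEq ?_⟩
    have h1 := (N.ch y).continuousAt_symm ((N.ch y).map_source (N.mem y))
    rw [ContinuousAt, (N.ch y).left_inv (N.mem y)] at h1
    filter_upwards [(continuousAt_fst (p := (N.ch y y, ξ))).eventually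
      (h1.eventually (hcl.isOpen_compl.mem_nhds hy'))] with q hq
    by_contra h
    by_cases h2 : (N.ch y).symm q.1 ∈ e.target
    · rw [push, indicator_of_mem h2] at h
      exact hq ⟨_, h0 _ _ h, e.right_inv h2⟩
    · exact h (indicator_of_notMem h2 _)

/-- pull-back of a family with a cut-off -/
theorem smJ_pull {M : Imm d ι X} {N : Imm d ι Y} {e : OpenPartialHomeomorph X Y}
    (hx : ∀ p ∈ e.source, N.x (e p) = M.x p) {v : Λ → Y → ℝ} (hv : SmJ N.ch univ v) {ζ : X → ℝ}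
    (hζ : M.Sm ζ) (hs : tsupport ζ ⊆ e.source) : SmJ M.ch univ fun ξ p => ζ p * v ξ (e p) := by
  refine SmJ.of_charts fun p ξ _ => ⟨M.ch p, M.isChart p, M.mem p, ?_⟩
  by_cases hp : p ∈ e.source
  · have hc := IsChart.symm_trans hx (M.isChart p)
    have ht : M.ch p p ∈ (e.symm.trans (M.ch p)).target :=
      ⟨(M.ch p).map_source (M.mem p), by
        change (M.ch p).symm (M.ch p p) ∈ e.source
        rwa [(M.ch p).left_inv (M.mem p)]⟩
    have h1 := (hv.chart isOpen_univ hc).contDiffAt (x := (M.ch p p, ξ))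
      (((e.symm.trans (M.ch p)).open_target.prod isOpen_univ).mem_nhds ⟨ht, mem_univ _⟩)
    have h2 := (SmJ.of_smA (V := (univ : Set Λ)) hζ p).contDiffAt (x := (M.ch p p, ξ))
      (((M.ch p).open_target.prod isOpen_univ).mem_nhds ⟨ht.1, mem_univ _⟩)
    exact h2.mul h1
  · have h1 := symm_eventuallyEq (M.mem p)
      (notMem_tsupport_iff_eventuallyEq.1 fun h => hp (hs h))
    refine (contDiffAt_const (c := (0 : ℝ))).congr_of_eventuallyEq ?_
    filter_upwards [(continuousAt_fst (p := (M.ch p p, ξ))).eventually h1] with q hq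
    exact mul_eq_zero_of_left hq _

/-- a map which determines an immersion is an immersion -/
theorem isChart_of_comp {ι' : Type} [Fintype ι'] {x : X → E ι} {x' : X → E ι'}
    {e : OpenPartialHomeomorph X (E (Fin d))} (he : IsChart x e)
    (h' : ContDiffOn ℝ ∞ (x' ∘ e.symm) e.target) {L : E ι' → E ι} (hL : ContDiff ℝ ∞ L)
    (h : ∀ p, L (x' p) = x p) : IsChart x' e := by
  refine ⟨h', fun z hz => ?_⟩
  have h2 : DifferentiableAt ℝ (x' ∘ e.symm) z :=
    (h'.contDiffAt (e.open_target.mem_nhds hz)).differentiableAt (by simp)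
  have h3 := fderiv_comp z (hL.differentiable (by simp) _) h2
  have h4 : L ∘ (x' ∘ e.symm) = x ∘ e.symm := funext fun _ => h _
  have h5 := he.inj z hz
  rw [← h4, h3] at h5
  exact Injective.of_comp h5

/-- a cut-off in the parameter -/
theorem exists_rho {κ : Type} [Fintype κ] {K V : Set (κ → ℝ)} (hK : IsCompact K) (hV : IsOpen V)
    (h : K ⊆ V) : ∃ ρ : (κ → ℝ) → ℝ, ContDiff ℝ ∞ ρ ∧ tsupport ρ ⊆ V ∧
      (∀ ξ, 0 ≤ ρ ξ ∧ ρ ξ ≤ 1) ∧ K ⊆ interior {ξ | ρ ξ = 1} := by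
  obtain ⟨L, hL, hKL, hLU⟩ := exists_compact_between hK hV h
  obtain ⟨f, h1, h0, hf⟩ := exists_contMDiffMap_one_nhds_of_subset_interior (n := ⊤)
    𝓘(ℝ, κ → ℝ) hK.isClosed hKL
  have hs : tsupport f ⊆ L := closure_minimal (fun p hp => by_contra fun hp' => hp (h0 p hp'))
    hL.isClosed
  exact ⟨f, f.contMDiff.contDiff, hs.trans hLU, hf, subset_interior_iff_mem_nhdsSet.2 h1⟩

variable [DecidableEq ι]

/-- transport of the defect -/
theorem dfc_transport {X' : Type} {M : Imm d ι X} {S : Pre (X' → ℝ) ι} {φ : X → X'} {x : X}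
    {v Q σ : X' → ℝ} {w Q' σ' : X → ℝ} {b : ι → X' → ℝ} {b' : ι → X → ℝ} (u0 : ℝ)
    (hv : ∀ᶠ y in 𝓝 x, ∀ a, S.D a v (φ y) = M.pre.D a (fun y => v (φ y)) y)
    (hX : ∀ a, S.D a (S.X v (vv S v) a) (φ x) =
      M.pre.D a (fun y => S.X v (vv S v) a (φ y)) x)
    (hw : (fun y => v (φ y)) =ᶠ[𝓝 x] w) (hb : ∀ a, b a (φ x) = b' a x) (hQ : Q (φ x) = Q' x)
    (hσ : σ (φ x) = σ' x) : dfc S b Q σ v u0 (φ x) = dfc M.pre b' Q' σ' w u0 x := by
  have h1 : ∀ᶠ y in 𝓝 x, ∀ a, S.D a v (φ y) = M.pre.D a w y := by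
    filter_upwards [hv, hw.eventuallyEq_nhds] with y h1 h2 a
    rw [h1, Imm.D_congr h2]
  have h2 : ∀ᶠ y in 𝓝 x, S.gam v v (φ y) = M.pre.gam w w y := h1.mono fun y h => by
    simp only [Pre.gam, Finset.sum_apply, Pi.mul_apply, h]
  have h3 : ∀ a, (fun y => S.X v (vv S v) a (φ y)) =ᶠ[𝓝 x] M.pre.X w (vv M.pre w) a := fun a => by
    filter_upwards [h1, h2] with y h h'
    simp only [Pre.X, Pi.mul_apply, vv, h, h']
  have h4 : S.hb b v (vv S v) (φ x) = M.pre.hb b' w (vv M.pre w) x := by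
    simp only [Pre.hb, Pre.dv, Pi.add_apply, Finset.sum_apply, Pi.mul_apply, hX, hb,
      fun a => Imm.D_congr (M := M) (h3 a) a, fun a => (h3 a).self_of_nhds]
  have h5 : v (φ x) = w x := hw.self_of_nhds
  simp only [dfc, ww, beta, h4, h5, hQ, hσ]
  simp only [vv, h2.self_of_nhds]

theorem dfc_pad (M : Imm d ι X) (c : ℝ) (b : ι → X → ℝ) (Q σ w : X → ℝ) (u0 : ℝ) (x : X) :
    dfc (M.pad c).pre (fun o => o.elim 0 b) Q σ w u0 x = dfc M.pre b Q σ w u0 x := by
  have h1 : vv (M.pad c).pre w = vv M.pre w := funext fun p => by simp only [vv, Imm.pad_gam]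
  have h2 : (M.pad c).pre.hb (fun o => o.elim 0 b) w (vv M.pre w) = M.pre.hb b w (vv M.pre w) := by
    simp only [Pre.hb, Pre.dv, Pre.X, Fintype.sum_option, Imm.pad_D_none, Imm.pad_D_some,
      Option.elim_none, Option.elim_some, mul_zero, zero_add]
  simp only [dfc, ww, h1, h2, Imm.pad_gam]

theorem dfc_zero (M : Imm d ι X) (b : ι → X → ℝ) (Q : X → ℝ) {σ : X → ℝ} {u0 : ℝ} (hu : 0 < u0)
    {x : X} (h : σ x = 0) : dfc M.pre b Q σ (fun _ => 0) u0 x = 0 := by
  have h1 : ∀ a, M.pre.D a (fun _ => 0) = fun _ => 0 := fun a => funext fun p => Imm.D_const 0 a p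
  have h2 : ∀ a, M.pre.X (fun _ => 0) (vv M.pre fun _ => 0) a = fun _ => 0 := fun a =>
    funext fun p => by simp only [Pre.X, Pi.mul_apply, h1, mul_zero]
  have h3 : M.pre.gam (fun _ => 0) (fun _ => 0) x = 0 := by
    simp only [Pre.gam, Finset.sum_apply, Pi.mul_apply, h1, mul_zero, Finset.sum_const_zero]
  have h4 : M.pre.hb b (fun _ => 0) (vv M.pre fun _ => 0) x = 0 := by
    simp only [Pre.hb, Pre.dv, Pi.add_apply, Finset.sum_apply, Pi.mul_apply, h2, h1, zero_mul,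
      Finset.sum_const_zero, add_zero]
  have h5 : u0 ^ 2 / 4 / (u0 ^ 2 / 4) = 1 := div_self (by positivity)
  simp only [dfc, h4, beta, h]
  simp [vv, h3, h5]

end Sol

open Sol in
theorem sol (hF : FamStmt) (hD : DblStmt) : SolStmt := by
  intro n B st g Q σ abar u0 ε hQ hσ Q0 σ0 hsu hu hε
  by_cases ha : abar < 0
  · have h : ∀ _ : B.Z, False := fun z => by linarith [σ0 z]
    exact ⟨fun _ => 0, fun _ => contDiffOn_const, ⟨∅, isCompact_empty, empty_subset _,
      fun z => (h z).elim⟩, fun z => (h z).elim, fun z => (h z).elim⟩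
  replace ha : 0 ≤ abar := not_lt.1 ha
  obtain ⟨K, hK, hKV, hσK⟩ := hsu
  obtain ⟨D, hDc, hΩD⟩ := B.Ω_loc g
  borelize B.T
  obtain ⟨Y, _, _, _, _, _, _, N0, e, c, hDe, hx⟩ := hD n B.ιT B.T B.N D hDc
  have hx' : ∀ p ∈ e.source, N0.x (e p) = (B.N.pad c).x p := hx
  obtain ⟨ζ, hζ, hζe, ζ01, hζ1⟩ := B.N.exists_bump hDc e.open_source hDe
  have hDU : D ⊆ interior {p | ζ p = 1} := subset_interior_iff_mem_nhdsSet.2 hζ1
  have hUe : interior {p | ζ p = 1} ⊆ e.source := fun p hp =>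
    hζe (subset_tsupport _ (by rw [mem_support, interior_subset hp]; exact one_ne_zero))
  obtain ⟨ζ2, hζ2, hζ2U, ζ201, hζ21⟩ := B.N.exists_bump hDc isOpen_interior hDU
  obtain ⟨ρ, hρ, hρV, ρ01, hKρ⟩ := exists_rho hK (B.V_open g) hKV
  have ρV : ∀ ξ, ρ ξ ≠ 0 → ξ ∈ B.V g := fun ξ h => hρV (subset_tsupport _ h)
  have hV1 : interior {ξ | ρ ξ = 1} ⊆ B.V g := fun ξ h =>
    ρV ξ (by rw [interior_subset h]; exact one_ne_zero)
  -- the transplantation of functions on `Z` to the double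
  obtain ⟨hat, hhat⟩ : ∃ hat : (B.Z → ℝ) → (B.κ → ℝ) → Y → ℝ,
      ∀ f ξ, hat f ξ = push e fun p => ρ ξ * (ζ p * f (B.t g p ξ)) := ⟨_, fun _ _ => rfl⟩
  have hat_sm : ∀ f, SmA B.ch f → SmJ N0.ch univ (hat f) := fun f hf => by
    have h1 := ((SmJ.of_smA hζ.sm).mul (B.sm_res g f hf)).cutoff (B.V_open g) hρ hρV
    rw [funext (hhat f)]
    exact smJ_push (M := B.N.pad c) hx' h1 hζ.cs hζe fun ξ p h =>
      subset_tsupport _ (left_ne_zero_of_mul (right_ne_zero_of_mul h))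
  have hat_in : ∀ f ξ, ∀ p ∈ e.source, hat f ξ (e p) = ρ ξ * (ζ p * f (B.t g p ξ)) :=
    fun f ξ p hp => by rw [hhat, push_apply _ hp]
  have hat_out : ∀ f ξ, ∀ y ∉ e.target, hat f ξ y = 0 := fun f ξ y hy => by
    rw [hhat]; exact indicator_of_notMem hy _
  have hat_one : ∀ f, ∀ ξ ∈ interior {ξ | ρ ξ = 1}, ∀ p ∈ interior {p | ζ p = 1},
      hat f ξ (e p) = f (B.t g p ξ) := fun f ξ hξ p hp => by
    rw [hat_in f ξ p (hUe hp), interior_subset hξ, interior_subset hp, one_mul, one_mul]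
  have cases : ∀ y, y ∉ e.target ∨ ∃ p ∈ e.source, e p = y := fun y =>
    (em' _).imp id fun h => ⟨_, e.map_target h, e.right_inv h⟩
  -- the family of immersions
  obtain ⟨xx, hxx⟩ : ∃ xx : (B.κ → ℝ) → Y → E (Option st.ι), ∀ ξ y, xx ξ y = up (N0.x y none)
      (WithLp.toLp 2 fun k => hat ((st.S 0).x k) ξ y + (1 - hat (fun _ => 1) ξ y) *
        ∑ a, if k = st.j a then N0.x y (some a) else 0) := ⟨_, fun _ _ => rfl⟩
  have xx_sm : SmJ N0.ch univ xx := by
    refine SmJ.euclid.2 fun k => ?_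
    simp only [hxx]
    cases k with
    | none => exact SmJ.of_smA (N0.sm_coord none)
    | some k =>
      refine (hat_sm _ (st.smx k)).add (((SmJ.const 1).sub
        (hat_sm _ fun _ => contDiffOn_const)).mul (SmJ.sum Finset.univ fun a _ => ?_))
      by_cases h : k = st.j a
      · simpa only [if_pos h] using SmJ.of_smA (N0.sm_coord (some a))
      · simpa only [if_neg h] using SmJ.const 0
  have xx_j : ∀ ξ y, (WithLp.toLp 2 fun o : Option B.ιT => xx ξ y (o.map st.j)) = N0.x y := by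
    intro ξ y
    ext o
    rw [hxx]
    cases o with
    | none => rfl
    | some a =>
      change hat ((st.S 0).x (st.j a)) ξ y + (1 - hat (fun _ => 1) ξ y) *
        (∑ a', if st.j a = st.j a' then N0.x y (some a') else 0) = N0.x y (some a)
      simp only [st.j_inj.eq_iff, Finset.sum_ite_eq, Finset.mem_univ, if_true]
      rcases cases y with h | ⟨p, hp, rfl⟩
      · rw [hat_out _ _ _ h, hat_out _ _ _ h]; ring
      · rw [hat_in _ _ _ hp, hat_in _ _ _ hp]
        by_cases h0 : ρ ξ = 0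
        · rw [h0]; ring
        · rw [st.x_j g a p ξ (ρV ξ h0), hx p hp]
          change _ + _ * B.N.x p a = B.N.x p a
          ring
  have hL : ContDiff ℝ ∞ fun w : E (Option st.ι) =>
      (WithLp.toLp 2 fun o : Option B.ιT => w (o.map st.j) : E (Option B.ιT)) :=
    contDiff_euclidean.2 fun o => (contDiff_euclidean.1 contDiff_id) (o.map st.j)
  let N : (B.κ → ℝ) → Imm n (Option st.ι) Y := fun ξ =>
    { x := xx ξ
      ch := N0.ch
      mem := N0.mem
      isChart := fun y => isChart_of_comp (N0.isChart y) (xx_sm.slice (mem_univ ξ) y) hL (xx_j ξ) }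
  have hb0 : ∀ k, SmA B.ch (st.b 0 k) := fun k => (st.smb k).slice (mem_univ 0)
  obtain ⟨v', K', hv', hK', hK'V, hv'K, hv'0, hdfc⟩ := hF n (Option st.ι) B.κ Y N0.ch N
    (fun ξ o => o.elim 0 fun k => hat (st.b 0 k) ξ) (fun ξ y => 1 + hat (fun z => Q z - 1) ξ y)
    (hat σ) abar u0 ε K (interior {ξ | ρ ξ = 1}) (fun _ => rfl) xx_sm
    (fun o => by
      cases o with
      | none => exact SmJ.const 0
      | some k => exact hat_sm _ (hb0 k))
    ((SmJ.const 1).add (hat_sm _ fun p => (hQ p).sub contDiffOn_const)) (hat_sm _ hσ)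
    (fun ξ y => by
      rcases cases y with h | ⟨p, hp, rfl⟩
      · rw [hat_out _ _ _ h]; norm_num
      · rw [hat_in _ _ _ hp]
        have h1 := mul_nonneg (ρ01 ξ).1 (ζ01 p).1
        have h2 := mul_le_one₀ (ρ01 ξ).2 (ζ01 p).1 (ζ01 p).2
        have h3 := Q0 (B.t g p ξ)
        rcases h1.eq_or_lt with h4 | h4
        · rw [← mul_assoc, ← h4]; norm_num
        · nlinarith [mul_pos h4 h3])
    (fun ξ y => by
      rcases cases y with h | ⟨p, hp, rfl⟩
      · rw [hat_out _ _ _ h]; exact ⟨le_rfl, ha⟩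
      · rw [hat_in _ _ _ hp, ← mul_assoc]
        have h1 := mul_nonneg (ρ01 ξ).1 (ζ01 p).1
        have h2 := mul_le_one₀ (ρ01 ξ).2 (ζ01 p).1 (ζ01 p).2
        exact ⟨mul_nonneg h1 (σ0 _).1, (mul_le_of_le_one_left (σ0 _).1 h2).trans (σ0 _).2⟩)
    hu hε hK isOpen_interior hKρ
    (fun ξ y h => by
      rcases cases y with h1 | ⟨p, hp, rfl⟩
      · exact (h (hat_out _ _ _ h1)).elim
      · rw [hat_in _ _ _ hp] at h
        obtain ⟨x, ξ', h2, h3⟩ := hσK _ (right_ne_zero_of_mul (right_ne_zero_of_mul h))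
        rwa [← B.inj g x p ξ' (hKV h2) ξ (ρV ξ (left_ne_zero_of_mul h)) h3])
  obtain ⟨v, hv, hvt, hv0⟩ := B.sm_ext g (fun ξ p => ζ2 p * v' ξ (e p)) K'
    (smJ_pull (M := B.N.pad c) hx' hv' hζ2.sm (hζ2U.trans hUe)) hK' (hK'V.trans hV1)
    fun ξ p h => hv'K ξ _ (right_ne_zero_of_mul h)
  refine ⟨v, hv, ⟨K', hK', hK'V.trans hV1, fun z hz => ?_⟩, fun z => ?_, fun z hz hO => ?_⟩
  · obtain ⟨x, ξ, hξ, rfl⟩ := (hv0 z).resolve_right hz
    rw [hvt x ξ hξ] at hz
    exact ⟨x, ξ, hv'K ξ _ (right_ne_zero_of_mul hz), rfl⟩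
  · rcases hv0 z with ⟨x, ξ, hξ, rfl⟩ | h
    · rw [hvt x ξ hξ]
      have h1 := mul_nonneg (ζ201 x).1 (hv'0 ξ (e x)).1
      have h2 := mul_le_of_le_one_left (hv'0 ξ (e x)).1 (ζ201 x).2
      exact ⟨h1, (pow_le_pow_left₀ (by linarith) (by linarith) 2).trans (hv'0 ξ (e x)).2⟩
    · rw [h]; exact ⟨le_rfl, by linarith⟩
  · obtain ⟨x, ξ, hξ, rfl⟩ := hO
    have hxD := hΩD x ξ hξ hz
    obtain ⟨N', hch, hN', hfib⟩ := st.fib g ξ hξ
    have hX : ∀ a, SmA B.ch ((st.S 0).X v (vv (st.S 0) v) a) := fun a =>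
      (smJ_X st.smD (SmJ.of_smA hv) a).slice (mem_univ 0)
    rw [dfc_transport (M := N') (φ := fun y => B.t g y ξ) (w := fun y => ζ2 y * v' ξ (e y))
      (b' := fun a y => st.b 0 a (B.t g y ξ)) (Q' := fun y => Q (B.t g y ξ))
      (σ' := fun y => σ (B.t g y ξ)) u0 (Eventually.of_forall fun y a => hfib v hv a y)
      (fun a => hfib _ (hX a) a x) (Eventually.of_forall fun y => hvt y ξ hξ) (fun _ => rfl) rfl
      rfl]
    by_cases h1 : ξ ∈ interior {ξ | ρ ξ = 1}
    · have hloc : ∀ y ∈ interior {p | ζ p = 1}, Loc (N'.pad c) (N ξ) e y := fun y hy => by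
        filter_upwards [isOpen_interior.mem_nhds hy] with q hq
        refine ⟨e.continuousAt (hUe hq), ?_⟩
        change up c (N'.x q) = xx ξ (e q)
        rw [hxx, hx q (hUe hq)]
        congr 1
        ext k
        simp only [hat_one _ ξ h1 q hq, sub_self, zero_mul, add_zero, hN']
      rw [← dfc_pad N' c, ← dfc_transport (S := (N ξ).pre) (φ := e) (v := v' ξ)
        (b := fun o => o.elim 0 fun k => hat (st.b 0 k) ξ)
        (Q := fun y => 1 + hat (fun z => Q z - 1) ξ y) (σ := hat σ ξ) u0 ?_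
        (fun a => ((hloc x (hDU hxD)).D_iso _ a).symm) ?_ (fun o => ?_) ?_
        (hat_one _ ξ h1 x (hDU hxD))]
      · exact hdfc ξ (e x)
      · filter_upwards [isOpen_interior.mem_nhds (hDU hxD)] with y hy a
        exact ((hloc y hy).D_iso _ a).symm
      · filter_upwards [eventually_nhdsSet_iff_forall.1 hζ21 x hxD] with y hy
        rw [hy, one_mul]
      · rw [hat_one _ ξ h1 x (hDU hxD)]; ring
      · cases o with
        | none => rfl
        | some k => exact hat_one _ ξ h1 x (hDU hxD)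
    · have h2 : (fun y => ζ2 y * v' ξ (e y)) = fun _ => 0 := funext fun y =>
        mul_eq_zero_of_right _ (by_contra fun h => h1 (hK'V (hv'K ξ _ h)))
      rw [h2, dfc_zero N' _ _ hu, abs_zero]
      · exact hε.le
      · by_contra h
        obtain ⟨x', ξ', h3, h4⟩ := hσK _ h
        exact h1 (B.inj g x' x ξ' (hKV h3) ξ hξ h4 ▸ hKρ h3)

end Crest.Agent.N222.A

end
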