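import Crest.Agent.N222.A.Basic

/-! # Row 222, part A: the pruned sources (helper64) -/

set_option autoImplicit false
set_option linter.dupNamespace false
open Filter Set
open scoped ContDiff

noncomputable section

namespace Crest.Agent.N222.A

namespace World

variable {n' s0 K0 : ℝ} {W : World n' s0 K0} {st : W.St} {M : W.G → W.Z → ℝ} {ρ0 c : ℝ}

theorem Mass.S_pos (h : W.Mass st M) (hc : 0 < c) (z : W.Z) : 0 < W.N M z + c :=
  add_pos_of_nonneg_of_pos (h.N_nonneg z) hc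

theorem Mass.sm_Qn (h : W.Mass st M) (hc : 0 < c) (g : W.G) : W.A.Sm (W.Qn c M g) :=
  W.A.mul (h.sm g) (Alg.inv (Alg.add_const h.sm_N c) (h.S_pos hc))

theorem Mass.su_Qn (h : W.Mass st M) (c : ℝ) (g : W.G) : W.Su g (W.Qn c M g) :=
  su_mono (h.su g) fun z hz => by simp [Qn, hz]

theorem Mass.Qn_nonneg (h : W.Mass st M) (hc : 0 < c) (g : W.G) (z : W.Z) : 0 ≤ W.Qn c M g z :=
  mul_nonneg (h.nn g z) (inv_nonneg.2 (h.S_pos hc z).le)

theorem sum_Qn (c : ℝ) (M : W.G → W.Z → ℝ) (z : W.Z) :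
    ∑ g, W.Qn c M g z = W.N M z * (W.N M z + c)⁻¹ := by
  simp only [Qn]
  rw [← Finset.sum_mul]; rfl

theorem Mass.sum_Qn_le (h : W.Mass st M) (hc : 0 < c) (z : W.Z) : ∑ g, W.Qn c M g z ≤ 1 := by
  rw [sum_Qn, ← div_eq_mul_inv, div_le_one (h.S_pos hc z)]; linarith

theorem sm_cutδ (W : World n' s0 K0) (ρ0 : ℝ) (g g' : W.G) :
    W.A.Sm fun z => cut (W.δ g g' z - 2 * (ρ0 + 1)) :=
  Alg.cut (Alg.sub_const (W.δ_sm g g') _)

theorem Mass.sm_Dn (h : W.Mass st M) (hc : 0 < c) (ρ0 : ℝ) (g : W.G) :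
    W.A.Sm (W.Dn ρ0 c M g) :=
  Alg.sum _ fun g' _ => W.A.mul (W.sm_cutδ ρ0 g g') (h.sm_Qn hc g')

theorem Mass.sm_wsrc (h : W.Mass st M) (hc : 0 < c) (ρ0 : ℝ) (g : W.G) :
    W.A.Sm fun z => cut (3 - 10 * W.Dn ρ0 c M g z) :=
  Alg.cut (Alg.const_sub 3 (Alg.smul 10 (h.sm_Dn hc ρ0 g)))

theorem Mass.mem_O_of_Qn (h : W.Mass st M) (hc : 0 < c) {g : W.G} {π : W.Pi}
    (h0 : W.Qn c M g (W.ev π) ≠ 0) : W.ev π ∈ W.O g := by
  by_contra hn
  exact h0 (W.su_out (h.su_Qn c g) (h.sm_Qn hc g) st π hn).1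

/-- the gradient of the far mass `Dn g` at a point of the chart of `g` -/
theorem Mass.gam_Dn (h : W.Mass st M) (hc : 0 < c) (ρ0 : ℝ) {g : W.G} {π : W.Pi} {I : ℝ}
    (hQ : (W.pt st π).Fi (W.Qn c M) I)
    (hδ : ∀ g', W.ev π ∈ W.O g' → (W.pt st π).Γ (W.δ g g') (W.δ g g') = 0) :
    (W.pt st π).Γ (W.Dn ρ0 c M g) (W.Dn ρ0 c M g) ≤ I := by
  have hD := h.sm_Dn hc ρ0 g
  have hI := hQ.nonneg
  have key := hQ.lin (h.sm_Qn hc) (fun g' => h.Qn_nonneg hc g' _) hD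
    (c := fun g' => cut (W.δ g g' (W.pt st π).p - 2 * (ρ0 + 1))) (B := 1)
    (fun g' => by rw [abs_of_nonneg (cut_nonneg _)]; exact cut_le_one _) (by
      have e := (W.pt st π).sum_left Finset.univ
        (F := fun g' z => cut (W.δ g g' z - 2 * (ρ0 + 1)) * W.Qn c M g' z)
        (fun g' _ => W.A.mul (W.sm_cutδ ρ0 g g') (h.sm_Qn hc g')) hD
      refine e.trans (Finset.sum_congr rfl fun g' _ => ?_)
      rw [(W.pt st π).mul (W.sm_cutδ ρ0 g g') (h.sm_Qn hc g') hD]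
      by_cases hO : W.ev π ∈ W.O g'
      · have h1 : HasDerivAt (fun t => cut (t - 2 * (ρ0 + 1)))
            (deriv cut (W.δ g g' (W.pt st π).p - 2 * (ρ0 + 1))) (W.δ g g' (W.pt st π).p) :=
          (hasDerivAt_cut _).comp_sub_const _ _
        rw [(W.pt st π).chain (φ := fun t => cut (t - 2 * (ρ0 + 1))) (W.δ_sm g g')
          (W.sm_cutδ ρ0 g g') hD h1, (W.pt st π).zero_left (W.δ_sm g g') hD (hδ g' hO)]
        ring
      · have h2 := (W.su_out (h.su_Qn c g') (h.sm_Qn hc g') st π hO).1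
        rw [W.pt_p, h2]; ring)
  have h3 := h.sum_Qn_le hc (W.pt st π).p
  nlinarith

/-- near generators are not pruned -/
theorem Mass.Dn_le (h : W.Mass st M) (hc : 0 < c) {g : W.G} {π : W.Pi}
    (hg : W.d g (W.ev π) < ρ0 + 1)
    (hδ : ∀ g', W.ev π ∈ W.O g' → W.δ g g' (W.ev π) ≤ W.d g (W.ev π) + W.d g' (W.ev π)) :
    W.Dn ρ0 c M g (W.ev π) ≤ W.Mf ρ0 M (W.ev π) * (W.N M (W.ev π) + c)⁻¹ := by
  rw [Dn, Mf, Finset.sum_mul]
  refine Finset.sum_le_sum fun g' _ => ?_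
  rw [mul_assoc]
  change _ ≤ _ * W.Qn c M g' (W.ev π)
  by_cases h0 : W.Qn c M g' (W.ev π) = 0
  · simp [h0]
  · refine mul_le_mul_of_nonneg_right (Real.smoothTransition.monotone ?_) (h.Qn_nonneg hc g' _)
    linarith [hδ g' (h.mem_O_of_Qn hc h0)]

/-- far generators are pruned -/
theorem Mass.le_Dn (h : W.Mass st M) (hc : 0 < c) {g : W.G} {π : W.Pi}
    (hg : 3 * ρ0 + 4 < W.d g (W.ev π))
    (hδ : ∀ g', W.ev π ∈ W.O g' → W.d g (W.ev π) - W.d g' (W.ev π) ≤ W.δ g g' (W.ev π)) :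
    (W.N M (W.ev π) - W.Mf ρ0 M (W.ev π)) * (W.N M (W.ev π) + c)⁻¹ ≤ W.Dn ρ0 c M g (W.ev π) := by
  have e : (W.N M (W.ev π) - W.Mf ρ0 M (W.ev π)) * (W.N M (W.ev π) + c)⁻¹
      = ∑ g', (1 - cut (W.d g' (W.ev π) - ρ0)) * W.Qn c M g' (W.ev π) := by
    have e1 : W.N M (W.ev π) - W.Mf ρ0 M (W.ev π)
        = ∑ g', (1 - cut (W.d g' (W.ev π) - ρ0)) * M g' (W.ev π) := by
      simp only [sub_mul, one_mul, Finset.sum_sub_distrib]; rfl
    rw [e1, Finset.sum_mul]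
    exact Finset.sum_congr rfl fun g' _ => by rw [mul_assoc]; rfl
  rw [e, Dn]
  refine Finset.sum_le_sum fun g' _ => ?_
  by_cases h0 : W.Qn c M g' (W.ev π) = 0
  · simp [h0]
  · refine mul_le_mul_of_nonneg_right ?_ (h.Qn_nonneg hc g' _)
    have h1 := hδ g' (h.mem_O_of_Qn hc h0)
    by_cases h2 : 1 ≤ W.d g' (W.ev π) - ρ0
    · rw [cut_one h2, sub_self]; exact cut_nonneg _
    · rw [cut_one (s := W.δ g g' (W.ev π) - 2 * (ρ0 + 1)) (by linarith [not_le.1 h2])]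
      linarith [cut_nonneg (W.d g' (W.ev π) - ρ0)]

end World

open World in
theorem src : SrcStmt := by
  intro n' s0 K0 W st M ρ0 c hn hc hok
  have h := hok.toMass
  have hw : ∀ s, cut s ^ 2 ≤ 1 := fun s => pow_le_one₀ (cut_nonneg s) (cut_le_one s)
  refine ⟨fun g => ⟨W.A.mul (Alg.pow (h.sm_wsrc hc ρ0 g) 2) (h.sm_Qn hc g),
    su_mono (h.su_Qn c g) fun z hz => by simp [World.src, hz], fun z =>
    ⟨mul_nonneg (sq_nonneg _) (h.Qn_nonneg hc g z),
      mul_le_of_le_one_left (h.Qn_nonneg hc g z) (hw _)⟩⟩, ?_⟩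
  filter_upwards [h.fi, W.init] with π hF hI
  obtain ⟨-, -, -, -, hδ⟩ := hI
  have hp := W.pt_p st π
  have hS := h.S_pos hc (W.ev π)
  have hN : (W.pt st π).Γ (W.N M) (W.N M) ≤ W.N M (W.pt st π).p * n' :=
    hF.total h.sm fun g => h.nn g _
  have hQ : (W.pt st π).Fi (W.Qn c M) (4 * n' / (W.N M (W.ev π) + c)) := by
    have h1 := hF.norm h.sm (fun g => h.nn g _) (S := fun z => W.N M z + c)
      (Alg.add_const h.sm_N c) (h.S_pos hc) (by change W.N M _ ≤ _; linarith) (by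
        rw [(W.pt st π).add_self h.sm_N (W.A.const c), (W.pt st π).const_right c h.sm_N,
          (W.pt st π).const_left c (W.A.const c)]
        change _ ≤ W.N M _ * n'
        linarith)
    rw [hp] at h1
    exact h1
  refine ⟨?_, hQ, by rw [hp] at hN; linarith, fun hf => ⟨fun g hg => ?_, fun h2 g hg => ?_⟩⟩
  · have hI0 := hQ.nonneg
    have c0 : 0 ≤ 100 * cc ^ 2 := by positivity
    have h1 := hQ.mul_sq (h.sm_Qn hc) (fun g => h.Qn_nonneg hc g _) (h.sm_wsrc hc ρ0)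
      (a := 1) (B := 100 * cc ^ 2 * (4 * n' / (W.N M (W.ev π) + c))) zero_le_one
      (fun g => hw _) (mul_nonneg c0 hI0) fun g hg => by
        rw [hp] at hg
        have hO := h.mem_O_of_Qn hc hg
        have h2 := h.gam_Dn hc ρ0 (g := g) hQ fun g' hO' =>
          le_antisymm ((hok.le π _ (W.δ_sm g g')).trans (hδ g g' hO hO').1.le)
            ((W.pt st π).nonneg (W.δ_sm g g'))
        have h3 : HasDerivAt (fun t => cut (3 - 10 * t))
            (deriv cut (3 - 10 * W.Dn ρ0 c M g (W.pt st π).p) * (-10))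
            (W.Dn ρ0 c M g (W.pt st π).p) := by
          have h4 : HasDerivAt (fun t : ℝ => 3 - 10 * t) (-10) (W.Dn ρ0 c M g (W.pt st π).p) := by
            simpa using ((hasDerivAt_id (W.Dn ρ0 c M g (W.pt st π).p)).const_mul 10).const_sub 3
          exact (hasDerivAt_cut _).comp _ h4
        rw [(W.pt st π).chain_self (φ := fun t => cut (3 - 10 * t)) (h.sm_Dn hc ρ0 g)
          (h.sm_wsrc hc ρ0 g) h3]
        refine mul_le_mul ?_ h2 ((W.pt st π).nonneg (h.sm_Dn hc ρ0 g)) c0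
        have := deriv_cut_sq_le (3 - 10 * W.Dn ρ0 c M g (W.pt st π).p)
        nlinarith
    refine h1.mono ?_
    have h5 := h.sum_Qn_le hc (W.pt st π).p
    have h6 := mul_le_of_le_one_right (mul_nonneg c0 hI0) h5
    have e : C1 * n' / (W.N M (W.ev π) + c) = 2 * 1 * (4 * n' / (W.N M (W.ev π) + c))
        + 8 * (100 * cc ^ 2 * (4 * n' / (W.N M (W.ev π) + c))) := by
      rw [C1]; ring
    rw [e]; linarith
  · by_cases h0 : W.Qn c M g (W.ev π) = 0
    · simp [World.src, h0]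
    · have hO := h.mem_O_of_Qn hc h0
      have h1 := h.Dn_le hc hg fun g' hO' => (hδ g g' hO hO').2.2
      have h2 : W.Mf ρ0 M (W.ev π) * (W.N M (W.ev π) + c)⁻¹ ≤ 1 / 10 := by
        rw [← div_eq_mul_inv, div_le_iff₀ hS]; linarith
      rw [World.src, cut_one (by linarith)]; ring
  · by_contra hn'
    have h0 : W.Qn c M g (W.ev π) ≠ 0 := fun h0 => by simp [World.src, h0] at hg
    have hO := h.mem_O_of_Qn hc h0
    have h1 := h.le_Dn hc (not_le.1 hn') fun g' hO' => (hδ g g' hO hO').2.1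
    have h3 : 3 / 10 ≤ (W.N M (W.ev π) - W.Mf ρ0 M (W.ev π)) * (W.N M (W.ev π) + c)⁻¹ := by
      rw [← div_eq_mul_inv, le_div_iff₀ hS]; linarith
    rw [World.src, cut_zero (by linarith)] at hg
    simp at hg

end Crest.Agent.N222.A

end
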