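import Crest.Agent.N222.A.Stage2

/-! # Row 222, part A: the stage lemma (helper11) -/

set_option autoImplicit false
set_option linter.dupNamespace false
open Filter Set

noncomputable section

namespace Crest.Agent.N222.A

namespace Stg

theorem exists_u0 {a b ε : ℝ} (ha : 0 < a) (hb : 0 < b) (hε : 0 < ε) :
    ∃ u : ℝ, 0 < u ∧ u * a + u ^ 2 * b ≤ ε := by
  refine ⟨min 1 (ε / (a + b)), by positivity, ?_⟩
  have h0 : 0 < min 1 (ε / (a + b)) := by positivity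
  have h1 := min_le_left 1 (ε / (a + b))
  have h2 := (le_div_iff₀ (by positivity)).1 (min_le_right 1 (ε / (a + b)))
  generalize min 1 (ε / (a + b)) = u at *
  nlinarith [mul_le_mul_of_nonneg_right h1 (mul_pos h0 hb).le]

theorem exists_cst (n' : ℝ) (k : ℕ) {ι T y Φ δ : ℝ} (hι : 0 < ι) (hT : 0 < T) (hy : 0 < y)
    (hy2 : y ≤ 1 / 2) (hn : 2 * n' ≤ ι * T) (hΦ : eta ι T y ≤ Φ) (hδ : 0 < δ) :
    ∃ C : Cst n' k, C.ι = ι ∧ C.s ^ 2 = T ∧ (C.r ^ 2)⁻¹ = eta ι T y ∧ (C.z ^ 2)⁻¹ = Φ ∧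
      C.Ys + k * C.dl ≤ 2 * y * T ∧ C.ε * (k * C.R) ≤ δ := by
  obtain ⟨s, hs, rfl⟩ : ∃ s : ℝ, 0 < s ∧ s ^ 2 = T := ⟨√T, Real.sqrt_pos.2 hT, Real.sq_sqrt hT.le⟩
  have c1 := one_le_cc
  have c0 : 0 < cc := by linarith
  have hη : ((y / (51 * cc * ι * s)) ^ 2)⁻¹ = eta ι (s ^ 2) y := by unfold eta; field_simp
  have η0 : 0 < eta ι (s ^ 2) y := by unfold eta; positivity
  have Φ0 : 0 < Φ := η0.trans_le hΦ
  obtain ⟨z, hz, hzΦ⟩ : ∃ z : ℝ, 0 < z ∧ (z ^ 2)⁻¹ = Φ :=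
    ⟨(√Φ)⁻¹, inv_pos.2 (Real.sqrt_pos.2 Φ0), by rw [inv_pow, inv_inv, Real.sq_sqrt Φ0.le]⟩
  have hzr : z ≤ y / (51 * cc * ι * s) := by
    rw [← hη, ← hzΦ, inv_le_inv₀ (by positivity) (by positivity)] at hΦ
    exact le_of_sq_le_sq hΦ (by positivity)
  obtain ⟨R, hR⟩ := exists_nat_gt (2 * s ^ 2 / (51 * ι * s ^ 3 * z))
  have R0 : (0 : ℝ) < R := lt_trans (by positivity) hR
  have hk : (k : ℝ) * (y * s ^ 2 / (k + 1)) ≤ y * s ^ 2 := by
    rw [← mul_div_assoc, div_le_iff₀ (by positivity)]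
    nlinarith [mul_pos hy (pow_pos hs 2)]
  have ε0 : 0 < δ / (k * R + 1) := by positivity
  obtain ⟨u, hu, hu2⟩ := exists_u0
    (a := 16 * ((1 + s ^ 2 / R) / 2 / (51 * ι * s ^ 3) * (z⁻¹) ^ 3))
    (b := (z⁻¹) ^ 2 * (1 / 4) / (2 * s ^ 2)) (by positivity) (by positivity) (half_pos ε0)
  refine ⟨⟨y / (51 * cc * ι * s), z, y * s ^ 2, y * s ^ 2 / (k + 1), ι, s, s ^ 2 / R, u,
    δ / (k * R + 1), R, hz, hzr, by positivity, by positivity, hι, hs, by positivity, hu, ε0,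
    by field_simp, ?_, by nlinarith [pow_pos hs 2], by field_simp, ?_, hn,
    le_of_eq_of_le (by ring) hu2⟩, rfl, rfl, hη, hzΦ, by dsimp only; linarith, ?_⟩
  · have e : y / (51 * cc * ι * s) * (102 * ι * s) = 2 * y / cc := by field_simp; norm_num
    rw [e, div_le_one c0]; linarith
  · rw [div_lt_iff₀ (by positivity)] at hR
    rw [div_div, div_le_div_iff₀ (by positivity) (by norm_num)]
    linarith
  · dsimp only
    rw [div_mul_eq_mul_div, div_le_iff₀ (by positivity)]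
    linarith

end Stg

open Stg in
/-- **STAGE** -/
theorem stage (hS : SlowStmt) : StageStmt := by
  intro n' s0 K0 W st M ι T y Φ δ σ j hn ok hι hT hy hy2 hnι hΦ hδ hσ hj
  obtain ⟨C, e1, e2, e3, e4, e5, e6⟩ := exists_cst n' (Fintype.card W.G) hι hT hy hy2 hnι hΦ hδ
  subst e1
  have h0 : SInv W C st M σ j (fun _ => 0) (st, fun _ _ => 0) := by
    refine ⟨fun _ => Nat.zero_le _, by simpa using ok, World.mass_zero st, World.Le.refl st,
      Eventually.of_forall fun π => ?_⟩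
    simp [Yf, tau, Real.sqrt_sq C.hdl.le, Hf_zero, mul_comm]
  obtain ⟨⟨st', Δ⟩, -, ok', ms, -, inv⟩ := rounds C.R (SInv W C st M σ j)
    (sinv_step W C st M σ j hS hn hσ hj) h0
  refine ⟨st', _, ok', fun g x => le_add_of_nonneg_right (ms.nn g x), ?_⟩
  filter_upwards [inv, hj] with π inv hj
  have σ0 : ∀ g, 0 ≤ σ g (W.ev π) := fun g => ((hσ g).2.2 _).1
  have τ1 := tau_le (c := fun _ => C.s ^ 2) C.hι C.hs (fun _ => le_rfl) (fun g => (hj.2.2 g).1)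
    σ0 hj.2.1 hj.1
  simp only [C.hR, Finset.sum_const, Finset.card_univ, nsmul_eq_mul] at inv
  rw [tau_const _ _ C.hs] at inv τ1
  rw [e2, e3] at inv
  generalize ((∑ g, j π g) / C.ι + ∑ g, σ g (W.ev π)) / 2 = τ at *
  have h1 : eta C.ι T y ≤ (Hf C.r C.z C.Ys (Yf C.dl (fun _ => T) σ Δ (W.ev π)) ^ 2)⁻¹ := by
    have h2 := C.hz.trans_le (le_Hf (Ys := C.Ys) C.hzr (Yf C.dl (fun _ => T) σ Δ (W.ev π)))
    rw [← e3]
    exact inv_anti₀ (by positivity) (pow_le_pow_left₀ h2.le (Hf_le C.hzr _) 2)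
  have h2 := mul_le_mul_of_nonneg_right h1 (show 0 ≤ 2 - τ by linarith)
  refine ⟨by linarith, ?_⟩
  rcases lt_or_ge (Yf C.dl (fun _ => T) σ Δ (W.ev π)) C.Ys with h | h
  · left
    have := sum_abs_le C.dl (fun _ => T) σ Δ (W.ev π)
    simp only [add_sub_cancel_left]
    linarith
  · right
    rw [Hf_top C.hYs h, e4] at inv
    have Φ0 : 0 ≤ Φ := by rw [← e4]; positivity
    have := mul_le_mul_of_nonneg_left (show 1 ≤ 2 - τ by linarith) Φ0
    linarith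

end Crest.Agent.N222.A

end
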