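import Crest.Agent.N222.A.Defs

/-! # Row 222, part A: calculus at a point, Fisher information, one step (helper72) -/

set_option autoImplicit false
set_option linter.dupNamespace false
open Filter Set
open scoped ContDiff

noncomputable section

namespace Crest.Agent.N222.A

variable {Z : Type} {A : Alg Z}

namespace Alg

variable {f h : Z → ℝ}

theorem comp' {φ : ℝ → ℝ} (hφ : ContDiff ℝ ∞ φ) (hf : A.Sm f) : A.Sm fun z => φ (f z) :=
  A.comp isOpen_univ hφ.contDiffOn (fun _ => mem_univ _) hf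

theorem smul (c : ℝ) (hf : A.Sm f) : A.Sm fun z => c * f z := A.mul (A.const c) hf

theorem mul_const (hf : A.Sm f) (c : ℝ) : A.Sm fun z => f z * c := A.mul hf (A.const c)

theorem div_const (hf : A.Sm f) (c : ℝ) : A.Sm fun z => f z / c := by
  simpa only [div_eq_mul_inv] using mul_const hf c⁻¹

theorem neg (hf : A.Sm f) : A.Sm fun z => -f z := by
  simpa only [neg_one_mul] using smul (-1) hf

theorem sub (hf : A.Sm f) (hh : A.Sm h) : A.Sm fun z => f z - h z := by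
  simpa only [sub_eq_add_neg] using A.add hf (neg hh)

theorem add_const (hf : A.Sm f) (c : ℝ) : A.Sm fun z => f z + c := A.add hf (A.const c)

theorem const_add (c : ℝ) (hf : A.Sm f) : A.Sm fun z => c + f z := A.add (A.const c) hf

theorem sub_const (hf : A.Sm f) (c : ℝ) : A.Sm fun z => f z - c := sub hf (A.const c)

theorem const_sub (c : ℝ) (hf : A.Sm f) : A.Sm fun z => c - f z := sub (A.const c) hf

theorem pow (hf : A.Sm f) (k : ℕ) : A.Sm fun z => f z ^ k :=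
  comp' (φ := fun t => t ^ k) (contDiff_id.pow k) hf

theorem sum {ι : Type} (s : Finset ι) {F : ι → Z → ℝ} (hF : ∀ i ∈ s, A.Sm (F i)) :
    A.Sm fun z => ∑ i ∈ s, F i z := by
  classical
  induction s using Finset.induction_on with
  | empty => simpa using A.const 0
  | insert a s ha ih =>
    simp only [Finset.sum_insert ha]
    exact A.add (hF a (Finset.mem_insert_self _ _))
      (ih fun i hi => hF i (Finset.mem_insert_of_mem hi))

theorem inv (hf : A.Sm f) (h0 : ∀ z, 0 < f z) : A.Sm fun z => (f z)⁻¹ :=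
  A.comp (φ := fun t => t⁻¹) (U := Ioi 0) isOpen_Ioi
    (contDiffOn_id.inv fun _ ht => ne_of_gt ht) h0 hf

theorem div (hf : A.Sm f) (hh : A.Sm h) (h0 : ∀ z, 0 < h z) : A.Sm fun z => f z / h z := by
  simpa only [div_eq_mul_inv] using A.mul hf (inv hh h0)

theorem sqrt (hf : A.Sm f) (h0 : ∀ z, 0 < f z) : A.Sm fun z => √(f z) :=
  A.comp (φ := fun t => √t) (U := Ioi 0) isOpen_Ioi
    (contDiffOn_id.sqrt fun _ ht => ne_of_gt ht) h0 hf

theorem exp (hf : A.Sm f) : A.Sm fun z => Real.exp (f z) := comp' Real.contDiff_exp hf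

theorem cut (hf : A.Sm f) : A.Sm fun z => cut (f z) := comp' Real.smoothTransition.contDiff hf

end Alg

theorem hasDerivAt_cut (s : ℝ) : HasDerivAt cut (deriv cut s) s :=
  ((Real.smoothTransition.contDiff (n := 1)).differentiable (by simp) s).hasDerivAt

theorem cut_nonneg (s : ℝ) : 0 ≤ cut s := Real.smoothTransition.nonneg s

theorem cut_le_one (s : ℝ) : cut s ≤ 1 := Real.smoothTransition.le_one s

theorem cut_zero {s : ℝ} (h : s ≤ 0) : cut s = 0 := Real.smoothTransition.zero_of_nonpos h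

theorem cut_one {s : ℝ} (h : 1 ≤ s) : cut s = 1 := Real.smoothTransition.one_of_one_le h

theorem deriv_cut_sq_le (s : ℝ) : deriv cut s ^ 2 ≤ cc ^ 2 :=
  sq_le_sq' (abs_le.1 (abs_deriv_cut_le s)).1 (abs_le.1 (abs_deriv_cut_le s)).2

/-- the cut-off is `cc`-Lipschitz -/
theorem abs_cut_sub_le (s t : ℝ) : |cut s - cut t| ≤ cc * |s - t| := by
  have := Convex.norm_image_sub_le_of_norm_deriv_le (f := cut) (s := univ) (C := cc) (x := t)
    (y := s) (fun x _ => (hasDerivAt_cut x).differentiableAt) (fun x _ => abs_deriv_cut_le x)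
    convex_univ (mem_univ _) (mem_univ _)
  simpa only [Real.norm_eq_abs] using this

namespace Pt

variable (T : Pt A) {f g h : Z → ℝ}

theorem const_left (c : ℝ) (hh : A.Sm h) : T.Γ (fun _ => c) h = 0 := by
  have := T.chain (f := h) (h := h) (φ := fun _ => c) (c := 0) hh (A.const c) hh
    (hasDerivAt_const _ _)
  simpa using this

theorem const_right (c : ℝ) (hh : A.Sm h) : T.Γ h (fun _ => c) = 0 := by
  rw [T.symm hh (A.const c), T.const_left c hh]

theorem smul_left (c : ℝ) (hf : A.Sm f) (hh : A.Sm h) :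
    T.Γ (fun z => c * f z) h = c * T.Γ f h := by
  rw [T.mul (A.const c) hf hh, T.const_left c hh]; ring

theorem smul_right (c : ℝ) (hf : A.Sm f) (hh : A.Sm h) :
    T.Γ h (fun z => c * f z) = c * T.Γ h f := by
  rw [T.symm hh (Alg.smul c hf), T.smul_left c hf hh, T.symm hf hh]

theorem neg_left (hf : A.Sm f) (hh : A.Sm h) : T.Γ (fun z => -f z) h = -T.Γ f h := by
  simpa only [neg_one_mul] using T.smul_left (-1) hf hh

theorem sub_left (hf : A.Sm f) (hg : A.Sm g) (hh : A.Sm h) :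
    T.Γ (fun z => f z - g z) h = T.Γ f h - T.Γ g h := by
  simp only [sub_eq_add_neg]
  rw [T.add hf (Alg.neg hg) hh, T.neg_left hg hh]

theorem add_right (hf : A.Sm f) (hg : A.Sm g) (hh : A.Sm h) :
    T.Γ h (fun z => f z + g z) = T.Γ h f + T.Γ h g := by
  rw [T.symm hh (A.add hf hg), T.add hf hg hh, T.symm hf hh, T.symm hg hh]

theorem sub_right (hf : A.Sm f) (hg : A.Sm g) (hh : A.Sm h) :
    T.Γ h (fun z => f z - g z) = T.Γ h f - T.Γ h g := by
  rw [T.symm hh (Alg.sub hf hg), T.sub_left hf hg hh, T.symm hf hh, T.symm hg hh]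

theorem mul_right (hf : A.Sm f) (hg : A.Sm g) (hh : A.Sm h) :
    T.Γ h (fun z => f z * g z) = f T.p * T.Γ h g + g T.p * T.Γ h f := by
  rw [T.symm hh (A.mul hf hg), T.mul hf hg hh, T.symm hf hh, T.symm hg hh]

theorem chain_right {φ : ℝ → ℝ} {c : ℝ} (hf : A.Sm f) (hφ : A.Sm fun z => φ (f z)) (hh : A.Sm h)
    (hd : HasDerivAt φ c (f T.p)) : T.Γ h (fun z => φ (f z)) = c * T.Γ h f := by
  rw [T.symm hh hφ, T.chain hf hφ hh hd, T.symm hf hh]

theorem chain_self {φ : ℝ → ℝ} {c : ℝ} (hf : A.Sm f) (hφ : A.Sm fun z => φ (f z))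
    (hd : HasDerivAt φ c (f T.p)) :
    T.Γ (fun z => φ (f z)) (fun z => φ (f z)) = c ^ 2 * T.Γ f f := by
  rw [T.chain hf hφ hφ hd, T.chain_right hf hφ hf hd]; ring

theorem sum_left {ι : Type} (s : Finset ι) {F : ι → Z → ℝ} (hF : ∀ i ∈ s, A.Sm (F i))
    (hh : A.Sm h) : T.Γ (fun z => ∑ i ∈ s, F i z) h = ∑ i ∈ s, T.Γ (F i) h := by
  classical
  induction s using Finset.induction_on with
  | empty => simpa using T.const_left 0 hh
  | insert a s ha ih =>
    have h2 : ∀ i ∈ s, A.Sm (F i) := fun i hi => hF i (Finset.mem_insert_of_mem hi)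
    simp only [Finset.sum_insert ha]
    rw [T.add (hF a (Finset.mem_insert_self _ _)) (Alg.sum s h2) hh, ih h2]

theorem sum_right {ι : Type} (s : Finset ι) {F : ι → Z → ℝ} (hF : ∀ i ∈ s, A.Sm (F i))
    (hh : A.Sm h) : T.Γ h (fun z => ∑ i ∈ s, F i z) = ∑ i ∈ s, T.Γ h (F i) := by
  rw [T.symm hh (Alg.sum s hF), T.sum_left s hF hh]
  exact Finset.sum_congr rfl fun i hi => T.symm (hF i hi) hh

theorem add_self (hf : A.Sm f) (hh : A.Sm h) :
    T.Γ (fun z => f z + h z) (fun z => f z + h z) = T.Γ f f + 2 * T.Γ f h + T.Γ h h := by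
  rw [T.add hf hh (A.add hf hh), T.add_right hf hh hf, T.add_right hf hh hh, T.symm hh hf]; ring

/-- the quadratic form is non negative -/
theorem quad (hf : A.Sm f) (hh : A.Sm h) (a b : ℝ) :
    0 ≤ a ^ 2 * T.Γ f f + 2 * a * b * T.Γ f h + b ^ 2 * T.Γ h h := by
  have h0 := T.nonneg (A.add (Alg.smul a hf) (Alg.smul b hh))
  rw [T.add_self (Alg.smul a hf) (Alg.smul b hh), T.smul_left a hf (Alg.smul a hf),
    T.smul_right a hf hf, T.smul_left a hf (Alg.smul b hh), T.smul_right b hh hf,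
    T.smul_left b hh (Alg.smul b hh), T.smul_right b hh hh] at h0
  linarith

/-- Cauchy-Schwarz -/
theorem cs (hf : A.Sm f) (hh : A.Sm h) : T.Γ f h ^ 2 ≤ T.Γ f f * T.Γ h h := by
  have := discrim_le_zero (a := T.Γ f f) (b := 2 * T.Γ f h) (c := T.Γ h h) fun x => by
    have := T.quad hf hh x 1
    nlinarith
  rw [discrim] at this
  nlinarith

theorem zero_left (hf : A.Sm f) (hh : A.Sm h) (h0 : T.Γ f f = 0) : T.Γ f h = 0 := by
  have := T.cs hf hh
  rw [h0, zero_mul] at this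
  exact pow_eq_zero_iff (two_ne_zero) |>.1 (le_antisymm this (sq_nonneg _))

theorem zero_right (hf : A.Sm f) (hh : A.Sm h) (h0 : T.Γ f f = 0) : T.Γ h f = 0 := by
  rw [T.symm hh hf, T.zero_left hf hh h0]

theorem add_self_le (hf : A.Sm f) (hh : A.Sm h) :
    T.Γ (fun z => f z + h z) (fun z => f z + h z) ≤ 2 * T.Γ f f + 2 * T.Γ h h := by
  have := T.quad hf hh 1 (-1)
  rw [T.add_self hf hh]; linarith

theorem mul_self (hf : A.Sm f) (hh : A.Sm h) :
    T.Γ (fun z => f z * h z) (fun z => f z * h z) =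
      f T.p ^ 2 * T.Γ h h + 2 * f T.p * h T.p * T.Γ f h + h T.p ^ 2 * T.Γ f f := by
  rw [T.mul hf hh (A.mul hf hh), T.mul_right hf hh hf, T.mul_right hf hh hh, T.symm hh hf]; ring

theorem mul_self_le (hf : A.Sm f) (hh : A.Sm h) :
    T.Γ (fun z => f z * h z) (fun z => f z * h z) ≤
      2 * f T.p ^ 2 * T.Γ h h + 2 * h T.p ^ 2 * T.Γ f f := by
  have := T.quad hf hh (h T.p) (-f T.p)
  rw [T.mul_self hf hh]; linarith

theorem bud_nonneg {l : List (Z → ℝ)} (hl : ∀ v ∈ l, A.Sm v) : 0 ≤ T.bud l :=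
  List.sum_nonneg fun x hx => by
    obtain ⟨v, hv, rfl⟩ := List.mem_map.1 hx
    exact T.nonneg (hl v hv)

theorem bud_cons (v : Z → ℝ) (l : List (Z → ℝ)) : T.bud (v :: l) = T.Γ v v + T.bud l := by
  simp [bud]

/-- subadditivity of the Fisher information -/
theorem fi_add {j k : ℝ} (hf : A.Sm f) (hh : A.Sm h) (f0 : 0 ≤ f T.p) (h0 : 0 ≤ h T.p)
    (j0 : 0 ≤ j) (k0 : 0 ≤ k) (hj : T.Γ f f ≤ j * f T.p) (hk : T.Γ h h ≤ k * h T.p) :
    T.Γ (fun z => f z + h z) (fun z => f z + h z) ≤ (j + k) * (f T.p + h T.p) := by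
  have h1 : T.Γ f h ^ 2 ≤ (j * h T.p) * (k * f T.p) :=
    (T.cs hf hh).trans ((mul_le_mul hj hk (T.nonneg hh) (mul_nonneg j0 f0)).trans_eq (by ring))
  have h2 : 2 * T.Γ f h ≤ j * h T.p + k * f T.p := by
    refine le_of_sq_le_sq ?_ (add_nonneg (mul_nonneg j0 h0) (mul_nonneg k0 f0))
    nlinarith [sq_nonneg (j * h T.p - k * f T.p)]
  rw [T.add_self hf hh]; nlinarith

variable {T} {G : Type} [Fintype G] {M M' : G → Z → ℝ} {I I' : ℝ}

theorem Fi.nonneg (hM : T.Fi M I) : 0 ≤ I := by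
  obtain ⟨j, hj, hs⟩ := hM
  exact (Finset.sum_nonneg fun g _ => (hj g).1).trans hs

theorem Fi.mono (hM : T.Fi M I) (hI : I ≤ I') : T.Fi M I' := by
  obtain ⟨j, hj, hs⟩ := hM
  exact ⟨j, hj, hs.trans hI⟩

theorem Fi.of_le {T' : Pt A} (hM : T.Fi M I) (hp : T'.p = T.p)
    (hle : ∀ g, T'.Γ (M g) (M g) ≤ T.Γ (M g) (M g)) : T'.Fi M I := by
  obtain ⟨j, hj, hs⟩ := hM
  exact ⟨j, fun g => ⟨(hj g).1, by rw [hp]; exact (hle g).trans (hj g).2⟩, hs⟩

theorem Fi.add (hM : T.Fi M I) (hM' : T.Fi M' I') (s : ∀ g, A.Sm (M g)) (s' : ∀ g, A.Sm (M' g))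
    (n : ∀ g, 0 ≤ M g T.p) (n' : ∀ g, 0 ≤ M' g T.p) :
    T.Fi (fun g z => M g z + M' g z) (I + I') := by
  obtain ⟨j, hj, hs⟩ := hM
  obtain ⟨k, hk, ht⟩ := hM'
  refine ⟨fun g => j g + k g, fun g => ⟨add_nonneg (hj g).1 (hk g).1,
    T.fi_add (s g) (s' g) (n g) (n' g) (hj g).1 (hk g).1 (hj g).2 (hk g).2⟩, ?_⟩
  rw [Finset.sum_add_distrib]; linarith

/-- A function whose differential at the point is `∑ c_g dM_g` with `|c_g| ≤ B`. -/
theorem Fi.lin (hM : T.Fi M I) (s : ∀ g, A.Sm (M g)) (n : ∀ g, 0 ≤ M g T.p) {H : Z → ℝ}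
    (hH : A.Sm H) {c : G → ℝ} {B : ℝ} (hc : ∀ g, |c g| ≤ B)
    (e : T.Γ H H = ∑ g, c g * T.Γ (M g) H) : T.Γ H H ≤ B ^ 2 * (∑ g, M g T.p) * I := by
  obtain ⟨j, hj, hs⟩ := hM
  have h0 := T.nonneg hH
  have h1 : (∑ g, c g * T.Γ (M g) H) ^ 2 ≤
      (∑ g, B ^ 2 * M g T.p) * ∑ g, j g * T.Γ H H := by
    refine Finset.sum_sq_le_sum_mul_sum_of_sq_le_mul _ (fun g _ => mul_nonneg (sq_nonneg _) (n g))
      (fun g _ => mul_nonneg (hj g).1 h0) fun g _ => ?_
    have a1 : c g ^ 2 ≤ B ^ 2 := sq_le_sq' (abs_le.1 (hc g)).1 (abs_le.1 (hc g)).2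
    have a2 : T.Γ (M g) H ^ 2 ≤ j g * M g T.p * T.Γ H H :=
      (T.cs (s g) hH).trans (mul_le_mul_of_nonneg_right (hj g).2 h0)
    rw [mul_pow]
    exact (mul_le_mul a1 a2 (sq_nonneg _) (sq_nonneg _)).trans_eq (by ring)
  rw [← e, ← Finset.mul_sum, ← Finset.sum_mul] at h1
  have h2 : 0 ≤ B ^ 2 * ∑ g, M g T.p := mul_nonneg (sq_nonneg _) (Finset.sum_nonneg fun g _ => n g)
  have hI : 0 ≤ I := (Finset.sum_nonneg fun g _ => (hj g).1).trans hs
  rcases h0.eq_or_lt with h | h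
  · rw [← h]; exact mul_nonneg h2 hI
  · refine le_of_mul_le_mul_right ?_ h
    calc T.Γ H H * T.Γ H H = T.Γ H H ^ 2 := by ring
      _ ≤ _ := h1
      _ ≤ B ^ 2 * (∑ g, M g T.p) * (I * T.Γ H H) :=
        mul_le_mul_of_nonneg_left (mul_le_mul_of_nonneg_right hs h.le) h2
      _ = _ := by ring

/-- the gradient of the total mass -/
theorem Fi.total (hM : T.Fi M I) (s : ∀ g, A.Sm (M g)) (n : ∀ g, 0 ≤ M g T.p) :
    T.Γ (fun z => ∑ g, M g z) (fun z => ∑ g, M g z) ≤ (∑ g, M g T.p) * I := by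
  have hs : A.Sm fun z => ∑ g, M g z := Alg.sum _ fun g _ => s g
  have := hM.lin s n hs (c := fun _ => 1) (B := 1) (fun _ => by simp)
    (by rw [T.sum_left _ (fun g _ => s g) hs]; simp)
  simpa using this

/-- multiplication by squares of cut-off functions -/
theorem Fi.mul_sq (hM : T.Fi M I) (s : ∀ g, A.Sm (M g)) (n : ∀ g, 0 ≤ M g T.p) {w : G → Z → ℝ}
    (sw : ∀ g, A.Sm (w g)) {a B : ℝ} (a0 : 0 ≤ a) (ha : ∀ g, w g T.p ^ 2 ≤ a) (hB0 : 0 ≤ B)
    (hB : ∀ g, M g T.p ≠ 0 → T.Γ (w g) (w g) ≤ B) :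
    T.Fi (fun g z => w g z ^ 2 * M g z) (2 * a * I + 8 * B * ∑ g, M g T.p) := by
  obtain ⟨j, hj, hs⟩ := hM
  have hI : 0 ≤ I := (Finset.sum_nonneg fun g _ => (hj g).1).trans hs
  refine ⟨fun g => 2 * w g T.p ^ 2 * j g + 8 * B * M g T.p, fun g => ⟨?_, ?_⟩, ?_⟩
  · have := (hj g).1; have := n g; positivity
  · have h1 := T.mul_self_le (Alg.pow (sw g) 2) (s g)
    have h2 := T.chain_self (φ := fun t => t ^ 2) (sw g) (Alg.pow (sw g) 2)
      (by simpa using hasDerivAt_pow 2 (w g T.p))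
    have h3 : M g T.p ^ 2 * T.Γ (w g) (w g) ≤ M g T.p ^ 2 * B := by
      by_cases h : M g T.p = 0
      · simp [h]
      · exact mul_le_mul_of_nonneg_left (hB g h) (sq_nonneg _)
    have h4 := mul_le_mul_of_nonneg_left (hj g).2 (sq_nonneg (w g T.p ^ 2))
    have h5 := mul_le_mul_of_nonneg_left h3 (sq_nonneg (w g T.p))
    rw [h2] at h1
    nlinarith
  · rw [Finset.sum_add_distrib, ← Finset.mul_sum]
    have : ∑ g, 2 * w g T.p ^ 2 * j g ≤ ∑ g, 2 * a * j g :=
      Finset.sum_le_sum fun g _ => mul_le_mul_of_nonneg_right (by linarith [ha g]) (hj g).1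
    rw [← Finset.mul_sum] at this
    nlinarith

/-- Normalisation: `S` is a positive function with `dS = d (∑ M)` and `∑ M ≤ S` at the point. -/
theorem Fi.norm (hM : T.Fi M I) (s : ∀ g, A.Sm (M g)) (n : ∀ g, 0 ≤ M g T.p) {S : Z → ℝ}
    (sS : A.Sm S) (S0 : ∀ z, 0 < S z) (hS : ∑ g, M g T.p ≤ S T.p)
    (hd : T.Γ S S ≤ (∑ g, M g T.p) * I) :
    T.Fi (fun g z => M g z * (S z)⁻¹) (4 * I / S T.p) := by
  have hI := hM.nonneg
  obtain ⟨j, hj, hs⟩ := hM
  have hp := S0 T.p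
  have g0 := T.nonneg sS
  refine ⟨fun g => 2 * j g / S T.p + 2 * M g T.p * T.Γ S S / S T.p ^ 3, fun g => ⟨?_, ?_⟩, ?_⟩
  · have := (hj g).1; have := n g; positivity
  · have h1 := T.mul_self_le (s g) (Alg.inv sS S0)
    have h2 := T.chain_self (φ := fun t => t⁻¹) sS (Alg.inv sS S0) (hasDerivAt_inv hp.ne')
    rw [h2] at h1
    refine h1.trans ?_
    have h4 := mul_le_mul_of_nonneg_left (hj g).2 (sq_nonneg (S T.p)⁻¹)
    have e : (2 * j g / S T.p + 2 * M g T.p * T.Γ S S / S T.p ^ 3) * (M g T.p * (S T.p)⁻¹)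
        = 2 * M g T.p ^ 2 * ((-(S T.p ^ 2)⁻¹) ^ 2 * T.Γ S S)
          + 2 * ((S T.p)⁻¹ ^ 2 * (j g * M g T.p)) := by
      field_simp; ring
    rw [e]; linarith
  · rw [Finset.sum_add_distrib, ← Finset.sum_div, ← Finset.sum_div, ← Finset.mul_sum,
      ← Finset.sum_mul, ← Finset.mul_sum]
    have m0 : 0 ≤ ∑ g, M g T.p := Finset.sum_nonneg fun g _ => n g
    have h1 : 2 * (∑ g, j g) / S T.p ≤ 2 * I / S T.p :=
      div_le_div_of_nonneg_right (by linarith) hp.le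
    have h2 : 2 * (∑ g, M g T.p) * T.Γ S S / S T.p ^ 3 ≤ 2 * I / S T.p := by
      rw [div_le_div_iff₀ (by positivity) hp]
      have a1 : (∑ g, M g T.p) * T.Γ S S ≤ S T.p * (S T.p * I) :=
        mul_le_mul hS (hd.trans (mul_le_mul_of_nonneg_right hS hI)) g0 hp.le
      nlinarith [mul_le_mul_of_nonneg_right a1 hp.le]
    have : 4 * I / S T.p = 2 * I / S T.p + 2 * I / S T.p := by ring
    linarith

end Pt

/-- Run `R` rounds over all generators. -/
theorem rounds {G : Type} {α : Type*} [Fintype G] [DecidableEq G] (R : ℕ) (P : (G → ℕ) → α → Prop)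
    (step : ∀ t a g, t g < R → P t a → ∃ a', P (Function.update t g (t g + 1)) a')
    {a0 : α} (h0 : P (fun _ => 0) a0) : ∃ a, P (fun _ => R) a := by
  have key : ∀ (k : ℕ) (t : G → ℕ), (∀ g, t g ≤ R) → ∑ g, t g = k → ∃ a, P t a := by
    intro k
    induction k with
    | zero =>
      intro t _ hs
      have : t = fun _ => 0 := funext fun g =>
        (Finset.sum_eq_zero_iff.1 hs) g (Finset.mem_univ g)
      exact ⟨a0, this ▸ h0⟩
    | succ k ih =>
      intro t ht hs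
      obtain ⟨g, -, hg⟩ := Finset.exists_ne_zero_of_sum_ne_zero (s := Finset.univ) (f := t)
        (by omega)
      have h1 := Finset.add_sum_erase Finset.univ t (Finset.mem_univ g)
      have h2 := ht g
      obtain ⟨a, ha⟩ := ih (Function.update t g (t g - 1))
        (fun g' => by
          by_cases h : g' = g
          · subst h; rw [Function.update_self]; omega
          · rw [Function.update_of_ne h]; exact ht g')
        (by rw [Finset.sum_update_of_mem (Finset.mem_univ g), Finset.sdiff_singleton_eq_erase]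
            omega)
      obtain ⟨a', ha'⟩ := step _ a g (by rw [Function.update_self]; omega) ha
      rw [Function.update_self, Function.update_idem, show t g - 1 + 1 = t g by omega,
        Function.update_eq_self] at ha'
      exact ⟨a', ha'⟩
  exact key _ _ (fun _ => le_rfl) rfl

/-- adding the mass `v² / 4` to the generator `g` -/
def upd {G : Type} [DecidableEq G] (M : G → Z → ℝ) (g : G) (v : Z → ℝ) (g' : G) (z : Z) : ℝ :=
  M g' z + if g' = g then v z ^ 2 / 4 else 0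

theorem sum_upd {G : Type} [Fintype G] [DecidableEq G] (c : G → ℝ) (M : G → Z → ℝ) (g : G)
    (v : Z → ℝ) (z : Z) : ∑ g', c g' * upd M g v g' z = ∑ g', c g' * M g' z + c g * (v z ^ 2 / 4) := by
  simp [upd, mul_add, Finset.sum_add_distrib]

namespace World

variable {n' s0 K0 : ℝ} {W : World n' s0 K0}

theorem Le.refl (st : W.St) : W.Le st st := fun _ _ _ => le_rfl

theorem Le.trans {a b c : W.St} (h : W.Le a b) (h' : W.Le b c) : W.Le a c :=
  fun π f hf => (h' π f hf).trans (h π f hf)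

theorem su_mono {g : W.G} {f k : W.Z → ℝ} (hf : W.Su g f) (h : ∀ z, f z = 0 → k z = 0) :
    W.Su g k := W.su_of hf hf fun z h1 _ => h z h1

theorem su_zero (g : W.G) : W.Su g fun _ => 0 := su_mono (W.χ_su g) fun _ _ => rfl

theorem mass_zero (st : W.St) : W.Mass st fun _ _ => 0 where
  sm _ := W.A.const 0
  su := su_zero
  nn _ _ := le_rfl
  fis T := ⟨fun _ => 0, fun _ => ⟨le_rfl, by rw [T.const_left 0 (W.A.const 0)]; simp⟩,
    by simpa using T.bud_nonneg (W.vs_sm st)⟩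

theorem ok_zero : W.Ok W.st0 fun _ _ => 0 := ⟨mass_zero _, Le.refl _⟩

theorem Mass.upd {st st' : W.St} {M : W.G → W.Z → ℝ} (h : W.Mass st M) {g : W.G} {v : W.Z → ℝ}
    (hv : W.A.Sm v) (su : W.Su g v) (e : W.vs st' = v :: W.vs st) : W.Mass st' (upd M g v) := by
  have s1 : ∀ g', W.A.Sm fun z => if g' = g then v z ^ 2 / 4 else 0 := fun g' => by
    by_cases hg : g' = g
    · simpa only [if_pos hg] using Alg.div_const (Alg.pow hv 2) 4
    · simpa only [if_neg hg] using W.A.const 0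
  have n1 : ∀ g' z, 0 ≤ if g' = g then v z ^ 2 / 4 else 0 := fun g' z => by
    split_ifs <;> positivity
  refine ⟨fun g' => W.A.add (h.sm g') (s1 g'), fun g' => ?_,
    fun g' z => add_nonneg (h.nn g' z) (n1 g' z), fun T => ?_⟩
  · by_cases hg : g' = g
    · subst hg
      exact W.su_of (h.su g') su fun z h1 h2 => by simp [A.upd, h1, h2]
    · exact su_mono (h.su g') fun z h1 => by simp [A.upd, h1, hg]
  · have f1 : T.Fi (fun g' z => if g' = g then v z ^ 2 / 4 else 0) (T.Γ v v) := by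
      refine ⟨fun g' => if g' = g then T.Γ v v else 0, fun g' => ?_, by simp⟩
      by_cases hg : g' = g
      · simp only [if_pos hg]
        refine ⟨T.nonneg hv, le_of_eq ?_⟩
        rw [T.chain_self (φ := fun t => t ^ 2 / 4) hv (Alg.div_const (Alg.pow hv 2) 4)
          ((hasDerivAt_pow 2 (v T.p)).div_const 4)]
        simp; ring
      · simp only [if_neg hg]
        exact ⟨le_rfl, by rw [T.const_left 0 (W.A.const 0)]; simp⟩
    have := (h.fis T).add f1 h.sm s1 (fun g' => h.nn g' _) fun g' => n1 g' _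
    rw [e, T.bud_cons, add_comm]
    exact this

theorem Mass.sm_N {st : W.St} {M : W.G → W.Z → ℝ} (h : W.Mass st M) : W.A.Sm (W.N M) :=
  Alg.sum _ fun g _ => h.sm g

theorem Mass.N_nonneg {st : W.St} {M : W.G → W.Z → ℝ} (h : W.Mass st M) (z : W.Z) :
    0 ≤ W.N M z := Finset.sum_nonneg fun g _ => h.nn g z

/-- the Fisher information of admissible masses -/
theorem Mass.fi {st : W.St} {M : W.G → W.Z → ℝ} (h : W.Mass st M) :
    ∀ᶠ π in W.L, (W.pt st π).Fi M n' :=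
  (W.budget st).mono fun π hπ => (h.fis (W.pt st π)).mono hπ

/-- One step at slow points.  `t = |dv|²` in the old metric. -/
theorem step (hS : SlowStmt) (st : W.St) (g : W.G) {Q σ a : W.Z → ℝ} {abar u0 ε : ℝ}
    (hQ : W.A.Sm Q) (hσ : W.A.Sm σ) (ha : W.A.Sm a) (Q0 : ∀ z, 0 < Q z)
    (σ0 : ∀ z, 0 ≤ σ z ∧ σ z ≤ abar) (su : W.Su g σ) (hu : 0 < u0) (hε : 0 < ε) :
    ∃ (v : W.Z → ℝ) (st' : W.St), W.A.Sm v ∧ W.Su g v ∧
      (∀ z, 0 ≤ v z ∧ (u0 + v z) ^ 2 ≤ u0 ^ 2 + 4 * abar) ∧ W.vs st' = v :: W.vs st ∧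
      W.Le st st' ∧
      (∀ π f h, W.A.Sm f → W.A.Sm h → (W.pt st' π).Γ f h = (W.pt st π).Γ f h
        - (W.pt st π).Γ v f * (W.pt st π).Γ v h / (1 + (W.pt st π).Γ v v)) ∧
      (∀ π f, W.A.Sm f → (W.pt st' π).Γ v f = (W.pt st π).Γ v f / (1 + (W.pt st π).Γ v v)) ∧
      ∀ᶠ π in W.L, (W.ev π ∉ W.O g → W.E st' π = W.E st π) ∧ (W.ev π ∈ W.O g → ∀ j, 0 ≤ j →
        (W.pt st π).Γ Q Q ≤ Q (W.ev π) ^ 3 / 64 → (W.pt st π).Γ σ σ ≤ j * σ (W.ev π) →
        W.E st π + slow (u0 + v (W.ev π)) (√(1 + (W.pt st π).Γ v v)) (Q (W.ev π)) (σ (W.ev π))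
          ((u0 + v (W.ev π)) ^ 2 / 4 - u0 ^ 2 / 4 - σ (W.ev π)) j (a (W.ev π))
          ((W.pt st π).Γ v a) - ε ≤ W.E st' π) := by
  obtain ⟨v, st', hv, suv, hb, hvs, hΓ, hE⟩ := W.oracle st g Q σ a abar u0 ε hQ hσ ha Q0 σ0 su hu hε
  refine ⟨v, st', hv, suv, hb, hvs, fun π f hf => ?_, hΓ, fun π f hf => ?_, hE.mono fun π hπ =>
    ⟨hπ.1, fun hO j j0 h1 h2 => ?_⟩⟩
  · have := (W.pt st π).nonneg hv
    have h2 : 0 ≤ (W.pt st π).Γ v f * (W.pt st π).Γ v f / (1 + (W.pt st π).Γ v v) :=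
      div_nonneg (mul_self_nonneg _) (by linarith)
    rw [hΓ π f f hf hf]; linarith
  · have := (W.pt st π).nonneg hv
    rw [hΓ π v f hv hf]; field_simp; ring
  · have h3 := hS W.Z W.A (W.pt st π) Q σ a v u0 j hQ hσ ha hv Q0 (fun z => (σ0 z).1)
      (fun z => (hb z).1) hu j0 (by rw [W.pt_p]; exact h1) (by rw [W.pt_p]; exact h2)
    rw [W.pt_p] at h3
    linarith [hπ.2 hO]

end World

end Crest.Agent.N222.A

end
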