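import Crest.Agent.N222.A.SmJ
import Crest.Agent.N222.A.Basic
import Crest.Agent.N222.F.Graph

/-! # Row 222, part A: the geometric instance of `World` (helper72) -/

set_option autoImplicit false
set_option linter.dupNamespace false
open Filter Set Topology Function
open scoped ContDiff

noncomputable section

namespace Crest.Agent.N222.A

variable {n : ℕ} (B : Base n)

/-- smooth functions on `Z` -/
def Base.alg : Alg B.Z where
  Sm := SmA B.ch
  const _ _ := contDiffOn_const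
  add hf hh p := (hf p).add (hh p)
  mul hf hh p := (hf p).mul (hh p)
  comp _ hφ hU hf p := hφ.comp (hf p) fun _ _ => hU _

/-- points -/
abbrev Base.Pi : Type := {s : ℝ // s ≠ 0} × B.Z

/-- small scales, points of `Ω` -/
def Base.L : Filter B.Pi := comap Subtype.val (𝓝[≠] (0 : ℝ)) ×ˢ 𝓟 B.Ω

theorem Base.ev_iff {P : B.Pi → Prop} : (∀ᶠ π in B.L, P π) ↔
    ∀ᶠ s in 𝓝[≠] (0 : ℝ), ∀ hs : s ≠ 0, ∀ z ∈ B.Ω, P (⟨s, hs⟩, z) := by
  rw [Base.L, eventually_prod_principal_iff, eventually_comap]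
  refine eventually_congr (Eventually.of_forall fun s => ⟨fun h hs => h ⟨s, hs⟩ rfl, ?_⟩)
  rintro h ⟨s', hs⟩ rfl
  exact h hs

variable {B}

theorem Base.ev_lt {F : ℝ → B.Z → ℝ} (hF : SmJ B.ch univ F) {c : ℝ} (h0 : ∀ z ∈ B.Ω, F 0 z < c) :
    ∀ᶠ s in 𝓝[≠] (0 : ℝ), ∀ z ∈ B.Ω, F s z < c :=
  (B.Ω_cpt.eventually_forall_of_forall_eventually fun z hz =>
    (hF.continuous B.mem).continuousAt.eventually_lt continuousAt_const (h0 z hz)).filter_mono
    nhdsWithin_le_nhds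

theorem Base.Su.ev {g : B.G} {f : B.Z → ℝ} (h : B.Su g f) {z : B.Z} (hz : z ∉ B.O g) :
    f =ᶠ[𝓝 z] fun _ => 0 := by
  obtain ⟨K, hK, hV, hf⟩ := h
  have h1 : z ∈ {z | ∃ x, ∃ ξ ∈ K, B.t g x ξ = z}ᶜ := fun ⟨x, ξ, hξ, e⟩ => hz ⟨x, ξ, hV hξ, e⟩
  filter_upwards [(B.closed g K hK hV).isOpen_compl.mem_nhds h1] with y hy
  by_contra h0
  exact hy (hf y h0)

namespace GSt

variable (st : GSt B)

theorem D_ev {s : ℝ} (hs : s ≠ 0) {f : B.Z → ℝ} {z : B.Z} (h : f =ᶠ[𝓝 z] fun _ => 0) (c : st.ι) :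
    (st.S s).D c f z = 0 := by
  obtain ⟨M, -, h2, -⟩ := st.imm s hs
  rw [← h2, Imm.D_congr h, Imm.D_const]

theorem gam_ev {s : ℝ} (hs : s ≠ 0) {f : B.Z → ℝ} {z : B.Z} (h : f =ᶠ[𝓝 z] fun _ => 0)
    (k : B.Z → ℝ) : (st.S s).gam f k z = 0 := by
  simp [Pre.gam, st.D_ev hs h]

/-- the point calculus of a state -/
def pt (π : B.Pi) : Pt B.alg where
  p := π.2
  Γ f h := (st.S π.1.1).gam f h π.2
  symm _ _ := by simp [Pre.gam, mul_comm]
  add {f g h} hf hg _ := by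
    obtain ⟨M, h1, h2, -⟩ := st.imm π.1.1 π.1.2
    have sm : ∀ {f : B.Z → ℝ}, SmA B.ch f → M.Sm f := fun hf => by rw [Imm.Sm, h1]; exact hf
    simp only [← h2, Imm.gam_apply, Imm.D_add ((sm hf).diffAt _) ((sm hg).diffAt _), add_mul,
      Finset.sum_add_distrib]
  mul {f g h} hf hg _ := by
    obtain ⟨M, h1, h2, -⟩ := st.imm π.1.1 π.1.2
    have sm : ∀ {f : B.Z → ℝ}, SmA B.ch f → M.Sm f := fun hf => by rw [Imm.Sm, h1]; exact hf
    simp only [← h2, Imm.gam_apply, Imm.D_mul ((sm hf).diffAt _) ((sm hg).diffAt _),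
      Finset.mul_sum, ← Finset.sum_add_distrib]
    exact Finset.sum_congr rfl fun _ _ => by ring
  chain {f h φ c} hf _ _ hd := by
    obtain ⟨M, h1, h2, -⟩ := st.imm π.1.1 π.1.2
    have sm : ∀ {f : B.Z → ℝ}, SmA B.ch f → M.Sm f := fun hf => by rw [Imm.Sm, h1]; exact hf
    simp only [← h2, Imm.gam_apply, Imm.D_comp ((sm hf).diffAt _) hd, Finset.mul_sum, mul_assoc]
  nonneg _ := by
    simp only [Pre.gam, Finset.sum_apply, Pi.mul_apply]
    exact Finset.sum_nonneg fun _ _ => mul_self_nonneg _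

theorem smJ_bud (l : List (B.Z → ℝ)) (hl : ∀ v ∈ l, SmA B.ch v) :
    SmJ B.ch univ fun s z => (l.map fun v => (st.S s).gam v v z).sum := by
  induction l with
  | nil => simpa using SmJ.const 0
  | cons v l ih =>
    simp only [List.map_cons, List.sum_cons]
    have hv := SmJ.of_smA (V := (univ : Set ℝ)) (hl v List.mem_cons_self)
    exact (smJ_gam st.smD hv hv).add (ih fun w hw => hl w (List.mem_cons_of_mem _ hw))

theorem bud_zero {z : B.Z} (hz : z ∈ B.Ω) :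
    (st.vs.map fun v => (st.S 0).gam v v z).sum ≤ n := by
  obtain ⟨g, x, ξ, hξ, rfl⟩ := B.Ω_cover z hz
  obtain ⟨N', -, h2, h3⟩ := st.fib g ξ hξ
  refine (st.vs_le (fun v => (st.S 0).gam v v (B.t g x ξ)) fun f => ?_).trans (le_of_eq ?_)
  · simp only [Pre.gam, Finset.sum_apply, Pi.mul_apply]
    exact Finset.sum_nonneg fun _ _ => mul_self_nonneg _
  · rw [← N'.tr_P x]
    refine Finset.sum_congr rfl fun c _ => ?_
    have e : (fun y => (st.S 0).x c (B.t g y ξ)) = N'.pre.x c := funext fun y => (h2 c y).symm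
    have h4 := congrFun (N'.tan_D (N'.pre.x c) c) x
    simp only [Finset.sum_apply, Pi.mul_apply] at h4
    simp only [Pre.gam, Finset.sum_apply, Pi.mul_apply, h3 _ (st.smx c), e]
    refine Eq.trans (Finset.sum_congr rfl fun a _ => ?_) h4
    rw [N'.P_symm c a]; rfl

theorem budget : ∀ᶠ π in B.L, (st.pt π).bud st.vs ≤ n + 1 :=
  B.ev_iff.2 ((Base.ev_lt (st.smJ_bud st.vs st.vs_sm) (c := n + 1) fun _ hz =>
    (st.bud_zero hz).trans_lt (lt_add_one _)).mono fun _ h _ z hz => (h z hz).le)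

theorem step_gam {s : ℝ} (hs : s ≠ 0) (v f h : B.Z → ℝ) (z : B.Z) :
    (stepS (st.S s) v).gam f h z = (st.S s).gam f h z
      - (st.S s).gam v f z * (st.S s).gam v h z / (1 + (st.S s).gam v v z) := by
  obtain ⟨M, -, h2, -⟩ := st.imm s hs
  borelize B.Z
  have e : ∀ k, M.pre.dir (M.Xf v) k z = M.vv v z * M.pre.gam v k z := fun k => by
    simp [Pre.dir, Pre.gam, Imm.Xf_apply, Finset.mul_sum, mul_assoc]
  have h3 := M.gS_gam v f h z
  have h4 := M.vv_sq v z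
  have h5 := one_add_gam_pos M.pre v z
  rw [e, e] at h3
  rw [← h2]
  refine h3.trans ?_
  rw [sub_right_inj, eq_div_iff h5.ne']
  linear_combination (M.pre.gam v f z * M.pre.gam v h z) * h4

theorem dfc_ev {s : ℝ} (hs : s ≠ 0) {Q σ v : B.Z → ℝ} {u0 : ℝ} (hu : 0 < u0) {z : B.Z}
    (h : v =ᶠ[𝓝 z] fun _ => 0) (h0 : σ z = 0) : dfc (st.S s) (st.b s) Q σ v u0 z = 0 := by
  have hX : ∀ c, (st.S s).X v (vv (st.S s) v) c =ᶠ[𝓝 z] fun _ => 0 := fun c =>
    (eventually_eventually_nhds.2 h).mono fun y hy => by simp [Pre.X, st.D_ev hs hy]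
  have h1 : v z = 0 := h.self_of_nhds
  have h2 : u0 ^ 2 / 4 / (u0 ^ 2 / 4) = 1 := div_self (by positivity)
  simp [dfc, vv, beta, Pre.hb, Pre.dv, st.gam_ev hs h, st.D_ev hs (hX _), (hX _).self_of_nhds, h1,
    h0, h2]

end GSt

theorem gen_trivial (U a : ℝ) : gen U 1 0 0 a 0 = 0 := by simp [gen]

/-- one step, with the estimate for `E` -/
theorem geo_step (hG : GenStmt) (hS : SolStmt) (hN : NextStmt) (st : GSt B) (g : B.G)
    {Q σ a : B.Z → ℝ} {abar u0 ε : ℝ} (hQ : SmA B.ch Q) (hσ : SmA B.ch σ) (ha : SmA B.ch a)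
    (Q0 : ∀ z, 0 < Q z) (σ0 : ∀ z, 0 ≤ σ z ∧ σ z ≤ abar) (su : B.Su g σ) (hu : 0 < u0)
    (hε : 0 < ε) : ∃ (v : B.Z → ℝ) (st' : GSt B), SmA B.ch v ∧ B.Su g v ∧
      (∀ z, 0 ≤ v z ∧ (u0 + v z) ^ 2 ≤ u0 ^ 2 + 4 * abar) ∧ st'.vs = v :: st.vs ∧
      (∀ s ≠ 0, ∀ f h z, (st'.S s).gam f h z = (st.S s).gam f h z
        - (st.S s).gam v f z * (st.S s).gam v h z / (1 + (st.S s).gam v v z)) ∧
      (∀ s ≠ 0, ∀ z, z ∉ B.O g → (st.S s).Eb (st.b s) z ≤ (st'.S s).Eb (st'.b s) z) ∧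
      ∀ᶠ s in 𝓝[≠] (0 : ℝ), ∀ z ∈ B.Ω, (st.S s).Eb (st.b s) z
        + gen (u0 + v z) (√(1 + (st.S s).gam v v z)) (beta Q σ v u0 z)
          ((st.S s).gam v (beta Q σ v u0) z / √(1 + (st.S s).gam v v z)) (a z)
          ((st.S s).gam v a z / √(1 + (st.S s).gam v v z)) - ε ≤ (st'.S s).Eb (st'.b s) z := by
  obtain ⟨Ca, hCa⟩ := B.Ω_cpt.exists_bound_of_continuousOn
    (((SmJ.of_smA (V := (univ : Set ℝ)) ha).continuous B.mem).comp
      (Continuous.prodMk_right (0 : ℝ))).continuousOn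
  set C : ℝ := 2 / u0 + |Ca| * (1 + u0 ^ 2 + 4 * |abar|) + 1 with hC
  have C0 : 0 < C := by positivity
  set e : ℝ := min 1 (ε / C) with he
  have e0 : 0 < e := lt_min one_pos (by positivity)
  obtain ⟨v, hv, suv, hb, hd⟩ := hS n B st g Q σ abar u0 (e / 2) hQ hσ Q0 σ0 su hu (by positivity)
  have v0 : ∀ z, 0 ≤ v z := fun z => (hb z).1
  obtain ⟨st', hvs, h'⟩ := hN n B st Q σ a v u0 hQ hσ ha hv v0 hu
  have key : ∀ s ≠ 0, ∀ z, (st.S s).Eb (st.b s) z
      + gen (u0 + v z) (√(1 + (st.S s).gam v v z)) (beta Q σ v u0 z)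
        ((st.S s).gam v (beta Q σ v u0) z / √(1 + (st.S s).gam v v z)) (a z)
        ((st.S s).gam v a z / √(1 + (st.S s).gam v v z))
      - ((2 / u0 + |a z| * (u0 + v z)) * |dfc (st.S s) (st.b s) Q σ v u0 z|
        + dfc (st.S s) (st.b s) Q σ v u0 z ^ 2) ≤ (st'.S s).Eb (st'.b s) z := fun s hs z => by
    obtain ⟨M, h1, h2, h3⟩ := st.imm s hs
    have sm : ∀ {f : B.Z → ℝ}, SmA B.ch f → M.Sm f := fun hf => by rw [Imm.Sm, h1]; exact hf
    have := (hG _ _ _ M (st.b s) Q σ a v u0 (fun c => sm ((st.smb c).slice (mem_univ s)))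
      (h2 ▸ h3) (sm hQ) (sm hσ) (sm ha) (sm hv) v0 hu).2 z
    rw [(h' s z).2]
    rwa [h2] at this
  have hJ : SmJ B.ch univ fun s => dfc (st.S s) (st.b s) Q σ v u0 :=
    smJ_dfc st.smD (SmJ.of_smA hv) st.smb (SmJ.of_smA hQ) (SmJ.of_smA hσ) hu fun _ _ p => v0 p
  have h0 : ∀ z ∈ B.Ω, dfc (st.S 0) (st.b 0) Q σ v u0 z ^ 2 < e ^ 2 := fun z hz => by
    by_cases hO : z ∈ B.O g
    · have := abs_le.1 (hd z hz hO)
      nlinarith
    · have h1 : Continuous fun s => dfc (st.S s) (st.b s) Q σ v u0 z :=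
        (hJ.continuous B.mem).comp (Continuous.prodMk_left z)
      have h2 : (fun s => dfc (st.S s) (st.b s) Q σ v u0 z) =ᶠ[𝓝[≠] (0 : ℝ)] fun _ => 0 :=
        eventually_nhdsWithin_of_forall fun s hs =>
          st.dfc_ev hs hu (suv.ev hO) (su.ev hO).self_of_nhds
      have h3 : dfc (st.S 0) (st.b 0) Q σ v u0 z = 0 :=
        tendsto_nhds_unique (h1.continuousAt.tendsto.mono_left nhdsWithin_le_nhds)
          (tendsto_const_nhds.congr' h2.symm)
      rw [h3]; nlinarith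
  refine ⟨v, st', hv, suv, hb, hvs, fun s hs f h z => ?_, fun s hs z hO => ?_, ?_⟩
  · rw [(h' s z).1, st.step_gam hs]
  · have h1 := key s hs z
    have h2 : beta Q σ v u0 z = 0 := by
      have h2 : u0 ^ 2 / 4 / (u0 ^ 2 / 4) = 1 := div_self (by positivity)
      simp [beta, (suv.ev hO).self_of_nhds, (su.ev hO).self_of_nhds, h2]
    simpa [st.gam_ev hs (suv.ev hO), st.dfc_ev hs hu (suv.ev hO) (su.ev hO).self_of_nhds, h2,
      gen_trivial] using h1
  · filter_upwards [Base.ev_lt (hJ.pow 2) h0, self_mem_nhdsWithin] with s h1 hs z hz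
    have h2 := key s hs z
    have h3 : |dfc (st.S s) (st.b s) Q σ v u0 z| ≤ e := abs_le_of_sq_le_sq (h1 z hz).le e0.le
    have h4 : |a z| ≤ |Ca| := (hCa z hz).trans (le_abs_self _)
    have h5 : u0 + v z ≤ 1 + u0 ^ 2 + 4 * |abar| := by
      nlinarith [(hb z).2, le_abs_self abar, sq_nonneg (u0 + v z - 1)]
    have h6 : |a z| * (u0 + v z) ≤ |Ca| * (1 + u0 ^ 2 + 4 * |abar|) :=
      mul_le_mul h4 h5 (by linarith [v0 z]) (abs_nonneg _)
    have h7 : (2 / u0 + |a z| * (u0 + v z)) * |dfc (st.S s) (st.b s) Q σ v u0 z| ≤ (C - 1) * e :=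
      mul_le_mul (by linarith) h3 (abs_nonneg _) (by rw [hC]; simp only [add_sub_cancel_right]; positivity)
    have h8 : e ^ 2 ≤ e := by nlinarith [min_le_left 1 (ε / C)]
    have h9 : C * e ≤ ε := by
      rw [mul_comm, ← le_div_iff₀ C0]; exact min_le_right _ _
    nlinarith [h1 z hz]

theorem a_of (hB : BookStmt) (hG : GenStmt) (hS : SolStmt) (hN : NextStmt) : AStmt := by
  intro n s0 K0 hs hK
  obtain ⟨ρ, I1, H⟩ := hB (n + 1) s0 K0 (by simp) hs hK
  refine ⟨ρ, I1, fun B st0 χ d δ hsm hin Λ hΛ => ?_⟩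
  classical
  let W : World (n + 1) s0 K0 :=
    { Z := B.Z
      A := B.alg
      G := B.G
      Pi := B.Pi
      L := B.L
      ev := Prod.snd
      O := B.O
      Su := B.Su
      St := {x : GSt B × (B.Pi → ℝ) //
        (∀ s ≠ 0, ∀ f z, (x.1.S s).gam f f z ≤ (st0.S s).gam f f z) ∧
          ∀ᶠ π in B.L, x.2 π ≤ (x.1.S π.1.1).Eb (x.1.b π.1.1) π.2}
      pt := fun x => x.1.1.pt
      pt_p := fun _ _ => rfl
      E := fun x => x.1.2
      vs := fun x => x.1.1.vs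
      vs_sm := fun x => x.1.1.vs_sm
      su_of := by
        rintro g f h k ⟨K, hK, hV, hf⟩ ⟨K', hK', hV', hh⟩ hk
        refine ⟨K ∪ K', hK.union hK', union_subset hV hV', fun z hz => ?_⟩
        by_cases h1 : f z = 0
        · obtain ⟨x, ξ, hξ, e⟩ := hh z fun h2 => hz (hk z h1 h2)
          exact ⟨x, ξ, Or.inr hξ, e⟩
        · obtain ⟨x, ξ, hξ, e⟩ := hf z h1
          exact ⟨x, ξ, Or.inl hξ, e⟩
      su_out := fun hf _ x π hπ => ⟨(hf.ev hπ).self_of_nhds, x.1.1.gam_ev π.1.2 (hf.ev hπ) _⟩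
      budget := fun x => x.1.1.budget
      χ := χ
      d := d
      δ := δ
      χ_sm := fun g => (hsm g).1
      d_sm := fun g => (hsm g).2.1
      δ_sm := fun g => (hsm g).2.2.1
      χ_su := fun g => (hsm g).2.2.2.1
      χ_mem := fun g => (hsm g).2.2.2.2
      st0 := ⟨(st0, fun π => (st0.S π.1.1).Eb (st0.b π.1.1) π.2), fun _ _ _ _ => le_rfl,
        Eventually.of_forall fun _ => le_rfl⟩
      init := B.ev_iff.2 (hin.mono fun _ h _ z hz => h z hz)
      oracle := by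
        rintro ⟨⟨st, e⟩, hle, he⟩ g Q σ a abar u0 ε hQ hσ ha Q0 σ0 su hu hε
        obtain ⟨v, st', hv, suv, hb, hvs, hΓ, hE, hE'⟩ :=
          geo_step hG hS hN st g hQ hσ ha Q0 σ0 su hu hε
        refine ⟨v, ⟨(st', fun π => if π.2 ∈ B.O g then (st'.S π.1.1).Eb (st'.b π.1.1) π.2 else e π),
          fun s hs f z => ?_, he.mono fun π hπ => ?_⟩, hv, suv, hb, hvs,
          fun π f h _ _ => hΓ π.1.1 π.1.2 f h π.2, ?_⟩
        · have h1 := one_add_gam_pos (st.S s) v z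
          have h2 : 0 ≤ (st.S s).gam v f z * (st.S s).gam v f z / (1 + (st.S s).gam v v z) :=
            div_nonneg (mul_self_nonneg _) h1.le
          have h3 := hΓ s hs f f z
          have h4 := hle s hs f z
          dsimp only at h4 ⊢
          linarith
        · dsimp only at hπ ⊢
          split_ifs with h
          · exact le_rfl
          · exact hπ.trans (hE _ π.1.2 _ h)
        · refine B.ev_iff.2 ?_
          filter_upwards [B.ev_iff.1 he, hE'] with s h1 h2 hs z hz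
          refine ⟨fun h => if_neg h, fun h => ?_⟩
          refine le_trans ?_ (le_of_eq (if_pos h).symm)
          exact le_trans (sub_le_sub_right (add_le_add_left (h1 hs z hz) _) _) (h2 z hz) }
  obtain ⟨⟨⟨st, e⟩, hle, he⟩, P, hP, hE⟩ := H W Λ hΛ
  refine ⟨st, P, hP, fun s hs f _ z => hle s hs f z, ?_⟩
  filter_upwards [B.ev_iff.1 (he.and hE), self_mem_nhdsWithin] with s h hs z hz
  obtain ⟨h0, h1, h2, I, h3, h4, h5⟩ := h hs z hz
  exact ⟨h1, h2, I, h3, h4, h5.trans h0⟩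

end Crest.Agent.N222.A

end
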