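import Crest.Agent.N222.A.Book
import Crest.Agent.N222.A.Slow
import Crest.Agent.N222.A.Phase0
import Crest.Agent.N222.A.Stage
import Crest.Agent.N222.A.Src
import Crest.Agent.N222.A.Iter
import Crest.Agent.N222.A.Out
import Crest.Agent.N222.A.Id
import Crest.Agent.N222.A.Gen
import Crest.Agent.N222.A.Next
import Crest.Agent.N222.A.World
import Crest.Agent.N222.A.Sol
import Crest.Agent.N222.A.Fam
import Crest.Agent.N222.A.F5
import Crest.Agent.N222.A.Fib2
import Crest.Agent.N222.B.Dbl
import Crest.Agent.N222.J.Main

/-! # Row 222, part A assembled (helper72) -/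

set_option autoImplicit false
set_option linter.dupNamespace false

namespace Crest.Agent.N222.A

theorem book : BookStmt :=
  book_of (phase0 slow_le) (half (stage slow_le)) (iter (stage slow_le) src) (out src)

theorem a_all : AStmt :=
  a_of book (gen_le id_step) (sol (fam (f5 J.perron' J.cont')) dbl) (next (gen_le id_step))

theorem af_all : AFStmt := af_of a_all

end Crest.Agent.N222.A
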