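import Crest.Agent.N222.A.Basic

/-! # Row 222, part A: assembly of the bookkeeping (helper72) -/

set_option autoImplicit false
set_option linter.dupNamespace false
open Filter Set

noncomputable section

namespace Crest.Agent.N222.A

theorem C1_pos : 0 < C1 := by unfold C1; positivity

theorem etaS_nonneg {n' nn : ℝ} (y : ℝ) (h : 0 < nn) : 0 ≤ etaS n' nn y := by
  unfold etaS eta; positivity

theorem etaS_eq (n' : ℝ) {nn : ℝ} (y : ℝ) (h : 0 < nn) :
    etaS n' nn y = 4 * (51 * cc * (100 * C1 * n') / y) ^ 2 / nn := by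
  unfold etaS eta; field_simp

theorem book_of (h0 : Phase0Stmt) (hH : HalfStmt) (hI : IterStmt) (hO : OutStmt) : BookStmt := by
  intro n' s0 K0 hn hs hK
  set B : ℝ := 4 * (51 * cc * (100 * C1 * n') / (1 / 1000)) ^ 2 with hB
  have B0 : 0 ≤ B := by positivity
  set N0 : ℝ := 16 * B / s0 + 1 with hN0
  have N0p : 0 < N0 := by positivity
  have hη : 16 * etaS n' N0 (1 / 1000) ≤ s0 := by
    rw [etaS_eq _ _ N0p, ← hB, ← mul_div_assoc, div_le_iff₀ N0p, hN0, mul_add,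
      mul_div_cancel₀ _ hs.ne']
    linarith
  have cc0 : 0 < cc := zero_lt_one.trans_le one_le_cc
  have hR : 0 < etaH n' K0 N0 := by unfold etaH eta; positivity
  obtain ⟨ρ0, hρ, H0⟩ := h0 n' s0 K0 N0 _ hn hs hK N0p hR
  obtain ⟨I1, C3, I0, C0, HO⟩ := hO n' K0 N0 hn hK N0p
  refine ⟨3 * ρ0 + 4, I1, fun W Λ hΛ => ?_⟩
  set Φ : ℝ := Λ * I1 + s0 with hΦ
  have Φ0 : 0 ≤ Φ := by positivity
  have key : ∀ k : ℕ, ∃ st M, W.Ok st M ∧
      W.Inv ρ0 (4 ^ k * N0) ((3 / 4) ^ k * (1 / 1000)) Φ st M := by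
    intro k
    induction k with
    | zero =>
      obtain ⟨st, M, ok, p0⟩ := H0 W (Φ + s0 + etaH n' K0 N0)
      simpa using hH n' s0 K0 W st M ρ0 N0 Φ hn hs hK hρ N0p Φ0 hη ok p0
    | succ k ih =>
      obtain ⟨st, M, ok, inv⟩ := ih
      have h1 : (3 / 4 : ℝ) ^ k ≤ 1 := pow_le_one₀ (by norm_num) (by norm_num)
      obtain ⟨st', M', ok', inv'⟩ := hI n' s0 K0 W st M ρ0 _ _ Φ hn hs (by positivity)
        (by positivity) (by linarith) Φ0 ok inv
      refine ⟨st', M', ok', ?_⟩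
      rw [pow_succ', pow_succ', mul_assoc, mul_assoc]
      exact inv'
  obtain ⟨k, hk⟩ := pow_unbounded_of_one_lt (4 * Λ * C3 / (s0 * N0)) (by norm_num : (1 : ℝ) < 4)
  obtain ⟨st, M, ok, inv⟩ := key k
  have h4 : (1 : ℝ) ≤ 4 ^ k := one_le_pow₀ (by norm_num)
  have nnp : 0 < 4 ^ k * N0 := by positivity
  obtain ⟨P, hP, HP⟩ := HO s0 W st M ρ0 (4 ^ k * N0) hρ (by nlinarith) ok
  refine ⟨st, P, hP, ?_⟩
  filter_upwards [inv, HP] with π h1 h2
  obtain ⟨e1, e2, I, f1, f2, f3⟩ := h2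
  refine ⟨e1, e2, I, f1, f2, ?_⟩
  have η0 := etaS_nonneg (n' := n') ((3 / 4) ^ k * (1 / 1000)) nnp
  rcases h1.2 with h | h
  · have := mul_le_mul_of_nonneg_left f2 hΛ
    linarith
  · have y0 : 0 ≤ 16 * ((3 / 4 : ℝ) ^ k * (1 / 1000)) * W.N M (W.ev π) :=
      mul_nonneg (by positivity) (ok.toMass.N_nonneg _)
    have h3 := mul_le_mul_of_nonneg_left (f3 h.1 (by linarith [h.2])) hΛ
    have h5 : Λ * (C3 / (4 ^ k * N0)) ≤ s0 / 4 := by
      rw [div_lt_iff₀ (by positivity)] at hk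
      rw [← mul_div_assoc, div_le_iff₀ nnp]
      linarith
    linarith [h1.1]

end Crest.Agent.N222.A

end
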