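import Mathlib

/-!
# Row 222, part A (helper72): the abstract bookkeeping.  FROZEN definitions and statements

`Alg Z` : a class of smooth functions.  `Pt A` : first order calculus at one point.
`World n' s0 K0` : states, points, an oracle for one Jang type step.  `BookStmt` : the stretch lemma.
See the team notes "h72-A-final-1/2" (row 222).
-/

set_option autoImplicit false
set_option linter.dupNamespace false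
open Filter Set
open scoped ContDiff

noncomputable section

namespace Crest.Agent.N222.A

/-- a class of smooth functions -/
structure Alg (Z : Type) where
  Sm : (Z → ℝ) → Prop
  const : ∀ c : ℝ, Sm fun _ => c
  add : ∀ {f h : Z → ℝ}, Sm f → Sm h → Sm fun z => f z + h z
  mul : ∀ {f h : Z → ℝ}, Sm f → Sm h → Sm fun z => f z * h z
  comp : ∀ {f : Z → ℝ} {φ : ℝ → ℝ} {U : Set ℝ}, IsOpen U → ContDiffOn ℝ ∞ φ U → (∀ z, f z ∈ U) →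
    Sm f → Sm fun z => φ (f z)

/-- first order calculus at the point `p`: `Γ f h = ⟨df, dh⟩` -/
structure Pt {Z : Type} (A : Alg Z) where
  p : Z
  Γ : (Z → ℝ) → (Z → ℝ) → ℝ
  symm : ∀ {f h : Z → ℝ}, A.Sm f → A.Sm h → Γ f h = Γ h f
  add : ∀ {f g h : Z → ℝ}, A.Sm f → A.Sm g → A.Sm h → Γ (fun z => f z + g z) h = Γ f h + Γ g h
  mul : ∀ {f g h : Z → ℝ}, A.Sm f → A.Sm g → A.Sm h →
    Γ (fun z => f z * g z) h = f p * Γ g h + g p * Γ f h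
  chain : ∀ {f h : Z → ℝ} {φ : ℝ → ℝ} {c : ℝ}, A.Sm f → A.Sm (fun z => φ (f z)) → A.Sm h →
    HasDerivAt φ c (f p) → Γ (fun z => φ (f z)) h = c * Γ f h
  nonneg : ∀ {f : Z → ℝ}, A.Sm f → 0 ≤ Γ f f

/-- Fisher information `∑ |dM_g|² / M_g ≤ I`, without division -/
def Pt.Fi {Z : Type} {A : Alg Z} (Q : Pt A) {G : Type} [Fintype G] (M : G → Z → ℝ) (I : ℝ) : Prop :=
  ∃ j : G → ℝ, (∀ g, 0 ≤ j g ∧ Q.Γ (M g) (M g) ≤ j g * M g Q.p) ∧ ∑ g, j g ≤ I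

/-- the trace budget `∑ |dv|²` -/
def Pt.bud {Z : Type} {A : Alg Z} (Q : Pt A) (l : List (Z → ℝ)) : ℝ :=
  (l.map fun v => Q.Γ v v).sum

/-- `β = Q (1 - (σ + p₀) / p)`, `p = (u₀ + v)² / 4`, `p₀ = u₀² / 4` -/
def beta {Z : Type} (Q σ v : Z → ℝ) (u0 : ℝ) (z : Z) : ℝ :=
  Q z * (1 - (σ z + u0 ^ 2 / 4) / ((u0 + v z) ^ 2 / 4))

/-- The gain of one step: `U = u₀ + v`, `W = √(1 + |dv|²)`, `Xb = ⟨dv, dβ⟩ / W`,
`Xa = ⟨dv, da⟩ / W`. -/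
def gen (U W b Xb a Xa : ℝ) : ℝ :=
  (1 - 1 / W ^ 2) * (1 - 1 / W) ^ 2 * (2 * W + 1) / U ^ 2 + b * (W - 1) + b ^ 2 * (U ^ 2 / 4)
    - 2 * a * b * (U ^ 2 / 4) / W + U * Xb - U * Xa / W + a * (1 - 1 / W ^ 2) ^ 2
    - a ^ 2 * (U ^ 2 / 4) * (1 - 1 / W ^ 2) * (2 - 1 / W ^ 2)

/-- The abstract setting of the stretch lemma. -/
structure World (n' s0 K0 : ℝ) where
  Z : Type
  A : Alg Z
  /-- generators -/
  G : Type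
  [fin : Fintype G]
  [dec : DecidableEq G]
  /-- points (a scale and a point of `Z`) -/
  Pi : Type
  L : Filter Pi
  ev : Pi → Z
  O : G → Set Z
  /-- supported in the chart of `g` -/
  Su : G → (Z → ℝ) → Prop
  St : Type 1
  pt : St → Pi → Pt A
  pt_p : ∀ st π, (pt st π).p = ev π
  E : St → Pi → ℝ
  vs : St → List (Z → ℝ)
  vs_sm : ∀ st, ∀ v ∈ vs st, A.Sm v
  su_of : ∀ {g : G} {f h k : Z → ℝ}, Su g f → Su g h → (∀ z, f z = 0 → h z = 0 → k z = 0) → Su g k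
  su_out : ∀ {g : G} {f : Z → ℝ}, Su g f → A.Sm f → ∀ st π, ev π ∉ O g →
    f (ev π) = 0 ∧ (pt st π).Γ f f = 0
  budget : ∀ st, ∀ᶠ π in L, (pt st π).bud (vs st) ≤ n'
  χ : G → Z → ℝ
  d : G → Z → ℝ
  δ : G → G → Z → ℝ
  χ_sm : ∀ g, A.Sm (χ g)
  d_sm : ∀ g, A.Sm (d g)
  δ_sm : ∀ g g', A.Sm (δ g g')
  χ_su : ∀ g, Su g (χ g)
  χ_mem : ∀ g z, 0 ≤ χ g z ∧ χ g z ≤ 1
  st0 : St
  init : ∀ᶠ π in L, s0 ≤ E st0 π ∧ ∑ g, χ g (ev π) = 1 ∧ (pt st0 π).Fi χ K0 ∧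
    (∀ g, ev π ∈ O g → (pt st0 π).Γ (d g) (d g) ≤ K0 ∧ (0 < χ g (ev π) → d g (ev π) ≤ 1)) ∧
    ∀ g g', ev π ∈ O g → ev π ∈ O g' → (pt st0 π).Γ (δ g g') (δ g g') = 0 ∧
      d g (ev π) - d g' (ev π) ≤ δ g g' (ev π) ∧ δ g g' (ev π) ≤ d g (ev π) + d g' (ev π)
  oracle : ∀ (st : St) (g : G) (Q σ a : Z → ℝ) (abar u0 ε : ℝ), A.Sm Q → A.Sm σ → A.Sm a →
    (∀ z, 0 < Q z) → (∀ z, 0 ≤ σ z ∧ σ z ≤ abar) → Su g σ → 0 < u0 → 0 < ε →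
    ∃ (v : Z → ℝ) (st' : St), A.Sm v ∧ Su g v ∧
      (∀ z, 0 ≤ v z ∧ (u0 + v z) ^ 2 ≤ u0 ^ 2 + 4 * abar) ∧ vs st' = v :: vs st ∧
      (∀ π f h, A.Sm f → A.Sm h → (pt st' π).Γ f h =
        (pt st π).Γ f h - (pt st π).Γ v f * (pt st π).Γ v h / (1 + (pt st π).Γ v v)) ∧
      ∀ᶠ π in L, (ev π ∉ O g → E st' π = E st π) ∧ (ev π ∈ O g →
        E st π + gen (u0 + v (ev π)) (√(1 + (pt st π).Γ v v)) (beta Q σ v u0 (ev π))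
          ((pt st π).Γ v (beta Q σ v u0) / √(1 + (pt st π).Γ v v)) (a (ev π))
          ((pt st π).Γ v a / √(1 + (pt st π).Γ v v)) - ε ≤ E st' π)

attribute [instance] World.fin World.dec

/-- **The stretch lemma** (bookkeeping part). -/
def BookStmt : Prop := ∀ n' s0 K0 : ℝ, 1 ≤ n' → 0 < s0 → 1 ≤ K0 → ∃ ρ I1 : ℝ,
  ∀ (W : World n' s0 K0) (Λ : ℝ), 0 ≤ Λ → ∃ (st : W.St) (P : W.G → W.Z → ℝ),
    (∀ g, W.A.Sm (P g) ∧ W.Su g (P g) ∧ ∀ z, 0 ≤ P g z) ∧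
    ∀ᶠ π in W.L, ∑ g, P g (W.ev π) = 1 ∧ (∀ g, 0 < P g (W.ev π) → W.d g (W.ev π) ≤ ρ) ∧
      ∃ I, (W.pt st π).Fi P I ∧ I ≤ I1 ∧ s0 / 4 + Λ * I ≤ W.E st π

/-! ### constants -/

/-- the cut-off: `0` on `(-∞, 0]`, `1` on `[1, ∞)` -/
abbrev cut : ℝ → ℝ := Real.smoothTransition

theorem cut_deriv_zero {s : ℝ} (h : s ≤ 0 ∨ 1 ≤ s) : deriv cut s = 0 := by
  rcases h with h | h
  · refine IsLocalMin.deriv_eq_zero (Eventually.of_forall fun t => ?_)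
    rw [cut, Real.smoothTransition.zero_of_nonpos h]
    exact Real.smoothTransition.nonneg t
  · refine IsLocalMax.deriv_eq_zero (Eventually.of_forall fun t => ?_)
    rw [cut, Real.smoothTransition.one_of_one_le h]
    exact Real.smoothTransition.le_one t

theorem exists_cc : ∃ c : ℝ, 1 ≤ c ∧ ∀ s, |deriv cut s| ≤ c := by
  have hc : Continuous (deriv cut) :=
    (Real.smoothTransition.contDiff (n := 1)).continuous_deriv le_rfl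
  obtain ⟨C, hC⟩ := (isCompact_Icc (a := (0 : ℝ)) (b := 1)).exists_bound_of_continuousOn
    hc.continuousOn
  refine ⟨max 1 C, le_max_left _ _, fun s => ?_⟩
  by_cases h : s ∈ Icc (0 : ℝ) 1
  · exact (hC s h).trans (le_max_right _ _)
  · rw [cut_deriv_zero (s := s) (by
      simp only [mem_Icc, not_and_or, not_le] at h
      exact h.imp le_of_lt le_of_lt), abs_zero]
    exact zero_le_one.trans (le_max_left _ _)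

/-- a bound for the slope of the cut-off -/
def cc : ℝ := exists_cc.choose

theorem one_le_cc : 1 ≤ cc := exists_cc.choose_spec.1

theorem abs_deriv_cut_le (s : ℝ) : |deriv cut s| ≤ cc := exists_cc.choose_spec.2 s

/-- the price of a stage -/
def eta (ι T y : ℝ) : ℝ := (51 * cc * ι / y) ^ 2 * T

/-- Fisher constant of the sources of the main stages -/
def C1 : ℝ := 8 + 3200 * cc ^ 2

/-- the price of a main stage -/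
def etaS (n' nn y : ℝ) : ℝ := eta (100 * C1 * n' / nn) (4 * nn) y

/-- the price of the intermediate stage -/
def etaH (n' K0 N0 : ℝ) : ℝ := eta (2 * K0 + 16 * cc ^ 2 * n' / N0) (2 * N0) (1 / 400)

/-- The gain of one step at a slow point.  `t = |dv|²`, `r = p - p₀ - σ`, `Ga = ⟨dv, da⟩`. -/
def slow (U W Q σ r j a Ga : ℝ) : ℝ :=
  (1 - 1 / W ^ 2) * (1 - 1 / W) ^ 2 * (2 * W + 1) / U ^ 2 + 3 / 8 * Q * (1 - 1 / W ^ 2)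
    + 7 / 8 * Q ^ 2 * r ^ 2 / (U ^ 2 / 4) + Q * σ * (1 - 1 / W) / (U ^ 2 / 4) - Q * j
    - 2 * a * Q * r / W - U * Ga / W ^ 2 - |a| * (1 - 1 / W ^ 2) ^ 2
    - 2 * a ^ 2 * (U ^ 2 / 4) * (1 - 1 / W ^ 2)

/-- **SLOW** -/
def SlowStmt : Prop := ∀ (Z : Type) (A : Alg Z) (T : Pt A) (Q σ a v : Z → ℝ) (u0 j : ℝ),
  A.Sm Q → A.Sm σ → A.Sm a → A.Sm v → (∀ z, 0 < Q z) → (∀ z, 0 ≤ σ z) → (∀ z, 0 ≤ v z) → 0 < u0 →
  0 ≤ j → T.Γ Q Q ≤ Q T.p ^ 3 / 64 → T.Γ σ σ ≤ j * σ T.p →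
  slow (u0 + v T.p) (√(1 + T.Γ v v)) (Q T.p) (σ T.p)
      ((u0 + v T.p) ^ 2 / 4 - u0 ^ 2 / 4 - σ T.p) j (a T.p) (T.Γ v a) ≤
    gen (u0 + v T.p) (√(1 + T.Γ v v)) (beta Q σ v u0 T.p)
      (T.Γ v (beta Q σ v u0) / √(1 + T.Γ v v)) (a T.p) (T.Γ v a / √(1 + T.Γ v v))

namespace World

variable {n' s0 K0 : ℝ} (W : World n' s0 K0)

/-- the metric only grows -/
def Le (st st' : W.St) : Prop := ∀ π f, W.A.Sm f → (W.pt st' π).Γ f f ≤ (W.pt st π).Γ f f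

/-- admissible masses: smooth, supported in the charts, with Fisher information below the budget
for every point calculus -/
structure Mass (st : W.St) (M : W.G → W.Z → ℝ) : Prop where
  sm : ∀ g, W.A.Sm (M g)
  su : ∀ g, W.Su g (M g)
  nn : ∀ g z, 0 ≤ M g z
  fis : ∀ T : Pt W.A, T.Fi M (T.bud (W.vs st))

/-- a state reached from `st0` with its masses -/
structure Ok (st : W.St) (M : W.G → W.Z → ℝ) : Prop extends W.Mass st M where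
  le : W.Le W.st0 st

/-- total mass -/
def N (M : W.G → W.Z → ℝ) (z : W.Z) : ℝ := ∑ g, M g z

/-- far mass -/
def Mf (ρ0 : ℝ) (M : W.G → W.Z → ℝ) (z : W.Z) : ℝ := ∑ g, cut (W.d g z - ρ0) * M g z

/-- the outcome of phase 0 -/
def P0 (ρ0 N0 R0 Φ : ℝ) (st : W.St) (M : W.G → W.Z → ℝ) : Prop :=
  ∀ᶠ π in W.L, 3 / 4 * s0 ≤ W.E st π ∧ (Φ ≤ W.E st π ∨ (W.Mf ρ0 M (W.ev π) ≤ N0 / 100 ∧
    (2 * N0 ≤ W.N M (W.ev π) ∨ 3 / 4 * s0 + R0 ≤ W.E st π)))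

/-- the invariant of the main stages -/
def Inv (ρ0 nn y Φ : ℝ) (st : W.St) (M : W.G → W.Z → ℝ) : Prop :=
  ∀ᶠ π in W.L, s0 / 2 + 2 * etaS n' nn y ≤ W.E st π ∧ (Φ + 2 * etaS n' nn y ≤ W.E st π ∨
    (nn ≤ W.N M (W.ev π) ∧ W.Mf ρ0 M (W.ev π) ≤ (1 / 20 - 16 * y) * W.N M (W.ev π)))

/-- normalised masses -/
def Qn (c : ℝ) (M : W.G → W.Z → ℝ) (g : W.G) (z : W.Z) : ℝ := M g z * (W.N M z + c)⁻¹

/-- the mass far from the label of `g` -/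
def Dn (ρ0 c : ℝ) (M : W.G → W.Z → ℝ) (g : W.G) (z : W.Z) : ℝ :=
  ∑ g', cut (W.δ g g' z - 2 * (ρ0 + 1)) * W.Qn c M g' z

/-- the pruned sources -/
def src (ρ0 c : ℝ) (M : W.G → W.Z → ℝ) (g : W.G) (z : W.Z) : ℝ :=
  cut (3 - 10 * W.Dn ρ0 c M g z) ^ 2 * W.Qn c M g z

end World

/-- **PHASE 0** -/
def Phase0Stmt : Prop := ∀ n' s0 K0 N0 R0 : ℝ, 1 ≤ n' → 0 < s0 → 1 ≤ K0 → 0 < N0 → 0 < R0 →
  ∃ ρ0 : ℝ, 1 ≤ ρ0 ∧ ∀ (W : World n' s0 K0) (Φ : ℝ), ∃ st M, W.Ok st M ∧ W.P0 ρ0 N0 R0 Φ st M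

/-- **STAGE** -/
def StageStmt : Prop := ∀ (n' s0 K0 : ℝ) (W : World n' s0 K0) (st : W.St) (M : W.G → W.Z → ℝ)
  (ι T y Φ δ : ℝ) (σ : W.G → W.Z → ℝ) (j : W.Pi → W.G → ℝ), 1 ≤ n' → W.Ok st M → 0 < ι → 0 < T →
  0 < y → y ≤ 1 / 2 → 2 * n' ≤ ι * T → eta ι T y ≤ Φ → 0 < δ →
  (∀ g, W.A.Sm (σ g) ∧ W.Su g (σ g) ∧ ∀ z, 0 ≤ σ g z ∧ σ g z ≤ 1) →
  (∀ᶠ π in W.L, ∑ g, σ g (W.ev π) ≤ 1 ∧ ∑ g, j π g ≤ ι ∧
    ∀ g, 0 ≤ j π g ∧ (W.pt st π).Γ (σ g) (σ g) ≤ j π g * σ g (W.ev π)) →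
  ∃ st' M', W.Ok st' M' ∧ (∀ g z, M g z ≤ M' g z) ∧ ∀ᶠ π in W.L,
    W.E st π - eta ι T y * (((∑ g, j π g) / ι + ∑ g, σ g (W.ev π)) / 2) - δ ≤ W.E st' π ∧
    (∑ g, |M' g (W.ev π) - M g (W.ev π) - T * σ g (W.ev π)| ≤ 2 * y * T ∨
      W.E st π + Φ - 2 * eta ι T y - δ ≤ W.E st' π)

/-- **the intermediate stage** -/
def HalfStmt : Prop := ∀ (n' s0 K0 : ℝ) (W : World n' s0 K0) (st : W.St) (M : W.G → W.Z → ℝ)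
  (ρ0 N0 Φ : ℝ), 1 ≤ n' → 0 < s0 → 1 ≤ K0 → 1 ≤ ρ0 → 0 < N0 → 0 ≤ Φ →
  16 * etaS n' N0 (1 / 1000) ≤ s0 → W.Ok st M →
  W.P0 ρ0 N0 (etaH n' K0 N0) (Φ + s0 + etaH n' K0 N0) st M →
  ∃ st' M', W.Ok st' M' ∧ W.Inv ρ0 N0 (1 / 1000) Φ st' M'

/-- **the sources**: smoothness, Fisher information, behaviour where the far mass is small -/
def SrcStmt : Prop := ∀ (n' s0 K0 : ℝ) (W : World n' s0 K0) (st : W.St) (M : W.G → W.Z → ℝ)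
  (ρ0 c : ℝ), 1 ≤ n' → 0 < c → W.Ok st M →
  (∀ g, W.A.Sm (W.src ρ0 c M g) ∧ W.Su g (W.src ρ0 c M g) ∧
    ∀ z, 0 ≤ W.src ρ0 c M g z ∧ W.src ρ0 c M g z ≤ W.Qn c M g z) ∧
  ∀ᶠ π in W.L, (W.pt st π).Fi (W.src ρ0 c M) (C1 * n' / (W.N M (W.ev π) + c)) ∧
    (W.pt st π).Fi (W.Qn c M) (4 * n' / (W.N M (W.ev π) + c)) ∧
    (W.pt st π).Γ (W.N M) (W.N M) ≤ n' * W.N M (W.ev π) ∧
    (W.Mf ρ0 M (W.ev π) ≤ (W.N M (W.ev π) + c) / 10 →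
      (∀ g, W.d g (W.ev π) < ρ0 + 1 → W.src ρ0 c M g (W.ev π) = W.Qn c M g (W.ev π)) ∧
      (2 * c ≤ W.N M (W.ev π) →
        ∀ g, 0 < W.src ρ0 c M g (W.ev π) → W.d g (W.ev π) ≤ 3 * ρ0 + 4))

/-- **a main stage** -/
def IterStmt : Prop := ∀ (n' s0 K0 : ℝ) (W : World n' s0 K0) (st : W.St) (M : W.G → W.Z → ℝ)
  (ρ0 nn y Φ : ℝ), 1 ≤ n' → 0 < s0 → 0 < nn → 0 < y → y ≤ 1 / 1000 → 0 ≤ Φ → W.Ok st M →
  W.Inv ρ0 nn y Φ st M → ∃ st' M', W.Ok st' M' ∧ W.Inv ρ0 (4 * nn) (3 / 4 * y) Φ st' M'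

/-- **the output** -/
def OutStmt : Prop := ∀ n' K0 N0 : ℝ, 1 ≤ n' → 1 ≤ K0 → 0 < N0 → ∃ I1 C3 : ℝ, 0 ≤ I1 ∧ 0 < C3 ∧
  ∀ (s0 : ℝ) (W : World n' s0 K0) (st : W.St) (M : W.G → W.Z → ℝ) (ρ0 nn : ℝ), 1 ≤ ρ0 → N0 ≤ nn →
    W.Ok st M → ∃ P : W.G → W.Z → ℝ, (∀ g, W.A.Sm (P g) ∧ W.Su g (P g) ∧ ∀ z, 0 ≤ P g z) ∧
      ∀ᶠ π in W.L, ∑ g, P g (W.ev π) = 1 ∧
        (∀ g, 0 < P g (W.ev π) → W.d g (W.ev π) ≤ 3 * ρ0 + 4) ∧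
        ∃ I, (W.pt st π).Fi P I ∧ I ≤ I1 ∧
          (nn ≤ W.N M (W.ev π) → W.Mf ρ0 M (W.ev π) ≤ W.N M (W.ev π) / 20 → I ≤ C3 / nn)

end Crest.Agent.N222.A

end
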