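import Crest.Agent.N222.A.SmJ
import Crest.Agent.N222.J.Defs

/-! # Row 222, part A: exact solutions of the step equation in a family (statement) -/

set_option autoImplicit false
set_option linter.dupNamespace false
open Filter Set Topology Function
open scoped ContDiff

noncomputable section

namespace Crest.Agent.N222.A

/-- **F5**: exact solutions, with all chart jets jointly continuous -/
def F5Stmt : Prop := ∀ (d : ℕ) (ι κ : Type) [Fintype ι] [DecidableEq ι] [Fintype κ] (Y : Type)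
  [TopologicalSpace Y] [T2Space Y] [CompactSpace Y]
  (ch : Y → OpenPartialHomeomorph Y (E (Fin d))) (N : (κ → ℝ) → Imm d ι Y)
  (b : (κ → ℝ) → ι → Y → ℝ) (Q σ : (κ → ℝ) → Y → ℝ) (abar u0 : ℝ),
  (∀ ξ, (N ξ).ch = ch) → SmJ ch univ (fun ξ => (N ξ).x) → (∀ c, SmJ ch univ fun ξ => b ξ c) →
  SmJ ch univ Q → SmJ ch univ σ → (∀ ξ p, 0 < Q ξ p) → (∀ ξ p, 0 ≤ σ ξ p ∧ σ ξ p ≤ abar) →
  0 < u0 → 0 ≤ abar →
  ∃ u : (κ → ℝ) → Y → ℝ, (∀ p, J.CJ (ch p).target fun ξ => u ξ ∘ (ch p).symm) ∧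
    (∀ ξ p, 0 ≤ u ξ p ∧ u ξ p ≤ √(u0 ^ 2 + 4 * abar) - u0) ∧
    (∀ ξ, (∀ p, σ ξ p = 0) → ∀ p, u ξ p = 0) ∧
    ∀ ξ p, dfc (N ξ).pre (b ξ) (Q ξ) (σ ξ) (u ξ) u0 p = 0

end Crest.Agent.N222.A

end
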