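import Crest.Agent.N222.A.Par
import Crest.Agent.N222.A.GDefs

/-!
# Row 222, part A (helper89): the concrete fibred setting and the output of part A in this setting
-/

set_option autoImplicit false
set_option linter.dupNamespace false
set_option linter.unusedSectionVars false
open Set Filter Topology Function
open scoped ContDiff InnerProductSpace RealInnerProductSpace

noncomputable section

namespace Crest.Agent.N222.A

/-- `Z` is locally `(κ → ℝ) × T`; generators; the compact region `Om` -/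
structure Fib (n : ℕ) (ι κ : Type) [Fintype ι] [Fintype κ] [DecidableEq ι] (T Z : Type)
    [TopologicalSpace T] [TopologicalSpace Z] where
  MT : Imm n ι T
  M : Imm (n + Fintype.card κ) (ι ⊕ κ) Z
  W : Type
  φ : W → OpenPartialHomeomorph ((κ → ℝ) × T) Z
  cover : ∀ z, ∃ w, z ∈ (φ w).target
  hx : ∀ w, ∀ q ∈ (φ w).source, M.x (φ w q) = comb (q.1, MT.x q.2)
  bT : ι → T → ℝ
  bT_sm : ∀ a, MT.Sm (bT a)
  bT_tan : MT.pre.Tan bT
  b : ι → Z → ℝ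
  b_φ : ∀ w, ∀ q ∈ (φ w).source, ∀ a, b a (φ w q) = bT a q.2
  G : Type
  [fin : Fintype G]
  [dec : DecidableEq G]
  w : G → W
  U : G → Set (κ → ℝ)
  U_open : ∀ g, IsOpen (U g)
  U_sub : ∀ g, U g ×ˢ univ ⊆ (φ (w g)).source
  closed : ∀ g K, IsCompact K → K ⊆ U g → IsClosed (φ (w g) '' (K ×ˢ univ))
  Om : Set Z
  Om_cpt : IsCompact Om
  Om_cover : ∀ z ∈ Om, ∃ g, z ∈ φ (w g) '' (U g ×ˢ univ)
  Om_loc : ∀ g, ∃ D : Set T, IsCompact D ∧ ∀ x, ∀ ξ ∈ U g, φ (w g) (ξ, x) ∈ Om → x ∈ D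

attribute [instance] Fib.fin Fib.dec

namespace Fib

variable {n : ℕ} {ι κ : Type} [Fintype ι] [Fintype κ] [DecidableEq ι] [DecidableEq κ] {T Z : Type}
  [TopologicalSpace T] [TopologicalSpace Z] (F : Fib n ι κ T Z)

/-- the region of a generator -/
def O (g : F.G) : Set Z := F.φ (F.w g) '' (F.U g ×ˢ univ)

/-- supported over a compact part of the chart -/
def Su (g : F.G) (f : Z → ℝ) : Prop :=
  ∃ K, IsCompact K ∧ K ⊆ F.U g ∧ ∀ z, f z ≠ 0 → z ∈ F.φ (F.w g) '' (K ×ˢ univ)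

/-- `⟨df, dh⟩` for the metric `g_T + s⁻² dξ²` -/
def G0 (s : ℝ) (f h : Z → ℝ) (p : Z) : ℝ :=
  ∑ a, F.M.pre.D (Sum.inl a) f p * F.M.pre.D (Sum.inl a) h p +
    s ^ 2 * ∑ j, F.M.pre.D (Sum.inr j) f p * F.M.pre.D (Sum.inr j) h p

/-- the data of the bookkeeping -/
structure Data (K0 : ℝ) (χ d : F.G → Z → ℝ) (δ : F.G → F.G → Z → ℝ) : Prop where
  χ_sm : ∀ g, F.M.Sm (χ g)
  d_sm : ∀ g, F.M.Sm (d g)
  δ_sm : ∀ g g', F.M.Sm (δ g g')
  χ_su : ∀ g, F.Su g (χ g)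
  χ_mem : ∀ g z, 0 ≤ χ g z ∧ χ g z ≤ 1
  init : ∀ᶠ s in 𝓝[≠] (0 : ℝ), ∀ p ∈ F.Om, ∑ g, χ g p = 1 ∧
    (∃ j : F.G → ℝ, (∀ g, 0 ≤ j g ∧ F.G0 s (χ g) (χ g) p ≤ j g * χ g p) ∧ ∑ g, j g ≤ K0) ∧
    (∀ g, p ∈ F.O g → F.G0 s (d g) (d g) p ≤ K0 ∧ (0 < χ g p → d g p ≤ 1)) ∧
    ∀ g g', p ∈ F.O g → p ∈ F.O g' → F.G0 s (δ g g') (δ g g') p = 0 ∧
      d g p - d g' p ≤ δ g g' p ∧ δ g g' p ≤ d g p + d g' p

/-- the output at the scale `s` -/
def Out (s0 ρ I1 Λ s : ℝ) (d P : F.G → Z → ℝ) : Prop :=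
  ∃ (ι' : Type) (_ : Fintype ι') (_ : DecidableEq ι') (M' : Imm (n + Fintype.card κ) ι' Z)
    (b' : ι' → Z → ℝ), M'.ch = F.M.ch ∧ (∀ c, M'.Sm (b' c)) ∧ M'.pre.Tan b' ∧
    (∀ f, F.M.Sm f → ∀ p, M'.pre.gam f f p ≤ F.G0 s f f p) ∧
    ∀ p ∈ F.Om, ∑ g, P g p = 1 ∧ (∀ g, 0 < P g p → d g p ≤ ρ) ∧
      ∃ (j : F.G → ℝ) (I : ℝ), (∀ g, 0 ≤ j g ∧ M'.pre.gam (P g) (P g) p ≤ j g * P g p) ∧
        ∑ g, j g ≤ I ∧ I ≤ I1 ∧ s0 / 4 + Λ * I ≤ M'.pre.Eb b' p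

end Fib

/-- **the output of part A in the concrete setting** -/
def AFStmt : Prop := ∀ (n : ℕ) (s0 K0 : ℝ), 0 < s0 → 1 ≤ K0 → ∃ ρ I1 : ℝ,
  ∀ (ι κ : Type) [Fintype ι] [Fintype κ] [DecidableEq ι] [DecidableEq κ] (T Z : Type)
    [TopologicalSpace T] [T2Space T] [SecondCountableTopology T] [TopologicalSpace Z] [T2Space Z]
    (F : Fib n ι κ T Z) (χ d : F.G → Z → ℝ) (δ : F.G → F.G → Z → ℝ) (Λ : ℝ),
    (∀ x, s0 ≤ F.MT.pre.Eb F.bT x) → F.Data K0 χ d δ → 0 ≤ Λ → ∃ P : F.G → Z → ℝ,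
      (∀ g, F.M.Sm (P g) ∧ F.Su g (P g) ∧ ∀ z, 0 ≤ P g z) ∧
      ∀ᶠ s in 𝓝[≠] (0 : ℝ), F.Out s0 ρ I1 Λ s d P

namespace Fib

variable {n : ℕ} {ι κ : Type} [Fintype ι] [Fintype κ] [DecidableEq ι] [DecidableEq κ] {T Z : Type}
  [TopologicalSpace T] [TopologicalSpace Z] (F : Fib n ι κ T Z)
  {V : Type} [NormedAddCommGroup V] [NormedSpace ℝ V] {w : F.W} {q : (κ → ℝ) × T}

/-! ### calculus in a trivialisation -/

theorem loc (hq : q ∈ (F.φ w).source) : Loc (F.MT.par κ) F.M (F.φ w) q :=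
  loc_of_mem (M := F.MT.par κ) (F.hx w) hq

theorem exists_q (z : Z) : ∃ w, ∃ q ∈ (F.φ w).source, F.φ w q = z := by
  obtain ⟨w, hw⟩ := F.cover z
  exact ⟨w, _, (F.φ w).map_target hw, (F.φ w).right_inv hw⟩

/-- a function on `Z` is smooth if it is locally smooth in the trivialisations -/
theorem sm_of_loc {f : Z → V} (h : ∀ z, f =ᶠ[𝓝 z] 0 ∨ ∃ w, ∃ q ∈ (F.φ w).source, F.φ w q = z ∧
    ∃ H : (κ → ℝ) × T → V, (F.MT.par κ).Sm H ∧ (fun r => f (F.φ w r)) =ᶠ[𝓝 q] H) : F.M.Sm f := by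
  refine Imm.sm_of_charts fun z => ?_
  rcases h z with h0 | ⟨w, q, hq, rfl, H, hH, hf⟩
  · refine ⟨F.M.ch z, F.M.isChart z, F.M.mem z, ?_⟩
    have h1 : ContinuousAt (F.M.ch z).symm (F.M.ch z z) :=
      (F.M.ch z).continuousAt_symm ((F.M.ch z).map_source (F.M.mem z))
    have h2 : Tendsto (F.M.ch z).symm (𝓝 (F.M.ch z z)) (𝓝 z) := by
      have := h1.tendsto
      rwa [(F.M.ch z).left_inv (F.M.mem z)] at this
    exact (contDiffAt_const (c := (0 : V))).congr_of_eventuallyEq (h0.comp_tendsto h2)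
  · set c := (F.MT.par κ).ch q
    have hc : q ∈ c.source := (F.MT.par κ).mem q
    refine ⟨(F.φ w).symm.trans c, IsChart.symm_trans (M := F.MT.par κ) (F.hx w)
      ((F.MT.par κ).isChart q), ⟨(F.φ w).map_source hq, ?_⟩, ?_⟩
    · change (F.φ w).symm (F.φ w q) ∈ c.source
      rwa [(F.φ w).left_inv hq]
    · have e1 : ((F.φ w).symm.trans c) (F.φ w q) = c q := by
        change c ((F.φ w).symm (F.φ w q)) = _
        rw [(F.φ w).left_inv hq]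
      rw [e1]
      have h1 : ContinuousAt c.symm (c q) := c.continuousAt_symm (c.map_source hc)
      have h2 : Tendsto c.symm (𝓝 (c q)) (𝓝 q) := by
        have := h1.tendsto
        rwa [c.left_inv hc] at this
      exact ((hH q).contDiffAt (c.open_target.mem_nhds (c.map_source hc))).congr_of_eventuallyEq
        (hf.comp_tendsto h2)

theorem D_φ (hq : q ∈ (F.φ w).source) (f : Z → ℝ) (c : ι ⊕ κ) :
    F.M.pre.D c f (F.φ w q) = (F.MT.par κ).pre.D c (fun r => f (F.φ w r)) q :=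
  ((F.loc hq).D_iso f c).symm

theorem D_inl (hq : q ∈ (F.φ w).source) {f : Z → ℝ} (hf : F.M.Sm f) (a : ι) :
    F.M.pre.D (Sum.inl a) f (F.φ w q) = F.MT.pre.D a (fun x => f (F.φ w (q.1, x))) q.2 := by
  rw [F.D_φ hq, Imm.par_D_inl ((F.loc hq).diffAt (hf.diffAt _))]

theorem D_inr (hq : q ∈ (F.φ w).source) {f : Z → ℝ} (hf : F.M.Sm f) (j : κ) :
    F.M.pre.D (Sum.inr j) f (F.φ w q) =
      fderiv ℝ (fun ξ => f (F.φ w (ξ, q.2))) q.1 (Pi.single j 1) := by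
  rw [F.D_φ hq, Imm.par_D_inr ((F.loc hq).diffAt (hf.diffAt _))]

/-- derivatives of a function which is locally a smooth family -/
theorem D_of_ev (hq : q ∈ (F.φ w).source) {f : Z → ℝ} {H : (κ → ℝ) × T → ℝ}
    (hH : (F.MT.par κ).Sm H) (h : (fun r => f (F.φ w r)) =ᶠ[𝓝 q] H) :
    (∀ a, F.M.pre.D (Sum.inl a) f (F.φ w q) = F.MT.pre.D a (fun x => H (q.1, x)) q.2) ∧
    ∀ j, F.M.pre.D (Sum.inr j) f (F.φ w q) =
      fderiv ℝ (fun ξ => H (ξ, q.2)) q.1 (Pi.single j 1) :=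
  ⟨fun a => by rw [F.D_φ hq, Imm.D_congr h, Imm.par_D_inl (hH.diffAt q)],
    fun j => by rw [F.D_φ hq, Imm.D_congr h, Imm.par_D_inr (hH.diffAt q)]⟩

/-- functions which come from the fibre -/
theorem D_pull (hq : q ∈ (F.φ w).source) {f : Z → ℝ} {h : T → ℝ} (hh : F.MT.Sm h)
    (e : ∀ r ∈ (F.φ w).source, f (F.φ w r) = h r.2) :
    (∀ a, F.M.pre.D (Sum.inl a) f (F.φ w q) = F.MT.pre.D a h q.2) ∧
    ∀ j, F.M.pre.D (Sum.inr j) f (F.φ w q) = 0 := by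
  obtain ⟨h1, h2⟩ := F.D_of_ev hq (f := f) (Imm.par_sm_snd hh)
    (by filter_upwards [(F.φ w).open_source.mem_nhds hq] with r hr using e r hr)
  exact ⟨h1, fun j => by simp [h2]⟩

/-- functions which come from the parameter -/
theorem D_param (hq : q ∈ (F.φ w).source) {f : Z → ℝ} {r : (κ → ℝ) → ℝ} (hr : ContDiff ℝ ∞ r)
    (e : ∀ y ∈ (F.φ w).source, f (F.φ w y) = r y.1) :
    (∀ a, F.M.pre.D (Sum.inl a) f (F.φ w q) = 0) ∧
    ∀ j, F.M.pre.D (Sum.inr j) f (F.φ w q) = fderiv ℝ r q.1 (Pi.single j 1) := by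
  obtain ⟨h1, h2⟩ := F.D_of_ev hq (f := f) (Imm.par_sm_fst hr)
    (by filter_upwards [(F.φ w).open_source.mem_nhds hq] with y hy using e y hy)
  exact ⟨fun a => by rw [h1]; exact Imm.D_const (M := F.MT) (r q.1) _ _, h2⟩

theorem sm_b (a : ι) : F.M.Sm (F.b a) := F.sm_of_loc fun z => by
  obtain ⟨w, q, hq, rfl⟩ := F.exists_q z
  exact Or.inr ⟨w, q, hq, rfl, _, Imm.par_sm_snd (F.bT_sm a), by
    filter_upwards [(F.φ w).open_source.mem_nhds hq] with r hr using F.b_φ w r hr a⟩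

theorem split (z : Z) (ξ : κ → ℝ) : ∃ v, F.M.J z v = comb (ξ, 0) := by
  obtain ⟨w, q, hq, rfl⟩ := F.exists_q z
  have h1 : (F.MT.par κ).PL q (comb (ξ, 0)) = comb (ξ, 0) := by
    have := Imm.PL_chart ((F.MT.par κ).isChart q) ((F.MT.par κ).mem q) (plin κ n (ξ, 0))
    have h2 := Imm.par_J (N := F.MT) q (plin κ n (ξ, 0))
    simp only [ContinuousLinearEquiv.symm_apply_apply, map_zero] at h2
    rwa [show fderiv ℝ ((F.MT.par κ).x ∘ ((F.MT.par κ).ch q).symm) ((F.MT.par κ).ch q q)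
      (plin κ n (ξ, 0)) = _ from h2] at this
  rw [(F.loc hq).PL_iso] at h1
  rw [← h1]
  exact Imm.PL_mem_range (F.M.isChart _) (F.M.mem _) _

/-! ### the initial state -/

/-- the calculus of `(x, ξ / s)` -/
def S0 (s : ℝ) : Pre (Z → ℝ) (ι ⊕ κ) where
  x := Sum.elim (fun a z => F.M.x z (Sum.inl a)) fun j z => s⁻¹ * F.M.x z (Sum.inr j)
  D c f := Sum.elim (fun a => F.M.pre.D (Sum.inl a) f)
    (fun j z => s * F.M.pre.D (Sum.inr j) f z) c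

/-- the initial drift -/
def b0 : ι ⊕ κ → Z → ℝ := Sum.elim F.b 0

theorem scale_pre {s : ℝ} (hs : s ≠ 0) : (F.M.scale s hs).pre = F.S0 s := by
  unfold Imm.pre S0
  congr 1
  · funext c z
    cases c <;> rfl
  · funext c f z
    rw [F.M.scale_td hs (F.split z)]
    cases c with
    | inl a =>
      have : scl s (ee (Sum.inl a) : E (ι ⊕ κ)) = ee (Sum.inl a) := by
        ext c; cases c <;> simp [scl_apply]
      rw [this]; rfl
    | inr j =>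
      have : scl s (ee (Sum.inr j) : E (ι ⊕ κ)) = s • ee (Sum.inr j) := by
        ext c; cases c <;> simp [scl_apply]
      rw [this, map_smul]; rfl

theorem S0_gam (s : ℝ) (f h : Z → ℝ) (p : Z) : (F.S0 s).gam f h p = F.G0 s f h p := by
  simp only [Pre.gam, Fintype.sum_sum_type, G0, S0, Sum.elim_inl, Sum.elim_inr, Pi.add_apply,
    Finset.sum_apply, Pi.mul_apply, Finset.mul_sum]
  congr 1
  exact Finset.sum_congr rfl fun j _ => by ring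

theorem P_ll (s : ℝ) (a b : ι) (hq : q ∈ (F.φ w).source) :
    (F.S0 s).P (Sum.inl a) (Sum.inl b) (F.φ w q) = F.MT.pre.P a b q.2 :=
  (F.D_pull hq (f := fun z => F.M.x z (Sum.inl b)) (F.MT.sm_coord b)
    fun r hr => by rw [F.hx w r hr]; rfl).1 a

theorem P_rl (s : ℝ) (j : κ) (b : ι) : (F.S0 s).P (Sum.inr j) (Sum.inl b) = fun _ => 0 := by
  funext z
  obtain ⟨w, q, hq, rfl⟩ := F.exists_q z
  have := (F.D_pull hq (f := fun z => F.M.x z (Sum.inl b)) (F.MT.sm_coord b)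
    fun r hr => by rw [F.hx w r hr]; rfl).2 j
  change s * F.M.pre.D (Sum.inr j) (fun z => F.M.x z (Sum.inl b)) _ = 0
  rw [this, mul_zero]

theorem D_y (s : ℝ) (j : κ) (hq : q ∈ (F.φ w).source) :
    (∀ a, F.M.pre.D (Sum.inl a) (fun z => s⁻¹ * F.M.x z (Sum.inr j)) (F.φ w q) = 0) ∧
    ∀ i, F.M.pre.D (Sum.inr i) (fun z => s⁻¹ * F.M.x z (Sum.inr j)) (F.φ w q) =
      s⁻¹ * (Pi.single i (1 : ℝ) : κ → ℝ) j := by
  obtain ⟨h1, h2⟩ := F.D_param hq (f := fun z => s⁻¹ * F.M.x z (Sum.inr j))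
    (r := fun ξ => s⁻¹ * ξ j) (contDiff_const.mul (contDiff_apply ℝ ℝ j))
    fun r hr => by rw [F.hx w r hr]; rfl
  refine ⟨h1, fun i => ?_⟩
  rw [h2, ((hasFDerivAt_apply j q.1).const_mul s⁻¹).fderiv]
  rfl

theorem P_lr (s : ℝ) (a : ι) (j : κ) : (F.S0 s).P (Sum.inl a) (Sum.inr j) = fun _ => 0 := by
  funext z
  obtain ⟨w, q, hq, rfl⟩ := F.exists_q z
  exact (F.D_y s j hq).1 a

theorem P_rr (s : ℝ) (i j : κ) : (F.S0 s).P (Sum.inr i) (Sum.inr j) =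
    fun _ => s * (s⁻¹ * (Pi.single i (1 : ℝ) : κ → ℝ) j) := by
  funext z
  obtain ⟨w, q, hq, rfl⟩ := F.exists_q z
  exact congrArg (s * ·) ((F.D_y s j hq).2 i)

theorem S0_D_const (s r : ℝ) (c : ι ⊕ κ) (z : Z) : (F.S0 s).D c (fun _ => r) z = 0 := by
  cases c <;> simp [S0, Imm.D_const]

theorem S0_D_pull (s : ℝ) (hq : q ∈ (F.φ w).source) {f : Z → ℝ} {h : T → ℝ} (hh : F.MT.Sm h)
    (e : ∀ r ∈ (F.φ w).source, f (F.φ w r) = h r.2) :
    (∀ a, (F.S0 s).D (Sum.inl a) f (F.φ w q) = F.MT.pre.D a h q.2) ∧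
    ∀ j, (F.S0 s).D (Sum.inr j) f (F.φ w q) = 0 :=
  ⟨(F.D_pull hq hh e).1, fun j => by
    change s * _ = 0
    rw [(F.D_pull hq hh e).2, mul_zero]⟩

theorem tan_b0 (s : ℝ) : (F.S0 s).Tan F.b0 := by
  intro c
  funext z
  obtain ⟨w, q, hq, rfl⟩ := F.exists_q z
  cases c with
  | inl a =>
    have := congrFun (F.bT_tan a) q.2
    simp only [Finset.sum_apply, Pi.mul_apply] at this
    simp [Fintype.sum_sum_type, b0, F.P_ll s _ _ hq, F.b_φ w q hq, this]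
  | inr j => simp [Fintype.sum_sum_type, b0, P_rl]

theorem Eb_S0 {s : ℝ} (hs : s ≠ 0) (hq : q ∈ (F.φ w).source) :
    (F.S0 s).Eb F.b0 (F.φ w q) = F.MT.pre.Eb F.bT q.2 := by
  have h1 := (F.M.scale s hs).scal_DP (F.φ w q)
  rw [F.scale_pre hs] at h1
  have h2 := F.MT.scal_DP q.2
  have hP := fun a b => F.S0_D_pull s hq (F.MT.sm_P a b) fun r hr => F.P_ll s a b hr
  have hb := fun a => F.S0_D_pull s hq (F.bT_sm a) fun r hr => F.b_φ w r hr a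
  simp only [Fintype.sum_sum_type, P_lr, P_rl, P_rr, S0_D_const, (hP _ _).1, (hP _ _).2,
    Finset.sum_const_zero, add_zero, mul_zero] at h1
  have h3 : (F.S0 s).scal (F.φ w q) = F.MT.pre.scal q.2 := by linarith
  have h4 : ∀ j, (F.S0 s).D (Sum.inr j) (0 : Z → ℝ) (F.φ w q) = 0 :=
    fun j => F.S0_D_const s 0 _ _
  simp [Pre.Eb, Pre.dv, Fintype.sum_sum_type, b0, h3, (hb _).1, h4, F.b_φ w q hq]

end Fib

end Crest.Agent.N222.A

end
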