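import Crest.Agent.N222.A.SmJ
import Crest.Agent.N222.F.Res
import Crest.Agent.N222.F.Hess

/-!
# Row 222, part A (helper89): products with a parameter space, scaling
-/

set_option autoImplicit false
set_option linter.dupNamespace false
set_option linter.unusedSectionVars false
open Set Filter Topology Function
open scoped ContDiff InnerProductSpace RealInnerProductSpace

noncomputable section

namespace Crest.Agent.N222

/-- characterisation of the tangential derivative -/
theorem Imm.td_unique {d : ℕ} {ι : Type} [Fintype ι] {X : Type} [TopologicalSpace X]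
    (M : Imm d ι X) {F : Type} [NormedAddCommGroup F] [NormedSpace ℝ F] (f : X → F) (p : X)
    (L : E ι →L[ℝ] F) (h1 : ∀ v, L (M.J p v) = fderiv ℝ (f ∘ (M.ch p).symm) (M.ch p p) v)
    (h2 : ∀ w, (∀ v, ⟪M.J p v, w⟫ = 0) → L w = 0) : M.td f p = L := by
  ext1 w
  have h3 := h2 _ fun v => inner_sub_proj (M.J_inj p) v w
  rw [map_sub, h1, sub_eq_zero] at h3
  exact h3.symm

/-! ### products with a parameter space -/

section Par

variable {n : ℕ} {ι : Type} [Fintype ι] {X : Type} [TopologicalSpace X] (κ : Type) [Fintype κ]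

/-- coordinates on the product of the model spaces -/
def plin (n : ℕ) : ((κ → ℝ) × E (Fin n)) ≃L[ℝ] E (Fin (n + Fintype.card κ)) :=
  ContinuousLinearEquiv.ofFinrankEq (by simp [add_comm])

variable {κ} in
/-- `(ξ, y) ↦ (y, ξ) ∈ ℝ^(ι ⊕ κ)` -/
def comb : ((κ → ℝ) × E ι) →L[ℝ] E (ι ⊕ κ) :=
  LinearMap.toContinuousLinearMap
    { toFun := fun q => WithLp.toLp 2 (Sum.elim (fun a => q.2 a) q.1)
      map_add' := fun q r => by ext c; cases c <;> rfl
      map_smul' := fun c q => by ext e; cases e <;> rfl }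

variable {κ} in
@[simp] theorem comb_inl (q : (κ → ℝ) × E ι) (a : ι) : comb q (Sum.inl a) = q.2 a := rfl

variable {κ} in
@[simp] theorem comb_inr (q : (κ → ℝ) × E ι) (j : κ) : comb q (Sum.inr j) = q.1 j := rfl

variable {κ} in
theorem comb_inj : Injective (comb : ((κ → ℝ) × E ι) →L[ℝ] E (ι ⊕ κ)) := by
  intro q r h
  refine Prod.ext (funext fun j => ?_) ?_
  · simpa using congrArg (fun w : E (ι ⊕ κ) => w (Sum.inr j)) h
  · ext a
    simpa using congrArg (fun w : E (ι ⊕ κ) => w (Sum.inl a)) h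

/-- product charts -/
def pch (e : OpenPartialHomeomorph X (E (Fin n))) :
    OpenPartialHomeomorph ((κ → ℝ) × X) (E (Fin (n + Fintype.card κ))) :=
  ((OpenPartialHomeomorph.refl (κ → ℝ)).prod e).trans
    (plin κ n).toHomeomorph.toOpenPartialHomeomorph

theorem pch_source (e : OpenPartialHomeomorph X (E (Fin n))) :
    (pch κ e).source = univ ×ˢ e.source := by simp [pch]

theorem mem_pch_target (e : OpenPartialHomeomorph X (E (Fin n)))
    {z : E (Fin (n + Fintype.card κ))} : z ∈ (pch κ e).target ↔ ((plin κ n).symm z).2 ∈ e.target := by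
  simp [pch]

theorem pch_apply (e : OpenPartialHomeomorph X (E (Fin n))) (q : (κ → ℝ) × X) :
    pch κ e q = plin κ n (q.1, e q.2) := rfl

theorem pch_symm_apply (e : OpenPartialHomeomorph X (E (Fin n)))
    (z : E (Fin (n + Fintype.card κ))) :
    (pch κ e).symm z = (((plin κ n).symm z).1, e.symm ((plin κ n).symm z).2) := rfl

theorem IsChart.pch {x : X → E ι} {e : OpenPartialHomeomorph X (E (Fin n))} (he : IsChart x e) :
    IsChart (fun q : (κ → ℝ) × X => comb (q.1, x q.2)) (pch κ e) := by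
  have key : ∀ z ∈ (N222.pch κ e).target, ContDiffAt ℝ ∞ (x ∘ e.symm) ((plin κ n).symm z).2 :=
    fun z hz => he.sm.contDiffAt (e.open_target.mem_nhds ((mem_pch_target κ e).1 hz))
  refine ⟨fun z hz => ContDiffAt.contDiffWithinAt ?_, fun z hz => ?_⟩
  · have h1 : ContDiffAt ℝ ∞ (plin κ n).symm z := (plin κ n).symm.contDiff.contDiffAt
    have h2 := h1.fst.prodMk ((key z hz).comp z h1.snd)
    exact (comb (κ := κ) (ι := ι)).contDiff.contDiffAt.comp z h2
  · have h1 : HasFDerivAt (plin κ n).symm ((plin κ n).symm : _ →L[ℝ] _) z :=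
      (plin κ n).symm.hasFDerivAt
    have h2 := ((key z hz).differentiableAt (by simp)).hasFDerivAt
    have h8 := h1.fst.prodMk (h2.comp z h1.snd)
    have h3 := (comb (κ := κ) (ι := ι)).hasFDerivAt.comp z h8
    have h4 : fderiv ℝ ((fun q : (κ → ℝ) × X => comb (q.1, x q.2)) ∘ (N222.pch κ e).symm) z = _ :=
      h3.fderiv
    rw [h4]
    intro v w hvw
    have h5 := comb_inj hvw
    have h6 := congrArg Prod.fst h5
    have h7 := congrArg Prod.snd h5
    exact (plin κ n).symm.injective (Prod.ext h6 (he.inj _ ((mem_pch_target κ e).1 hz) h7))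

/-- the product with a parameter space; its smooth functions are the smooth families -/
def Imm.par (N : Imm n ι X) : Imm (n + Fintype.card κ) (ι ⊕ κ) ((κ → ℝ) × X) where
  x q := comb (q.1, N.x q.2)
  ch q := pch κ (N.ch q.2)
  mem q := by rw [pch_source]; exact ⟨mem_univ _, N.mem q.2⟩
  isChart q := (N.isChart q.2).pch κ

variable {κ}

/-- the `ι` part -/
def prL : E (ι ⊕ κ) →L[ℝ] E ι :=
  LinearMap.toContinuousLinearMap
    { toFun := fun w => WithLp.toLp 2 fun a => w (Sum.inl a)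
      map_add' := fun _ _ => rfl
      map_smul' := fun _ _ => rfl }

/-- the `κ` part -/
def prR : E (ι ⊕ κ) →L[ℝ] (κ → ℝ) :=
  LinearMap.toContinuousLinearMap
    { toFun := fun w j => w (Sum.inr j)
      map_add' := fun _ _ => rfl
      map_smul' := fun _ _ => rfl }

@[simp] theorem prL_apply (w : E (ι ⊕ κ)) (a : ι) : prL w a = w (Sum.inl a) := rfl

@[simp] theorem prR_apply (w : E (ι ⊕ κ)) (j : κ) : prR w j = w (Sum.inr j) := rfl

@[simp] theorem prL_comb (q : (κ → ℝ) × E ι) : prL (comb q) = q.2 := rfl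

@[simp] theorem prR_comb (q : (κ → ℝ) × E ι) : prR (comb q) = q.1 := rfl

theorem comb_pr (w : E (ι ⊕ κ)) : comb (prR w, prL w) = w := by
  ext c; cases c <;> rfl

theorem inner_comb (q : (κ → ℝ) × E ι) (w : E (ι ⊕ κ)) :
    ⟪comb q, w⟫ = ⟪q.2, prL w⟫ + ∑ j, q.1 j * prR w j := by
  simp [PiLp.inner_apply, Fintype.sum_sum_type, mul_comm]

namespace Imm

variable {N : Imm n ι X} {V : Type} [NormedAddCommGroup V] [NormedSpace ℝ V]

@[simp] theorem par_x (q : (κ → ℝ) × X) : (N.par κ).x q = comb (q.1, N.x q.2) := rfl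

theorem par_J (q : (κ → ℝ) × X) (v : E (Fin (n + Fintype.card κ))) :
    (N.par κ).J q v = comb (((plin κ n).symm v).1, N.J q.2 ((plin κ n).symm v).2) := by
  have h1 : HasFDerivAt (plin κ n).symm ((plin κ n).symm : _ →L[ℝ] _) (pch κ (N.ch q.2) q) :=
    (plin κ n).symm.hasFDerivAt
  have h0 : ((plin κ n).symm (pch κ (N.ch q.2) q)).2 = N.ch q.2 q.2 := by simp [pch_apply]
  have h2 : HasFDerivAt (N.x ∘ (N.ch q.2).symm) (N.J q.2)
      ((plin κ n).symm (pch κ (N.ch q.2) q)).2 := by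
    rw [h0]
    exact (((N.isChart q.2).sm.contDiffAt ((N.ch q.2).open_target.mem_nhds
      ((N.ch q.2).map_source (N.mem q.2)))).differentiableAt (by simp)).hasFDerivAt
  have h5 := h1.fst.prodMk (h2.comp (pch κ (N.ch q.2) q) h1.snd)
  have h3 := (comb (κ := κ) (ι := ι)).hasFDerivAt.comp (pch κ (N.ch q.2) q) h5
  have h4 : (N.par κ).J q = _ := h3.fderiv
  rw [h4]
  rfl

/-- a family in the product chart -/
def cf (N : Imm n ι X) (F : (κ → ℝ) × X → V) (p : X) (r : (κ → ℝ) × E (Fin n)) : V :=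
  F (r.1, (N.ch p).symm r.2)

theorem par_comp (F : (κ → ℝ) × X → V) (q : (κ → ℝ) × X) :
    F ∘ ((N.par κ).ch q).symm = N.cf F q.2 ∘ (plin κ n).symm := rfl

theorem par_diffAt {F : (κ → ℝ) × X → V} {q : (κ → ℝ) × X} :
    (N.par κ).DiffAt F q ↔ DifferentiableAt ℝ (N.cf F q.2) (q.1, N.ch q.2 q.2) := by
  unfold DiffAt
  rw [par_comp, (plin κ n).symm.comp_right_differentiableAt_iff]
  change DifferentiableAt ℝ _ ((plin κ n).symm (plin κ n (q.1, N.ch q.2 q.2))) ↔ _
  rw [ContinuousLinearEquiv.symm_apply_apply]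

theorem par_td (F : (κ → ℝ) × X → V) (q : (κ → ℝ) × X) (w : E (ι ⊕ κ)) :
    (N.par κ).td F q w = fderiv ℝ (N.cf F q.2) (q.1, N.ch q.2 q.2)
      (prR w, ContinuousLinearMap.adjoint (Lam (N.J q.2)) (prL w)) := by
  rw [(N.par κ).td_unique F q (fderiv ℝ (N.cf F q.2) (q.1, N.ch q.2 q.2) ∘L
    (prR.prod (ContinuousLinearMap.adjoint (Lam (N.J q.2)) ∘L prL)))]
  · rfl
  · intro v
    rw [par_J, par_comp, (plin κ n).symm.comp_right_fderiv]
    change _ = fderiv ℝ _ ((plin κ n).symm (plin κ n (q.1, N.ch q.2 q.2))) _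
    simp [adj_Lam_apply (N.J_inj q.2)]
  · intro w hw
    have h1 : ∀ r : (κ → ℝ) × E (Fin n), ⟪N.J q.2 r.2, prL w⟫ + ∑ j, r.1 j * prR w j = 0 :=
      fun r => by simpa [par_J, inner_comb] using hw (plin κ n r)
    have h2 : prR w = 0 := by
      classical
      funext j
      simpa [Pi.single_apply] using h1 (Pi.single j 1, 0)
    have h3 : ContinuousLinearMap.adjoint (Lam (N.J q.2)) (prL w) = 0 :=
      adj_Lam_eq_zero fun v => by simpa using h1 (0, v)
    simp [h2, h3, ← Prod.zero_eq_mk]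

theorem par_sm {F : (κ → ℝ) × X → V} :
    (N.par κ).Sm F ↔ A.SmJ N.ch univ fun ξ p => F (ξ, p) := by
  constructor
  · intro h p
    have h1 := h (0, p)
    refine (h1.comp ((plin κ n).contDiff.comp (contDiff_snd.prodMk contDiff_fst)).contDiffOn
      fun r hr => (mem_pch_target κ _).2 (by simpa using hr.1)).congr fun r _ => ?_
    simp [par_comp, cf]
  · intro h q
    have h1 : ContDiff ℝ ∞ (plin κ n).symm := (plin κ n).symm.contDiff
    exact (h q.2).comp (h1.snd.prodMk h1.fst).contDiffOn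
      fun z hz => ⟨(mem_pch_target κ _).1 hz, mem_univ _⟩

theorem par_sm_snd {f : X → V} (hf : N.Sm f) : (N.par κ).Sm fun q => f q.2 :=
  par_sm.2 (A.SmJ.of_smA hf)

theorem par_sm_fst {r : (κ → ℝ) → V} (hr : ContDiff ℝ ∞ r) : (N.par κ).Sm fun q => r q.1 :=
  par_sm.2 (A.SmJ.param hr.contDiffOn)

variable [DecidableEq ι] [DecidableEq κ]

theorem par_D_inl {F : (κ → ℝ) × X → ℝ} {q : (κ → ℝ) × X} (hF : (N.par κ).DiffAt F q) (a : ι) :
    (N.par κ).pre.D (Sum.inl a) F q = N.pre.D a (fun p => F (q.1, p)) q.2 := by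
  have h1 := (par_diffAt.1 hF).hasFDerivAt.comp (N.ch q.2 q.2)
    (hasFDerivAt_prodMk_right q.1 (N.ch q.2 q.2))
  have h2 : fderiv ℝ ((fun p => F (q.1, p)) ∘ (N.ch q.2).symm) (N.ch q.2 q.2) = _ := h1.fderiv
  have e1 : prR (ee (Sum.inl a) : E (ι ⊕ κ)) = 0 := by ext j; simp
  have e2 : prL (ee (Sum.inl a) : E (ι ⊕ κ)) = ee a := by ext j; simp
  change (N.par κ).td F q _ = N.td _ _ _
  rw [par_td, e1, e2, td, h2]
  rfl

theorem par_D_inr {F : (κ → ℝ) × X → ℝ} {q : (κ → ℝ) × X} (hF : (N.par κ).DiffAt F q) (j : κ) :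
    (N.par κ).pre.D (Sum.inr j) F q = fderiv ℝ (fun ξ => F (ξ, q.2)) q.1 (Pi.single j 1) := by
  have h1 := HasFDerivAt.comp (f := fun ξ => (ξ, N.ch q.2 q.2)) q.1
    (par_diffAt.1 hF).hasFDerivAt (hasFDerivAt_prodMk_left (𝕜 := ℝ) q.1 (N.ch q.2 q.2))
  have h0 : (N.cf F q.2 ∘ fun ξ => (ξ, N.ch q.2 q.2)) = fun ξ => F (ξ, q.2) := by
    funext ξ
    simp [cf, (N.ch q.2).left_inv (N.mem q.2)]
  rw [h0] at h1
  have e1 : prR (ee (Sum.inr j) : E (ι ⊕ κ)) = Pi.single j 1 := by
    ext i; simp [Pi.single_apply]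
  have e2 : prL (ee (Sum.inr j) : E (ι ⊕ κ)) = 0 := by ext i; simp
  change (N.par κ).td F q _ = _
  rw [par_td, e1, e2, h1.fderiv, map_zero]
  rfl

end Imm

end Par

/-! ### scaling the parameter directions -/

section Scale

variable {d : ℕ} {ι κ : Type} [Fintype ι] [Fintype κ] {X : Type} [TopologicalSpace X]

/-- multiply the `κ` part by `s` -/
def scl (s : ℝ) : E (ι ⊕ κ) →L[ℝ] E (ι ⊕ κ) := comb ∘L ((s • prR).prod prL)

theorem scl_apply (s : ℝ) (w : E (ι ⊕ κ)) : scl s w = comb (s • prR w, prL w) := rfl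

theorem scl_scl (s t : ℝ) (w : E (ι ⊕ κ)) : scl s (scl t w) = scl (s * t) w := by
  simp [scl_apply, smul_smul]

theorem scl_one (w : E (ι ⊕ κ)) : scl 1 w = w := by simp [scl_apply, comb_pr]

/-- the immersion `(x, y / s)` -/
def Imm.scale (M : Imm d (ι ⊕ κ) X) (s : ℝ) (hs : s ≠ 0) : Imm d (ι ⊕ κ) X where
  x p := scl s⁻¹ (M.x p)
  ch := M.ch
  mem := M.mem
  isChart p := by
    refine ⟨(scl (ι := ι) (κ := κ) s⁻¹).contDiff.comp_contDiffOn (M.isChart p).sm,
      fun z hz => ?_⟩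
    have h2 := (((M.isChart p).sm.contDiffAt ((M.ch p).open_target.mem_nhds hz)).differentiableAt
      (by simp)).hasFDerivAt
    have h4 : fderiv ℝ ((fun p => scl s⁻¹ (M.x p)) ∘ (M.ch p).symm) z = _ :=
      ((scl (ι := ι) (κ := κ) s⁻¹).hasFDerivAt.comp z h2).fderiv
    rw [h4]
    intro v w h
    have h5 := congrArg (scl s) h
    simp only [ContinuousLinearMap.comp_apply, scl_scl, mul_inv_cancel₀ hs, scl_one] at h5
    exact (M.isChart p).inj z hz h5

theorem Imm.scale_J (M : Imm d (ι ⊕ κ) X) {s : ℝ} (hs : s ≠ 0) (p : X) (v : E (Fin d)) :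
    (M.scale s hs).J p v = scl s⁻¹ (M.J p v) := by
  have h2 := (((M.isChart p).sm.contDiffAt ((M.ch p).open_target.mem_nhds
    ((M.ch p).map_source (M.mem p)))).differentiableAt (by simp)).hasFDerivAt
  have h4 : (M.scale s hs).J p = _ :=
    ((scl (ι := ι) (κ := κ) s⁻¹).hasFDerivAt.comp (M.ch p p) h2).fderiv
  rw [h4]
  rfl

theorem Imm.scale_td (M : Imm d (ι ⊕ κ) X) {s : ℝ} (hs : s ≠ 0) {p : X}
    (hp : ∀ ξ : κ → ℝ, ∃ v, M.J p v = comb (ξ, 0)) {V : Type} [NormedAddCommGroup V]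
    [NormedSpace ℝ V] (f : X → V) (w : E (ι ⊕ κ)) :
    (M.scale s hs).td f p w = M.td f p (scl s w) := by
  rw [(M.scale s hs).td_unique f p (M.td f p ∘L scl s)]
  · rfl
  · intro v
    rw [ContinuousLinearMap.comp_apply, M.scale_J, scl_scl, mul_inv_cancel₀ hs, scl_one]
    change fderiv ℝ _ _ (ContinuousLinearMap.adjoint (Lam (M.J p)) (M.J p v)) = _
    rw [adj_Lam_apply (M.J_inj p)]
    rfl
  · intro w hw
    have h2 : prR w = 0 := by
      classical
      funext j
      obtain ⟨v, hv⟩ := hp (Pi.single j s)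
      have := hw v
      rw [M.scale_J, hv, scl_apply, inner_comb] at this
      simpa [Pi.single_apply, hs] using this
    have h3 : scl s w = w := by rw [scl_apply, h2, smul_zero, ← h2, comb_pr]
    change fderiv ℝ _ _ (ContinuousLinearMap.adjoint (Lam (M.J p)) (scl s w)) = _
    rw [h3, adj_Lam_eq_zero, map_zero]
    intro v
    have := hw v
    rw [M.scale_J, scl_apply, inner_comb, h2] at this
    rw [← comb_pr (M.J p v), inner_comb, h2]
    simpa using this

end Scale

end Crest.Agent.N222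

end
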