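import Crest.Agent.N222.A.Basic

/-! # Row 222, part A: the real inequalities of phase 0 (helper88) -/

set_option autoImplicit false
set_option linter.dupNamespace false
open Filter Set

noncomputable section

namespace Crest.Agent.N222.A.Ph0

/-- the terms with `χ` -/
theorem chi_block {U W χ y a k0 c0 c N0 q P : ℝ} (hW : 1 ≤ W) (U0 : 0 < U) (χ0 : 0 ≤ χ)
    (χy : χ ≤ 2 * y) (hq : q ≤ U ^ 2 / 4) (hP : U ^ 2 / 4 ≤ P) (k0p : 0 < k0) (cp : 0 < c)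
    (cc0 : c ≤ c0) (ha : |a| ≤ c0) (N0p : 0 < N0) (P2 : 32 * c0 ^ 2 * P ≤ k0)
    (P3 : 16 * c0 * P ≤ k0 * N0) :
    0 ≤ χ * y ^ 2 * (2 * W + 1) / U ^ 2 + 3 / 16 * k0 * χ - c / N0 * (q * χ) - |a| * χ ^ 2
      - 2 * a ^ 2 * (U ^ 2 / 4) * χ := by
  have c0p : 0 < c0 := cp.trans_le cc0
  have U2 : 0 < U ^ 2 := by positivity
  have a2 : a ^ 2 ≤ c0 ^ 2 := sq_le_sq' (abs_le.1 ha).1 (abs_le.1 ha).2
  have h1 : c / N0 * (q * χ) ≤ k0 / 16 * χ := by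
    rw [← mul_assoc]
    refine mul_le_mul_of_nonneg_right ?_ χ0
    rw [div_mul_eq_mul_div, div_le_iff₀ N0p]
    have : c * q ≤ c0 * P := by
      rcases le_total q 0 with h | h
      · nlinarith
      · exact mul_le_mul cc0 (hq.trans hP) h c0p.le
    linarith
  have h2 : 2 * a ^ 2 * (U ^ 2 / 4) * χ ≤ k0 / 16 * χ := by
    refine mul_le_mul_of_nonneg_right ?_ χ0
    have : a ^ 2 * (U ^ 2 / 4) ≤ c0 ^ 2 * P := mul_le_mul a2 hP (by positivity) (by positivity)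
    linarith
  have h3 : |a| * χ ^ 2 ≤ c0 * χ ^ 2 := mul_le_mul_of_nonneg_right ha (sq_nonneg _)
  have h4 : c0 * χ ^ 2 ≤ k0 / 16 * χ + 4 * c0 ^ 2 * χ ^ 3 / k0 := by
    have e : k0 / 16 * χ + 4 * c0 ^ 2 * χ ^ 3 / k0 - c0 * χ ^ 2 =
        χ * (k0 - 8 * c0 * χ) ^ 2 / (16 * k0) := by
      field_simp; ring
    have : 0 ≤ χ * (k0 - 8 * c0 * χ) ^ 2 / (16 * k0) := by positivity
    linarith
  have h5 : 4 * c0 ^ 2 * χ ^ 3 / k0 ≤ χ * y ^ 2 * (2 * W + 1) / U ^ 2 := by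
    rw [div_le_div_iff₀ k0p U2]
    have b1 : χ ^ 2 ≤ 4 * y ^ 2 := by nlinarith
    have b2 : c0 ^ 2 * U ^ 2 ≤ k0 / 8 := by nlinarith [sq_nonneg c0]
    have b3 : χ ^ 2 * (c0 ^ 2 * U ^ 2) ≤ 4 * y ^ 2 * (k0 / 8) :=
      mul_le_mul b1 b2 (by positivity) (by positivity)
    have b4 : 0 ≤ χ * y ^ 2 * k0 := by positivity
    have b5 := mul_le_mul_of_nonneg_left b3 χ0
    nlinarith
  linarith

/-- the term with the gradient of `A` -/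
theorem grad_block {U W t GA k0 : ℝ} (hW : 1 ≤ W) (hWt : W ^ 2 = 1 + t) (k0p : 0 < k0)
    (hGA : GA ^ 2 ≤ t * (k0 ^ 3 / 256)) :
    -(k0 / 16 * (1 - 1 / W ^ 2) + k0 ^ 2 * (U ^ 2 / 4) / 16) ≤ U * GA / W ^ 2 := by
  have W2 : 1 ≤ W ^ 2 := by nlinarith
  have W0 : 0 < W ^ 2 := by positivity
  have t0 : 0 ≤ t := by linarith
  set χ := 1 - 1 / W ^ 2 with hχ
  have e : χ = t / W ^ 2 := by rw [hχ]; field_simp; linarith
  have χ0 : 0 ≤ χ := by rw [e]; positivity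
  have h1 : (GA / W ^ 2) ^ 2 ≤ χ * (k0 ^ 3 / 256) := by
    rw [div_pow, div_le_iff₀ (by positivity), e]
    have : t / W ^ 2 * (k0 ^ 3 / 256) * (W ^ 2) ^ 2 = t * (k0 ^ 3 / 256) * W ^ 2 := by
      field_simp
    rw [this]
    exact hGA.trans (le_mul_of_one_le_right (by positivity) W2)
  have h2 : (U * GA / W ^ 2) ^ 2 ≤ (k0 / 16 * χ + k0 ^ 2 * (U ^ 2 / 4) / 16) ^ 2 := by
    rw [mul_div_assoc, mul_pow]
    have := mul_le_mul_of_nonneg_left h1 (sq_nonneg U)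
    nlinarith [sq_nonneg (k0 / 16 * χ - k0 ^ 2 * (U ^ 2 / 4) / 16)]
  exact (abs_le.1 (abs_le_of_sq_le_sq' h2 (by positivity) |> abs_le.2)).1

theorem core {U W Q σ j a Ga k0 c0 c N0 V θ u0 v w GA t P A jj Bw : ℝ}
    (hW : 1 ≤ W) (hWt : W ^ 2 = 1 + t) (hU : U = u0 + v) (u0p : 0 < u0) (u1 : u0 ≤ 1)
    (v0 : 0 ≤ v) (hP : U ^ 2 / 4 ≤ P) (k0p : 0 < k0) (kQ : k0 ≤ Q) (QV : Q ≤ V) (cp : 0 < c)
    (cc0 : c ≤ c0) (A0 : 0 ≤ A) (A1 : A ≤ c0) (ha : a = c - A) (N0p : 0 < N0)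
    (hGa : Ga = -(c / N0) * (W ^ 2 * w) - GA) (hw : c * |w| ≤ Bw)
    (hGA : GA ^ 2 ≤ t * (k0 ^ 3 / 256)) (P1 : 2 * c0 * P ≤ 1) (P2 : 32 * c0 ^ 2 * P ≤ k0)
    (P3 : 16 * c0 * P ≤ k0 * N0)
    (hcase : (A = 0 ∧ GA = 0 ∧ Q = k0 ∧ θ = 0 ∧ 0 ≤ σ ∧ j = jj) ∨
      (σ = 0 ∧ j = 0 ∧ 0 ≤ jj ∧ (Q = k0 ∨ A = c0) ∧ θ * V ^ 2 ≤ Q ^ 2)) :
    -k0 * jj + 2 * k0 * c * σ + 3 / 4 * V ^ 2 * (θ * (v ^ 2 / 4))
        - u0 * (Bw / N0 + c0 * k0 * (1 + P) + V ^ 2) ≤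
      slow U W Q σ (U ^ 2 / 4 - u0 ^ 2 / 4 - σ) j a Ga
        - c / N0 * (v * w + v ^ 2 / 4 * (1 - 1 / W ^ 2)) + 2 * k0 * c * (v ^ 2 / 4) := by
  have W0 : 0 < W := by linarith
  have U0 : 0 < U := by linarith
  have c0p : 0 < c0 := cp.trans_le cc0
  have p0 : 0 < U ^ 2 / 4 := by positivity
  have iw0 : 0 < 1 / W := by positivity
  have iw1 : 1 / W ≤ 1 := by rw [div_le_one W0]; exact hW
  have e2 : 1 / W ^ 2 = (1 / W) ^ 2 := by field_simp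
  have χ0 : 0 ≤ 1 - 1 / W ^ 2 := by rw [e2]; exact sub_nonneg.2 (pow_le_one₀ iw0.le iw1)
  have χy : 1 - 1 / W ^ 2 ≤ 2 * (1 - 1 / W) := by rw [e2]; linarith [sq_nonneg (1 - 1 / W)]
  have hq : v ^ 2 / 4 ≤ U ^ 2 / 4 := by
    rw [hU]; linarith [sq_nonneg u0, mul_nonneg u0p.le v0]
  have haa : |a| ≤ c0 := by rw [ha, abs_le]; constructor <;> linarith
  have h1 := chi_block hW U0 χ0 χy hq hP k0p cp cc0 haa N0p P2 P3
  have h2 : -(u0 * (Bw / N0)) ≤ c / N0 * (u0 * w) := by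
    have b1 : -Bw ≤ c * w := by
      have := mul_le_mul_of_nonneg_left (neg_abs_le w) cp.le
      linarith
    have b2 : c / N0 * (u0 * w) = u0 * (c * w / N0) := by ring
    have b3 : -Bw / N0 ≤ c * w / N0 := div_le_div_of_nonneg_right b1 N0p.le
    have b4 := mul_le_mul_of_nonneg_left b3 u0p.le
    rw [b2]
    have : u0 * (-Bw / N0) = -(u0 * (Bw / N0)) := by ring
    linarith
  have h3 : k0 * (1 - 1 / W ^ 2) ≤ Q * (1 - 1 / W ^ 2) := mul_le_mul_of_nonneg_right kQ χ0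
  have h4 : U * Ga / W ^ 2 = -(c / N0 * (v * w)) - c / N0 * (u0 * w) - U * GA / W ^ 2 := by
    rw [hGa, hU]; field_simp; ring
  have h5 : c * k0 * (u0 * v) ≤ u0 * (c0 * k0 * (1 + P)) := by
    have b1 : v ≤ 1 + P := by linarith [sq_nonneg (U / 2 - 1)]
    have b2 : c * v ≤ c0 * (1 + P) := mul_le_mul cc0 b1 v0 c0p.le
    have b3 := mul_le_mul_of_nonneg_left b2 (mul_pos u0p k0p).le
    linarith
  have er : U ^ 2 / 4 - u0 ^ 2 / 4 = v ^ 2 / 4 + u0 * v / 2 := by rw [hU]; ring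
  have hr0 : 0 ≤ U ^ 2 / 4 - u0 ^ 2 / 4 := by rw [er]; positivity
  have hV : 0 ≤ u0 * V ^ 2 := by positivity
  have kχ : 0 ≤ k0 * (1 - 1 / W ^ 2) := mul_nonneg k0p.le χ0
  unfold slow
  rw [h4]
  rcases hcase with ⟨rA, rG, rQ, rθ, σ0, rj⟩ | ⟨rσ, rj, jj0, hQ, hθ⟩
  · have ea : a = c := by rw [ha, rA, sub_zero]
    have b1 : 0 ≤ 7 / 8 * Q ^ 2 * (U ^ 2 / 4 - u0 ^ 2 / 4 - σ) ^ 2 / (U ^ 2 / 4) := by positivity
    have y0 : 0 ≤ 1 - 1 / W := by linarith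
    have b2 : 2 * c * k0 * σ * (1 - 1 / W) ≤ Q * σ * (1 - 1 / W) / (U ^ 2 / 4) := by
      rw [le_div_iff₀ p0, rQ]
      have : 2 * c * (U ^ 2 / 4) ≤ 1 := by
        have := mul_le_mul cc0 hP p0.le c0p.le
        linarith
      have b := mul_le_mul_of_nonneg_left this (show 0 ≤ k0 * σ * (1 - 1 / W) by positivity)
      linarith
    have b3 : 2 * a * Q * (U ^ 2 / 4 - u0 ^ 2 / 4 - σ) / W =
        2 * c * k0 * (v ^ 2 / 4 + u0 * v / 2 - σ)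
          - 2 * c * k0 * (U ^ 2 / 4 - u0 ^ 2 / 4) * (1 - 1 / W)
          + 2 * c * k0 * σ * (1 - 1 / W) := by
      rw [ea, rQ, ← er]; field_simp; ring
    have b4 : 0 ≤ 2 * c * k0 * (U ^ 2 / 4 - u0 ^ 2 / 4) * (1 - 1 / W) := by positivity
    have b5 : Q * j = k0 * jj := by rw [rQ, rj]
    rw [b3, b5, rG, rθ]
    simp only [mul_zero, zero_div, zero_mul]
    linarith
  · have g1 := grad_block (U := U) hW hWt k0p hGA
    have Q0 : 0 < Q := k0p.trans_le kQ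
    have b1 : 7 / 8 * Q ^ 2 * (U ^ 2 / 4 - 2 * (u0 ^ 2 / 4)) ≤
        7 / 8 * Q ^ 2 * (U ^ 2 / 4 - u0 ^ 2 / 4 - σ) ^ 2 / (U ^ 2 / 4) := by
      rw [le_div_iff₀ p0, rσ]
      have : 0 ≤ Q ^ 2 * (u0 ^ 2 / 4) ^ 2 := by positivity
      linarith
    have b2 : k0 ^ 2 * (U ^ 2 / 4) ≤ Q ^ 2 * (U ^ 2 / 4) :=
      mul_le_mul_of_nonneg_right (pow_le_pow_left₀ k0p.le kQ 2) p0.le
    have b3 : Q ^ 2 * (v ^ 2 / 4) ≤ Q ^ 2 * (U ^ 2 / 4) := mul_le_mul_of_nonneg_left hq (sq_nonneg _)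
    have b4 : θ * V ^ 2 * (v ^ 2 / 4) ≤ Q ^ 2 * (v ^ 2 / 4) :=
      mul_le_mul_of_nonneg_right hθ (by positivity)
    have b5 : Q ^ 2 * u0 ^ 2 ≤ u0 * V ^ 2 := by
      have c1 : Q ^ 2 ≤ V ^ 2 := pow_le_pow_left₀ Q0.le QV 2
      have c2 : u0 ^ 2 ≤ u0 := by linarith [mul_le_mul_of_nonneg_left u1 u0p.le]
      linarith [mul_le_mul c1 c2 (sq_nonneg _) (sq_nonneg _)]
    have b6 : 2 * a * Q * (U ^ 2 / 4 - u0 ^ 2 / 4 - σ) / W ≤
        2 * c * k0 * (v ^ 2 / 4 + u0 * v / 2) := by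
      rw [rσ, sub_zero, ← er, div_eq_mul_one_div]
      rcases hQ with hQ | hQ
      · rw [hQ]
        have c1 : a * (1 / W) ≤ c := by
          have : a * (1 / W) ≤ c * (1 / W) := mul_le_mul_of_nonneg_right (by linarith) iw0.le
          linarith [mul_le_mul_of_nonneg_left iw1 cp.le]
        have := mul_le_mul_of_nonneg_left c1
          (show 0 ≤ 2 * k0 * (U ^ 2 / 4 - u0 ^ 2 / 4) by positivity)
        linarith
      · have c1 : 0 ≤ -a := by linarith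
        have c2 : 0 ≤ 2 * -a * Q * (U ^ 2 / 4 - u0 ^ 2 / 4) * (1 / W) := by positivity
        have c3 : 0 ≤ 2 * c * k0 * (U ^ 2 / 4 - u0 ^ 2 / 4) := by positivity
        linarith
    have b7 : 0 ≤ k0 * jj := by positivity
    have b8 : 0 ≤ Q ^ 2 * (U ^ 2 / 4) := by positivity
    have b9 : Q * σ * (1 - 1 / W) / (U ^ 2 / 4) = 0 := by rw [rσ]; simp
    have b10 : 2 * k0 * c * σ = 0 := by rw [rσ]; simp
    rw [b9, b10, rj]
    linarith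

theorem exp_gain {k0 c0 N0 N q : ℝ} (k0p : 0 < k0) (c0p : 0 < c0) (N0p : 0 < N0) (q0 : 0 ≤ q)
    (q1 : q ≤ N0) : 2 * k0 * (c0 * Real.exp (-N / N0)) * q ≤
      4 * k0 * c0 * N0 * (1 - Real.exp (-(N + q) / N0))
        - 4 * k0 * c0 * N0 * (1 - Real.exp (-N / N0)) := by
  have e : Real.exp (-(N + q) / N0) = Real.exp (-N / N0) * Real.exp (-(q / N0)) := by
    rw [← Real.exp_add]; congr 1; ring
  have x0 : 0 ≤ q / N0 := by positivity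
  have x1 : q / N0 ≤ 1 := by rw [div_le_one N0p]; exact q1
  have h1 : Real.exp (-(q / N0)) ≤ 1 - q / N0 / 2 := by
    rw [Real.exp_neg, inv_le_comm₀ (Real.exp_pos _) (by linarith)]
    refine le_trans ?_ (Real.add_one_le_exp _)
    rw [inv_le_comm₀ (by linarith) (by linarith), ← one_div, div_le_iff₀ (by linarith)]
    nlinarith
  have h2 := mul_le_mul_of_nonneg_left h1
    (show 0 ≤ 4 * k0 * c0 * N0 * Real.exp (-N / N0) by positivity)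
  have h3 : 4 * k0 * c0 * N0 * Real.exp (-N / N0) * (q / N0 / 2) =
      2 * k0 * (c0 * Real.exp (-N / N0)) * q := by field_simp; ring
  rw [e]
  nlinarith

theorem w_bound {c0 N0 N n' w : ℝ} (c0p : 0 < c0) (N0p : 0 < N0) (hN : 0 ≤ N) (hn : 0 ≤ n')
    (hw : w ^ 2 ≤ N * n') : c0 * Real.exp (-N / N0) * |w| ≤ c0 * (1 + n' * N0) := by
  have h1 : |w| ≤ 1 + n' * N := by nlinarith [sq_abs w, sq_nonneg (|w| - 1), abs_nonneg w]
  have h2 : Real.exp (-N / N0) ≤ 1 := Real.exp_le_one_iff.2 (by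
    rw [neg_div]; exact neg_nonpos.2 (by positivity))
  have h3 : Real.exp (-N / N0) * N ≤ N0 := by
    have b1 := Real.add_one_le_exp (N / N0)
    have b2 : Real.exp (-N / N0) * Real.exp (N / N0) = 1 := by
      rw [← Real.exp_add, neg_div, neg_add_cancel, Real.exp_zero]
    have b3 := mul_le_mul_of_nonneg_left b1 (Real.exp_pos (-N / N0)).le
    have b4 : Real.exp (-N / N0) * (N / N0) ≤ 1 := by
      nlinarith [Real.exp_pos (-N / N0)]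
    rw [← mul_div_assoc, div_le_one N0p] at b4
    exact b4
  have h4 := mul_le_mul_of_nonneg_left h1 (Real.exp_pos (-N / N0)).le
  have h5 := mul_le_mul_of_nonneg_left h3 hn
  rw [mul_assoc]
  refine mul_le_mul_of_nonneg_left ?_ c0p.le
  nlinarith

theorem exp_two : 1 / 9 ≤ Real.exp (-2) := by
  rw [Real.exp_neg, one_div]
  refine inv_anti₀ (Real.exp_pos _) ?_
  have h := Real.exp_one_lt_d9
  have e : Real.exp 2 = Real.exp 1 * Real.exp 1 := by rw [← Real.exp_add]; norm_num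
  rw [e]
  nlinarith [Real.exp_pos 1]

end Crest.Agent.N222.A.Ph0

end
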