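import Crest.Agent.N222.A.Basic

/-! # Row 222, part A: real inequalities for the stage lemma (helper11) -/

set_option autoImplicit false
set_option linter.dupNamespace false
open Filter Set

noncomputable section

namespace Crest.Agent.N222.A.Stg

/-- Riccati difference bound for `h ↦ h⁻²`. -/
theorem ric_diff {h h' D : ℝ} (hh : 0 < h) (hh' : h / 2 ≤ h') (hD : h - h' ≤ D) (hD0 : 0 ≤ D) :
    (h' ^ 2)⁻¹ - (h ^ 2)⁻¹ ≤ 8 * D * (h⁻¹) ^ 3 := by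
  have hh'0 : 0 < h' := by linarith
  rcases le_or_gt h h' with hle | hlt
  · have : (h' ^ 2)⁻¹ ≤ (h ^ 2)⁻¹ := by
      apply inv_anti₀ (by positivity); nlinarith
    have : 0 ≤ 8 * D * (h⁻¹) ^ 3 := by positivity
    linarith
  · have e : (h' ^ 2)⁻¹ - (h ^ 2)⁻¹ = (h - h') * (h + h') / (h ^ 2 * h' ^ 2) := by
      field_simp; ring
    have e2 : 8 * D * (h⁻¹) ^ 3 = D * (2 * h) / (h ^ 2 * (h / 2) ^ 2) := by
      field_simp; ring
    rw [e, e2]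
    apply div_le_div₀ (by positivity) _ (by positivity)
    · have : (h / 2) ^ 2 ≤ h' ^ 2 := by nlinarith
      exact mul_le_mul_of_nonneg_left this (by positivity)
    · exact mul_le_mul hD (by linarith) (by linarith) hD0

/-- AM-GM of the stage step, normalised. -/
theorem amgm0 {x p a : ℝ} (hx : 102 ≤ x) (hp : 0 < p) (ha : 0 ≤ a) :
    16 * x * |p - a| / 51 ≤ 7 / 32 * x ^ 2 * (p - a) ^ 2 / p + a / 2 := by
  have hr0 : 0 ≤ |p - a| := abs_nonneg _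
  have hr2 : (p - a) ^ 2 = |p - a| ^ 2 := (sq_abs _).symm
  have hpr : p ≤ |p - a| + a := by have := le_abs_self (p - a); linarith
  rw [hr2]
  generalize |p - a| = r at *
  have h1 : x * r / 3 - 8 / 63 * p ≤ 7 / 32 * x ^ 2 * r ^ 2 / p := by
    rw [le_div_iff₀ hp]
    nlinarith [sq_nonneg (21 * x * r - 16 * p)]
  nlinarith [mul_nonneg (sub_nonneg.2 hx) hr0]

theorem amgm1 {g ι s p a : ℝ} (hι : 0 < ι) (hs : 0 < s) (hg : 102 * ι * s ≤ g) (hp : 0 < p)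
    (ha : 0 ≤ a) : 16 * (|p - a| / (51 * ι * s ^ 3)) * g ^ 3 ≤
      7 / 8 * (g ^ 2 / (2 * ι * s ^ 2)) ^ 2 * (p - a) ^ 2 / p + g ^ 2 * a / (2 * s ^ 2) := by
  have hx : 102 ≤ g / (ι * s) := by
    rw [le_div_iff₀ (by positivity)]; linarith
  have h12 := mul_le_mul_of_nonneg_left (amgm0 hx hp ha) (show 0 ≤ g ^ 2 / s ^ 2 by positivity)
  refine le_of_eq_of_le ?_ (h12.trans_eq ?_) <;> field_simp
  ring

/-- The stage step in numbers.  `h, h'` are the values of `H` before and after the step. -/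
theorem step_num {h h' z ι s τ J σ p p0 q w : ℝ} (hι : 0 < ι) (hs : 0 < s) (hz : 0 < z)
    (hh : z ≤ h) (hh1 : h * (102 * ι * s) ≤ 1) (hh' : h / 2 ≤ h')
    (hD : h - h' ≤ |q - σ| / (51 * ι * s ^ 3)) (hp : 0 < p) (hσ : 0 ≤ σ) (hp0 : 0 ≤ p0)
    (hq1 : p0 + q ≤ p) (hq2 : p ≤ p0 + q + w) (hτ0 : 0 ≤ τ) (hJ : 0 ≤ J)
    (hτ2 : τ + (J / ι + σ) / (2 * s ^ 2) ≤ 2) :
    (h' ^ 2)⁻¹ * (2 - (τ + (J / ι + σ) / (2 * s ^ 2))) - (h ^ 2)⁻¹ * (2 - τ) ≤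
      7 / 8 * ((h ^ 2)⁻¹ / (2 * ι * s ^ 2)) ^ 2 * (p - p0 - σ) ^ 2 / p
        - (h ^ 2)⁻¹ / (2 * ι * s ^ 2) * J
        + (16 * (w / (51 * ι * s ^ 3) * (z⁻¹) ^ 3) + (z⁻¹) ^ 2 * p0 / (2 * s ^ 2)) := by
  have hh0 : 0 < h := lt_of_lt_of_le hz hh
  have hw : 0 ≤ w := by linarith
  have hD0 : 0 ≤ |q - σ| / (51 * ι * s ^ 3) := by positivity
  have h1 := ric_diff hh0 hh' hD hD0
  have hgm : h⁻¹ ≤ z⁻¹ := inv_anti₀ hz hh
  have hg0 : 0 < h⁻¹ := inv_pos.2 hh0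
  have hg1 : 102 * ι * s ≤ h⁻¹ := by
    rw [inv_eq_one_div, le_div_iff₀ hh0]; linarith
  rw [← inv_pow h] at h1 ⊢
  generalize h⁻¹ = g at *
  generalize (h' ^ 2)⁻¹ = G' at *
  have hqs : |q - σ| ≤ |p - (σ + p0)| + w := by
    have := abs_sub_le q (p - p0) σ
    have e : p - p0 - σ = p - (σ + p0) := by ring
    have h6 : |q - (p - p0)| ≤ w := abs_le.2 ⟨by linarith, by linarith⟩
    rw [e] at this; linarith
  have h8 : |q - σ| / (51 * ι * s ^ 3) ≤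
      |p - (σ + p0)| / (51 * ι * s ^ 3) + w / (51 * ι * s ^ 3) := by
    rw [← add_div]; exact div_le_div_of_nonneg_right hqs (by positivity)
  have h5 := amgm1 (a := σ + p0) hι hs hg1 hp (by linarith)
  have h10 : w / (51 * ι * s ^ 3) * g ^ 3 ≤ w / (51 * ι * s ^ 3) * (z⁻¹) ^ 3 :=
    mul_le_mul_of_nonneg_left (pow_le_pow_left₀ hg0.le hgm 3) (by positivity)
  have h11 := mul_le_mul_of_nonneg_right h8 (show 0 ≤ g ^ 3 by positivity)
  have h13 : g ^ 2 * p0 / (2 * s ^ 2) ≤ (z⁻¹) ^ 2 * p0 / (2 * s ^ 2) :=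
    div_le_div_of_nonneg_right
      (mul_le_mul_of_nonneg_right (pow_le_pow_left₀ hg0.le hgm 2) hp0) (by positivity)
  have e4 : g ^ 2 * ((J / ι + σ) / (2 * s ^ 2))
      = g ^ 2 / (2 * ι * s ^ 2) * J + g ^ 2 * σ / (2 * s ^ 2) := by field_simp
  have e5 : g ^ 2 * (σ + p0) / (2 * s ^ 2)
      = g ^ 2 * σ / (2 * s ^ 2) + g ^ 2 * p0 / (2 * s ^ 2) := by ring
  have e6 : p - p0 - σ = p - (σ + p0) := by ring
  have hdτ0 : 0 ≤ (J / ι + σ) / (2 * s ^ 2) := by positivity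
  have h3 : 0 ≤ 8 * (|q - σ| / (51 * ι * s ^ 3)) * g ^ 3 := by positivity
  rw [e6]
  generalize (J / ι + σ) / (2 * s ^ 2) = dτ at *
  have h4 := mul_le_mul_of_nonneg_right h1 (show 0 ≤ 2 - (τ + dτ) by linarith)
  have h2 := mul_le_mul_of_nonneg_left (show 2 - (τ + dτ) ≤ 2 by linarith) h3
  linarith

theorem sqrt_le_add (a b d : ℝ) : √(a ^ 2 + d ^ 2) ≤ √(b ^ 2 + d ^ 2) + |a - b| := by
  have h0 := Real.sqrt_nonneg (b ^ 2 + d ^ 2)
  have h1 := Real.sq_sqrt (show 0 ≤ b ^ 2 + d ^ 2 by positivity)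
  have h2 : |b| ≤ √(b ^ 2 + d ^ 2) := Real.abs_le_sqrt (by nlinarith)
  have h3 : b * (a - b) ≤ √(b ^ 2 + d ^ 2) * |a - b| :=
    (le_abs_self _).trans (by rw [abs_mul]; exact mul_le_mul_of_nonneg_right h2 (abs_nonneg _))
  refine Real.sqrt_le_iff.2 ⟨by positivity, ?_⟩
  nlinarith [sq_abs (a - b)]

theorem abs_sqrt_sub_le (a b d : ℝ) : |√(a ^ 2 + d ^ 2) - √(b ^ 2 + d ^ 2)| ≤ |a - b| := by
  have h1 := sqrt_le_add a b d
  have h2 := sqrt_le_add b a d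
  rw [abs_sub_comm b a] at h2
  exact abs_le.2 ⟨by linarith, by linarith⟩

theorem sum_off {G : Type} [Fintype G] [DecidableEq G] (f f' : G → ℝ) (g : G)
    (h : ∀ g', g' ≠ g → f' g' = f g') : ∑ g', f' g' = ∑ g', f g' + (f' g - f g) := by
  rw [← Finset.add_sum_erase Finset.univ f' (Finset.mem_univ g),
    ← Finset.add_sum_erase Finset.univ f (Finset.mem_univ g),
    Finset.sum_congr rfl fun g' hg' => h g' (Finset.ne_of_mem_erase hg')]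
  ring

/-- the profile `H` -/
def Hf (r z Ys Y : ℝ) : ℝ := z + (r - z) * (1 - cut (Y / Ys))

section Hf

variable {r z Ys : ℝ}

theorem le_Hf (h : z ≤ r) (Y : ℝ) : z ≤ Hf r z Ys Y := by
  have := mul_nonneg (sub_nonneg.2 h) (sub_nonneg.2 (cut_le_one (Y / Ys)))
  unfold Hf; linarith

theorem Hf_le (h : z ≤ r) (Y : ℝ) : Hf r z Ys Y ≤ r := by
  have := mul_nonneg (sub_nonneg.2 h) (cut_nonneg (Y / Ys))
  unfold Hf; linarith

theorem Hf_zero : Hf r z Ys 0 = r := by simp [Hf, cut_zero]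

theorem Hf_top (hY : 0 < Ys) {Y : ℝ} (h : Ys ≤ Y) : Hf r z Ys Y = z := by
  rw [Hf, cut_one ((one_le_div hY).2 h)]; ring

theorem Hf_lip (hz : 0 ≤ z) (h : z ≤ r) (hY : 0 < Ys) (Y Y' : ℝ) :
    Hf r z Ys Y - Hf r z Ys Y' ≤ cc * r / Ys * |Y' - Y| := by
  have h1 := abs_cut_sub_le (Y' / Ys) (Y / Ys)
  rw [← sub_div, abs_div, abs_of_pos hY] at h1
  have h2 := mul_le_mul (show r - z ≤ r by linarith) h1 (abs_nonneg _) (by linarith)
  have h3 := mul_le_mul_of_nonneg_left (le_abs_self (cut (Y' / Ys) - cut (Y / Ys)))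
    (sub_nonneg.2 h)
  have e : cc * r / Ys * |Y' - Y| = r * (cc * (|Y' - Y| / Ys)) := by ring
  unfold Hf; rw [e]; linarith

theorem hasDerivAt_Hf (Y : ℝ) :
    HasDerivAt (Hf r z Ys) ((r - z) * -(deriv cut (Y / Ys) * (1 / Ys))) Y :=
  ((((hasDerivAt_cut (Y / Ys)).comp Y ((hasDerivAt_id Y).div_const Ys)).const_sub 1).const_mul
    (r - z)).const_add z

theorem sm_Hf {Z : Type} {A : Alg Z} {f : Z → ℝ} (hf : A.Sm f) :
    A.Sm fun x => Hf r z Ys (f x) :=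
  Alg.const_add z (Alg.smul _ (Alg.const_sub 1 (Alg.cut (Alg.div_const hf Ys))))

end Hf

end Crest.Agent.N222.A.Stg

end
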