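import Crest.Agent.N222.A.Stage0

/-! # Row 222, part A: the deviation `Y` and the slowness of the stage coefficient (helper11) -/

set_option autoImplicit false
set_option linter.dupNamespace false
open Filter Set

noncomputable section

namespace Crest.Agent.N222.A.Stg

variable {Z : Type} {A : Alg Z} {G : Type} [Fintype G]

/-- the smoothed deviation of the added masses from the sources -/
def Yf (dl : ℝ) (c : G → ℝ) (σ Δ : G → Z → ℝ) (x : Z) : ℝ :=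
  ∑ g, (√((Δ g x - c g * σ g x) ^ 2 + dl ^ 2) - dl)

variable {dl : ℝ} {c : G → ℝ} {σ Δ : G → Z → ℝ}

theorem sm_term (hdl : 0 < dl) {e : Z → ℝ} (he : A.Sm e) :
    A.Sm fun x => √(e x ^ 2 + dl ^ 2) - dl :=
  Alg.sub_const (Alg.sqrt (Alg.add_const (Alg.pow he 2) _) fun _ => by positivity) dl

theorem sm_Yf (hdl : 0 < dl) (sσ : ∀ g, A.Sm (σ g)) (sΔ : ∀ g, A.Sm (Δ g)) :
    A.Sm (Yf dl c σ Δ) :=
  Alg.sum _ fun g _ => sm_term hdl (Alg.sub (sΔ g) (Alg.smul (c g) (sσ g)))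

theorem sum_abs_le (dl : ℝ) (c : G → ℝ) (σ Δ : G → Z → ℝ) (x : Z) :
    ∑ g, |Δ g x - c g * σ g x| ≤ Yf dl c σ Δ x + Fintype.card G * dl := by
  have : ∑ g, |Δ g x - c g * σ g x| ≤
      ∑ g, ((√((Δ g x - c g * σ g x) ^ 2 + dl ^ 2) - dl) + dl) :=
    Finset.sum_le_sum fun g _ => by
      have : |Δ g x - c g * σ g x| ≤ √((Δ g x - c g * σ g x) ^ 2 + dl ^ 2) :=
        Real.abs_le_sqrt (by nlinarith)
      linarith
  rw [Finset.sum_add_distrib] at this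
  simpa [Yf] using this

theorem hasDerivAt_term (hdl : 0 < dl) (e : ℝ) :
    HasDerivAt (fun t => √(t ^ 2 + dl ^ 2) - dl) (e / √(e ^ 2 + dl ^ 2)) e := by
  have h1 : HasDerivAt (fun t : ℝ => t ^ 2 + dl ^ 2) (2 * e) e := by
    simpa using (hasDerivAt_pow 2 e).add_const (dl ^ 2)
  have h2 := (h1.sqrt (by positivity)).sub_const dl
  rwa [mul_div_mul_left _ _ two_ne_zero] at h2

theorem gam_Yf (T : Pt A) (hdl : 0 < dl) (sσ : ∀ g, A.Sm (σ g)) (sΔ : ∀ g, A.Sm (Δ g))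
    (nσ : ∀ g, 0 ≤ σ g T.p) (nΔ : ∀ g, 0 ≤ Δ g T.p) {I I' B : ℝ} (fΔ : T.Fi Δ I)
    (fσ : T.Fi σ I') (hc : ∀ g, |c g| ≤ B) :
    T.Γ (Yf dl c σ Δ) (Yf dl c σ Δ) ≤
      2 * ((∑ g, Δ g T.p) * I) + 2 * (B ^ 2 * (∑ g, σ g T.p) * I') := by
  set k : G → ℝ := fun g => (Δ g T.p - c g * σ g T.p) / √((Δ g T.p - c g * σ g T.p) ^ 2 + dl ^ 2)
    with hk
  have k1 : ∀ g, |k g| ≤ 1 := fun g => by
    have h3 : 0 < √((Δ g T.p - c g * σ g T.p) ^ 2 + dl ^ 2) := Real.sqrt_pos.2 (by positivity)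
    rw [hk, abs_div, abs_of_pos h3, div_le_one h3]
    exact Real.abs_le_sqrt (by nlinarith)
  have sa : A.Sm fun x => ∑ g, k g * Δ g x := Alg.sum _ fun g _ => Alg.smul _ (sΔ g)
  have sb : A.Sm fun x => ∑ g, -(k g * c g) * σ g x := Alg.sum _ fun g _ => Alg.smul _ (sσ g)
  have sY : A.Sm (Yf dl c σ Δ) := sm_Yf hdl sσ sΔ
  have ea : ∀ f, A.Sm f → T.Γ (fun x => ∑ g, k g * Δ g x) f = ∑ g, k g * T.Γ (Δ g) f :=
    fun f hf => by
      rw [T.sum_left _ (fun g _ => Alg.smul _ (sΔ g)) hf]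
      exact Finset.sum_congr rfl fun g _ => T.smul_left _ (sΔ g) hf
  have eb : ∀ f, A.Sm f →
      T.Γ (fun x => ∑ g, -(k g * c g) * σ g x) f = ∑ g, -(k g * c g) * T.Γ (σ g) f :=
    fun f hf => by
      rw [T.sum_left _ (fun g _ => Alg.smul _ (sσ g)) hf]
      exact Finset.sum_congr rfl fun g _ => T.smul_left _ (sσ g) hf
  have eY : ∀ f, A.Sm f → T.Γ (Yf dl c σ Δ) f =
      T.Γ (fun x => (∑ g, k g * Δ g x) + ∑ g, -(k g * c g) * σ g x) f := fun f hf => by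
    have se : ∀ g, A.Sm fun x => Δ g x - c g * σ g x := fun g =>
      Alg.sub (sΔ g) (Alg.smul (c g) (sσ g))
    rw [T.add sa sb hf, ea f hf, eb f hf, ← Finset.sum_add_distrib]
    refine (T.sum_left _ (fun g _ => sm_term hdl (se g)) hf).trans
      (Finset.sum_congr rfl fun g _ => ?_)
    rw [T.chain (φ := fun t => √(t ^ 2 + dl ^ 2) - dl) (se g) (sm_term hdl (se g)) hf
      (hasDerivAt_term hdl _), T.sub_left (sΔ g) (Alg.smul (c g) (sσ g)) hf,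
      T.smul_left _ (sσ g) hf]
    simp only [hk]; ring
  have h1 := fΔ.lin sΔ nΔ sa k1 (ea _ sa)
  have h2 := fσ.lin sσ nσ sb (c := fun g => -(k g * c g)) (B := B) (fun g => by
    rw [abs_neg, abs_mul]
    exact (mul_le_mul (k1 g) (hc g) (abs_nonneg _) zero_le_one).trans_eq (one_mul _)) (eb _ sb)
  rw [eY _ sY, T.symm (A.add sa sb) sY, eY _ (A.add sa sb)]
  have h3 := T.add_self_le sa sb
  linarith

/-- the coefficient of the stage is slow -/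
theorem slowQ (T : Pt A) {Y : Z → ℝ} (sY : A.Sm Y) {r z Ys ι s : ℝ} (hz : 0 < z) (hzr : z ≤ r)
    (hYs : 0 < Ys) (hι : 0 < ι) (hs : 0 < s) (hL : cc * r / Ys = 1 / (51 * ι * s ^ 3))
    (hΓ : Y T.p < Ys → T.Γ Y Y ≤ 4 * ι * s ^ 4) :
    T.Γ (fun x => (Hf r z Ys (Y x) ^ 2)⁻¹ / (2 * ι * s ^ 2))
        (fun x => (Hf r z Ys (Y x) ^ 2)⁻¹ / (2 * ι * s ^ 2)) ≤
      ((Hf r z Ys (Y T.p) ^ 2)⁻¹ / (2 * ι * s ^ 2)) ^ 3 / 64 := by
  have hp : ∀ t, 0 < Hf r z Ys t := fun t => hz.trans_le (le_Hf hzr t)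
  have sQ : A.Sm fun x => (Hf r z Ys (Y x) ^ 2)⁻¹ / (2 * ι * s ^ 2) :=
    Alg.div_const (Alg.inv (Alg.pow (sm_Hf sY) 2) fun x => pow_pos (hp _) 2) _
  have hd := (((hasDerivAt_Hf (r := r) (z := z) (Ys := Ys) (Y T.p)).pow 2).inv
    (pow_pos (hp (Y T.p)) 2).ne').div_const (2 * ι * s ^ 2)
  rw [T.chain_self (φ := fun t => (Hf r z Ys t ^ 2)⁻¹ / (2 * ι * s ^ 2)) sY sQ hd]
  have h0 := hp (Y T.p)
  simp only [Pi.pow_apply]
  rcases lt_or_ge (Y T.p) Ys with h | h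
  · have h1 := hΓ h
    have h2 : |(r - z) * -(deriv cut (Y T.p / Ys) * (1 / Ys))| ≤ 1 / (51 * ι * s ^ 3) := by
      rw [← hL, abs_mul, abs_neg, abs_mul, abs_of_nonneg (sub_nonneg.2 hzr),
        abs_of_pos (one_div_pos.2 hYs)]
      have := mul_le_mul (show r - z ≤ r by linarith)
        (mul_le_mul_of_nonneg_right (abs_deriv_cut_le (Y T.p / Ys)) (one_div_pos.2 hYs).le)
        (by positivity) (by linarith)
      exact this.trans_eq (by ring)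
    generalize (r - z) * -(deriv cut (Y T.p / Ys) * (1 / Ys)) = D at *
    generalize Hf r z Ys (Y T.p) = h at *
    have h3 : D ^ 2 ≤ (1 / (51 * ι * s ^ 3)) ^ 2 := sq_le_sq' (abs_le.1 h2).1 (abs_le.1 h2).2
    have h4 := mul_le_mul h3 h1 (T.nonneg sY) (sq_nonneg _)
    have h5 := mul_le_mul_of_nonneg_left h4
      (show 0 ≤ 1 / (h ^ 6 * ι ^ 2 * s ^ 4) by positivity)
    refine le_of_eq_of_le ?_ (h5.trans ?_)
    · norm_num; field_simp
    · have e1 : 1 / (h ^ 6 * ι ^ 2 * s ^ 4) * ((1 / (51 * ι * s ^ 3)) ^ 2 * (4 * ι * s ^ 4))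
          = 4 / 2601 * (1 / (h ^ 6 * ι ^ 3 * s ^ 6)) := by field_simp; norm_num
      have e2 : ((h ^ 2)⁻¹ / (2 * ι * s ^ 2)) ^ 3 / 64
          = 1 / 512 * (1 / (h ^ 6 * ι ^ 3 * s ^ 6)) := by field_simp; norm_num
      rw [e1, e2]
      exact mul_le_mul_of_nonneg_right (by norm_num) (by positivity)
  · rw [cut_deriv_zero (Or.inr ((one_le_div hYs).2 h))]
    simp only [zero_mul, neg_zero, mul_zero, zero_div, ne_eq, OfNat.ofNat_ne_zero,
      not_false_eq_true, zero_pow]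
    positivity

theorem le_slow {U W Q σ r j : ℝ} (hU : 0 < U) (hW : 1 ≤ W) (hQ : 0 ≤ Q) (hσ : 0 ≤ σ) :
    7 / 8 * Q ^ 2 * r ^ 2 / (U ^ 2 / 4) - Q * j ≤ slow U W Q σ r j 0 0 := by
  have h0 : 0 < W := by linarith
  have h1 : 0 ≤ 1 - 1 / W ^ 2 := sub_nonneg.2 ((div_le_one (by positivity)).2 (by nlinarith))
  have h2 : 0 ≤ 1 - 1 / W := sub_nonneg.2 ((div_le_one h0).2 hW)
  have a1 : 0 ≤ (1 - 1 / W ^ 2) * (1 - 1 / W) ^ 2 * (2 * W + 1) / U ^ 2 := by positivity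
  have a2 : 0 ≤ 3 / 8 * Q * (1 - 1 / W ^ 2) := by positivity
  have a3 : 0 ≤ Q * σ * (1 - 1 / W) / (U ^ 2 / 4) := by positivity
  simp only [slow, mul_zero, zero_mul, zero_div, abs_zero, ne_eq, OfNat.ofNat_ne_zero,
    not_false_eq_true, zero_pow]
  linarith

end Crest.Agent.N222.A.Stg

end
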