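import Crest.Agent.N222.A.Stage1

/-! # Row 222, part A: one step of a stage (helper11) -/

set_option autoImplicit false
set_option linter.dupNamespace false
open Filter Set

noncomputable section

namespace Crest.Agent.N222.A.Stg

/-- the clock of a stage -/
def tau {G : Type} [Fintype G] (ι s : ℝ) (c j σ : G → ℝ) : ℝ :=
  ∑ g, c g * ((j g / ι + σ g) / (2 * s ^ 2))

theorem tau_nonneg {G : Type} [Fintype G] {ι s : ℝ} {c j σ : G → ℝ} (hι : 0 < ι)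
    (hc : ∀ g, 0 ≤ c g) (hj : ∀ g, 0 ≤ j g) (hσ : ∀ g, 0 ≤ σ g) : 0 ≤ tau ι s c j σ :=
  Finset.sum_nonneg fun g _ => by have := hc g; have := hj g; have := hσ g; positivity

theorem tau_const {G : Type} [Fintype G] {ι s : ℝ} (j σ : G → ℝ) (hs : 0 < s) :
    tau ι s (fun _ => s ^ 2) j σ = ((∑ g, j g) / ι + ∑ g, σ g) / 2 := by
  rw [tau, Finset.sum_div, ← Finset.sum_add_distrib, Finset.sum_div]
  exact Finset.sum_congr rfl fun g _ => by field_simp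

theorem tau_le {G : Type} [Fintype G] {ι s : ℝ} {c j σ : G → ℝ} (hι : 0 < ι) (hs : 0 < s)
    (hc : ∀ g, c g ≤ s ^ 2) (hj : ∀ g, 0 ≤ j g) (hσ : ∀ g, 0 ≤ σ g) (sj : ∑ g, j g ≤ ι)
    (sσ : ∑ g, σ g ≤ 1) : tau ι s c j σ ≤ 1 := by
  have h1 : tau ι s c j σ ≤ tau ι s (fun _ => s ^ 2) j σ :=
    Finset.sum_le_sum fun g _ => mul_le_mul_of_nonneg_right (hc g)
      (by have := hj g; have := hσ g; positivity)
  have h2 := (div_le_one hι).2 sj
  rw [tau_const j σ hs] at h1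
  linarith

theorem v_num {v u a : ℝ} (hv : 0 ≤ v) (hu : 0 < u) (ha : 0 < a)
    (h : (u + v) ^ 2 ≤ u ^ 2 + 4 * a) : v ^ 2 / 4 ≤ a ∧ u ^ 2 / 4 + v ^ 2 / 4 ≤ (u + v) ^ 2 / 4 ∧
      (u + v) ^ 2 / 4 ≤ u ^ 2 / 4 + v ^ 2 / 4 + u * (1 + a) / 2 := by
  have h0 := mul_nonneg hu.le hv
  have h1 : v ^ 2 / 4 ≤ a := by nlinarith
  have h2 : v ≤ 1 + a := le_of_sq_le_sq (by nlinarith [sq_nonneg (1 - a)]) (by linarith)
  exact ⟨h1, by nlinarith, by nlinarith⟩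

/-- the constants of a stage -/
structure Cst (n' : ℝ) (k : ℕ) where
  r : ℝ
  z : ℝ
  Ys : ℝ
  dl : ℝ
  ι : ℝ
  s : ℝ
  ab : ℝ
  u0 : ℝ
  ε : ℝ
  R : ℕ
  hz : 0 < z
  hzr : z ≤ r
  hYs : 0 < Ys
  hdl : 0 < dl
  hι : 0 < ι
  hs : 0 < s
  hab : 0 < ab
  hu : 0 < u0
  hε : 0 < ε
  hL : cc * r / Ys = 1 / (51 * ι * s ^ 3)
  hr : r * (102 * ι * s) ≤ 1
  hk : Ys + k * dl ≤ s ^ 2
  hR : R * ab = s ^ 2
  hz2 : ab / (51 * ι * s ^ 3) ≤ z / 2
  hn : 2 * n' ≤ ι * s ^ 2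
  tiny : 16 * (u0 * (1 + ab) / 2 / (51 * ι * s ^ 3) * (z⁻¹) ^ 3)
    + (z⁻¹) ^ 2 * (u0 ^ 2 / 4) / (2 * s ^ 2) ≤ ε / 2

variable {n' s0 K0 : ℝ} (W : World n' s0 K0) (C : Cst n' (Fintype.card W.G)) (st : W.St)
  (M σ : W.G → W.Z → ℝ) (j : W.Pi → W.G → ℝ)

/-- the invariant of a stage -/
def SInv (t : W.G → ℕ) (a : W.St × (W.G → W.Z → ℝ)) : Prop :=
  (∀ g, t g ≤ C.R) ∧ W.Ok a.1 (fun g x => M g x + a.2 g x) ∧ W.Mass a.1 a.2 ∧ W.Le st a.1 ∧
  ∀ᶠ π in W.L, W.E st π - 2 * (C.r ^ 2)⁻¹ - C.ε * ∑ g, (t g : ℝ) ≤ W.E a.1 π -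
    (Hf C.r C.z C.Ys (Yf C.dl (fun g => t g * C.ab) σ a.2 (W.ev π)) ^ 2)⁻¹ *
      (2 - tau C.ι C.s (fun g => t g * C.ab) (j π) fun g => σ g (W.ev π))

theorem Yf_upd {Z G : Type} [Fintype G] [DecidableEq G] (dl ab : ℝ) (t : G → ℕ)
    (σ Δ : G → Z → ℝ) (g : G) (v : Z → ℝ) (x : Z) :
    |Yf dl (fun g' => (Function.update t g (t g + 1) g' : ℕ) * ab) σ (upd Δ g v) x
      - Yf dl (fun g' => t g' * ab) σ Δ x| ≤ |v x ^ 2 / 4 - ab * σ g x| := by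
  unfold Yf
  rw [sum_off (fun g' => √((Δ g' x - t g' * ab * σ g' x) ^ 2 + dl ^ 2) - dl) _ g
    (fun g' hg' => by simp [upd, hg']), add_sub_cancel_left,
    sub_sub_sub_cancel_right]
  refine (abs_sqrt_sub_le _ _ _).trans_eq ?_
  congr 1
  simp [upd]; ring

theorem tau_upd {G : Type} [Fintype G] [DecidableEq G] (ι s ab : ℝ) (t : G → ℕ) (j σ : G → ℝ)
    (g : G) : tau ι s (fun g' => (Function.update t g (t g + 1) g' : ℕ) * ab) j σ
      = tau ι s (fun g' => t g' * ab) j σ + (ab * j g / ι + ab * σ g) / (2 * s ^ 2) := by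
  unfold tau
  rw [sum_off (fun g' => t g' * ab * ((j g' / ι + σ g') / (2 * s ^ 2))) _ g
    (fun g' hg' => by simp [Function.update_of_ne hg'])]
  simp; ring

theorem sinv_step (hS : SlowStmt) (hn : 1 ≤ n')
    (hσ : ∀ g, W.A.Sm (σ g) ∧ W.Su g (σ g) ∧ ∀ x, 0 ≤ σ g x ∧ σ g x ≤ 1)
    (hj : ∀ᶠ π in W.L, ∑ g, σ g (W.ev π) ≤ 1 ∧ ∑ g, j π g ≤ C.ι ∧
      ∀ g, 0 ≤ j π g ∧ (W.pt st π).Γ (σ g) (σ g) ≤ j π g * σ g (W.ev π))
    (t : W.G → ℕ) (a : W.St × (W.G → W.Z → ℝ)) (g : W.G) (hg : t g < C.R)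
    (h : SInv W C st M σ j t a) :
    ∃ a', SInv W C st M σ j (Function.update t g (t g + 1)) a' := by
  obtain ⟨st1, Δ⟩ := a
  obtain ⟨ht, ok, ms, le, inv⟩ := h
  dsimp only at ok ms le inv
  have hι := C.hι
  have hs := C.hs
  have hab := C.hab
  have hp : ∀ t, 0 < Hf C.r C.z C.Ys t := fun t => C.hz.trans_le (le_Hf C.hzr t)
  have sY : W.A.Sm (Yf C.dl (fun g => t g * C.ab) σ Δ) := sm_Yf C.hdl (fun g => (hσ g).1) ms.sm
  have sσ : W.A.Sm fun x => C.ab * σ g x := Alg.smul _ (hσ g).1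
  obtain ⟨v, st2, sv, suv, hv, hvs, le2, -, -, hE⟩ := World.step hS st1 g
    (Q := fun x => (Hf C.r C.z C.Ys (Yf C.dl (fun g => t g * C.ab) σ Δ x) ^ 2)⁻¹
      / (2 * C.ι * C.s ^ 2)) (σ := fun x => C.ab * σ g x) (a := fun _ => 0) (abar := C.ab)
    (Alg.div_const (Alg.inv (Alg.pow (sm_Hf sY) 2) fun x => pow_pos (hp _) 2) _) sσ (W.A.const 0)
    (fun x => by have := hp (Yf C.dl (fun g => t g * C.ab) σ Δ x); positivity)
    (fun x => ⟨mul_nonneg hab.le ((hσ g).2.2 x).1, mul_le_of_le_one_right hab.le ((hσ g).2.2 x).2⟩)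
    (World.su_mono (hσ g).2.1 fun x hx => by simp [hx]) C.hu (half_pos C.hε)
  have ht' : ∀ g', Function.update t g (t g + 1) g' ≤ C.R := fun g' => by
    by_cases e : g' = g
    · subst e; rw [Function.update_self]; omega
    · rw [Function.update_of_ne e]; exact ht g'
  have hc : ∀ (t : W.G → ℕ), (∀ g, t g ≤ C.R) → ∀ g, (t g : ℝ) * C.ab ≤ C.s ^ 2 := fun t ht g =>
    C.hR ▸ mul_le_mul_of_nonneg_right (Nat.cast_le.2 (ht g)) hab.le
  refine ⟨(st2, upd Δ g v), ht', ⟨?_, ok.le.trans le2⟩, ms.upd sv suv hvs, le.trans le2, ?_⟩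
  · have := ok.toMass.upd sv suv hvs
    have e : upd (fun g x => M g x + Δ g x) g v = fun g' x => M g' x + upd Δ g v g' x := by
      funext g' x; simp only [upd, add_assoc]
    rwa [e] at this
  filter_upwards [inv, hj, ms.fi, hE] with π inv hj fi hE
  have hY := Yf_upd C.dl C.ab t σ Δ g v (W.ev π)
  have σ0 : ∀ g, 0 ≤ σ g (W.ev π) := fun g => ((hσ g).2.2 _).1
  have τ1 := tau_le hι hs (hc _ ht') (fun g => (hj.2.2 g).1) σ0 hj.2.1 hj.1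
  have τ0 := tau_nonneg (s := C.s) hι (c := fun g => t g * C.ab) (fun g => by positivity)
    (fun g => (hj.2.2 g).1) σ0
  have es : ∑ g', ((Function.update t g (t g + 1) g' : ℕ) : ℝ) = ∑ g', (t g' : ℝ) + 1 := by
    rw [sum_off (fun g' => (t g' : ℝ)) _ g (fun g' hg' => by simp [Function.update_of_ne hg'])]
    simp
  rw [tau_upd] at τ1 ⊢
  rw [es]
  have j0 : 0 ≤ C.ab * j π g := mul_nonneg hab.le (hj.2.2 g).1
  have s0 : 0 ≤ C.ab * σ g (W.ev π) := mul_nonneg hab.le (σ0 g)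
  have hε := C.hε
  by_cases hO : W.ev π ∈ W.O g
  · have hΓ : Yf C.dl (fun g => t g * C.ab) σ Δ (W.pt st1 π).p < C.Ys →
        (W.pt st1 π).Γ (Yf C.dl (fun g => t g * C.ab) σ Δ) (Yf C.dl (fun g => t g * C.ab) σ Δ)
          ≤ 4 * C.ι * C.s ^ 4 := fun hlt => by
      have fσ : (W.pt st1 π).Fi σ C.ι := ⟨j π, fun g => ⟨(hj.2.2 g).1, by
        rw [W.pt_p]; exact (le π _ (hσ g).1).trans (hj.2.2 g).2⟩, hj.2.1⟩
      have h1 := gam_Yf (W.pt st1 π) (c := fun g => t g * C.ab) (B := C.s ^ 2) C.hdl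
        (fun g => (hσ g).1) ms.sm (fun g => ((hσ g).2.2 _).1) (fun g => ms.nn g _) fi fσ
        (fun g => by rw [abs_of_nonneg (by positivity)]; exact hc t ht g)
      rw [W.pt_p] at h1 hlt
      have h2 := sum_abs_le C.dl (fun g => t g * C.ab) σ Δ (W.ev π)
      have h3 : ∑ g, Δ g (W.ev π) ≤
          ∑ g, (|Δ g (W.ev π) - t g * C.ab * σ g (W.ev π)| + C.s ^ 2 * σ g (W.ev π)) :=
        Finset.sum_le_sum fun g _ => by
          have := le_abs_self (Δ g (W.ev π) - t g * C.ab * σ g (W.ev π))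
          have := mul_le_mul_of_nonneg_right (hc t ht g) (σ0 g)
          linarith
      rw [Finset.sum_add_distrib, ← Finset.mul_sum] at h3
      have h4 := mul_le_mul_of_nonneg_left hj.1 (sq_nonneg C.s)
      have h5 : ∑ g, Δ g (W.ev π) ≤ 2 * C.s ^ 2 := by linarith [C.hk]
      have h6 := mul_le_mul h5 C.hn (by linarith) (by positivity)
      have h7 := mul_le_mul_of_nonneg_left hj.1
        (show 0 ≤ (C.s ^ 2) ^ 2 * C.ι by positivity)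
      linarith
    have h1 := slowQ (W.pt st1 π) sY C.hz C.hzr C.hYs hι hs C.hL hΓ
    rw [W.pt_p] at h1
    have h2 := hE.2 hO (C.ab * j π g) j0 h1 (by
      rw [(W.pt st1 π).smul_left _ (hσ g).1 sσ, (W.pt st1 π).smul_right _ (hσ g).1 (hσ g).1]
      have := mul_le_mul_of_nonneg_left ((le π _ (hσ g).1).trans (hj.2.2 g).2)
        (mul_self_nonneg C.ab)
      linarith)
    rw [(W.pt st1 π).const_right 0 sv] at h2
    obtain ⟨v0, v1⟩ := hv (W.ev π)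
    have hu := C.hu
    have h3 := le_slow (U := C.u0 + v (W.ev π)) (W := √(1 + (W.pt st1 π).Γ v v))
      (r := (C.u0 + v (W.ev π)) ^ 2 / 4 - C.u0 ^ 2 / 4 - C.ab * σ g (W.ev π)) (j := C.ab * j π g)
      (by linarith) (Real.one_le_sqrt.2 (by linarith [(W.pt st1 π).nonneg sv]))
      (show 0 ≤ (Hf C.r C.z C.Ys (Yf C.dl (fun g => t g * C.ab) σ Δ (W.ev π)) ^ 2)⁻¹
        / (2 * C.ι * C.s ^ 2) by positivity) s0
    have h4 := Hf_lip C.hz.le C.hzr C.hYs (Yf C.dl (fun g => t g * C.ab) σ Δ (W.ev π))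
      (Yf C.dl (fun g' => (Function.update t g (t g + 1) g' : ℕ) * C.ab) σ (upd Δ g v) (W.ev π))
    rw [C.hL] at h4
    have h5 := h4.trans (mul_le_mul_of_nonneg_left hY (by positivity))
    rw [one_div_mul_eq_div] at h5
    obtain ⟨v2, v3, v4⟩ := v_num v0 hu hab v1
    have s1 := mul_le_of_le_one_right hab.le ((hσ g).2.2 (W.ev π)).2
    have h6 : |v (W.ev π) ^ 2 / 4 - C.ab * σ g (W.ev π)| / (51 * C.ι * C.s ^ 3) ≤ C.z / 2 :=
      (div_le_div_of_nonneg_right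
        (abs_le.2 ⟨by linarith [sq_nonneg (v (W.ev π))], by linarith⟩) (by positivity)).trans C.hz2
    have h7 := le_Hf (Ys := C.Ys) C.hzr (Yf C.dl (fun g => t g * C.ab) σ Δ (W.ev π))
    have h8 := step_num (p := (C.u0 + v (W.ev π)) ^ 2 / 4) (p0 := C.u0 ^ 2 / 4)
      (w := C.u0 * (1 + C.ab) / 2) hι hs C.hz h7
      ((mul_le_mul_of_nonneg_right (Hf_le C.hzr _) (by positivity)).trans C.hr) (by linarith) h5
      (by positivity) s0 (by positivity) v3 v4 τ0 j0 (by linarith)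
    linarith [C.tiny]
  · have v0 := (W.su_out suv sv st1 π hO).1
    have σ1 := (W.su_out (hσ g).2.1 (hσ g).1 st1 π hO).1
    rw [v0, σ1] at hY
    have e := sub_eq_zero.1 (abs_nonpos_iff.1 (hY.trans_eq (by simp)))
    rw [e, hE.1 hO]
    have h1 : 0 ≤ (Hf C.r C.z C.Ys (Yf C.dl (fun g => t g * C.ab) σ Δ (W.ev π)) ^ 2)⁻¹ *
      ((C.ab * j π g / C.ι + C.ab * σ g (W.ev π)) / (2 * C.s ^ 2)) := by positivity
    linarith

end Crest.Agent.N222.A.Stg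

end
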